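import Mathlib.Tactic.NormNum
import Mathlib.Tactic.Linarith
import Mathlib.Tactic.Ring
import Mathlib.Tactic.Positivity
import Mathlib.Data.Real.Basic

/-! # Polynomial inequalities used in the proof for P226 -/

namespace Vale.P226

theorem polyD (u : ℝ) (h0 : 0 ≤ u) (h1 : u ≤ 0.5412) :
    (1 - u^2)^4 + 0.15 ≤ 0.75 * (2 - 3*u + u^3) := by
  have key : 0 ≤ 2.2492 - 3.0585*u - 4.2544*u^2 + 2.9098*u^3 + 2.8*u^4 := by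
    nlinarith [mul_nonneg h0 (sub_nonneg.mpr h1), mul_nonneg (mul_nonneg h0 h0) (sub_nonneg.mpr h1),
      sq_nonneg (u - 0.5412), mul_nonneg h0 (sq_nonneg (u - 0.5412)), sq_nonneg (u^2 - 0.29)]
  have k2 : 0 ≤ 3.5333 - 0.7889*u - u^2 - 2.8 := by nlinarith
  nlinarith [mul_nonneg (sq_nonneg (u - 493/1250)) key,
    mul_nonneg (sq_nonneg (u - 493/1250)) (mul_nonneg (pow_nonneg h0 4) k2),
    mul_nonneg h0 (sq_nonneg (u - 493/1250))]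

theorem polyG3 (w : ℝ) (h0 : 0 ≤ w) (h1 : w ≤ 1) :
    2 * (1 - (49/100)^2*w^4) ≤ 3.63*0.7*(1 + 0.49*w^2 - 0.686*w) := by
  nlinarith [sq_nonneg (w-0.57), sq_nonneg (w^2-0.33), mul_nonneg h0 (sub_nonneg.mpr h1), mul_nonneg (sq_nonneg w) (sq_nonneg (w-0.57))]

theorem polyG3E (w : ℝ) (h0 : 0 ≤ w) (h1 : w ≤ 0.504) :
    2 * (1 - (49/100)^2*w^4) ≤ 3.613*0.7*(1 + 0.49*w^2 - 0.686*w) := by
  nlinarith [sq_nonneg (w-0.504), sq_nonneg (w^2-0.254), mul_nonneg h0 (sub_nonneg.mpr h1)]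

theorem polyG5 (w : ℝ) (h0 : 0 ≤ w) (h1 : w ≤ 1) :
    w * (1 - (49/100)^2*w^4) ≤ 1.4037*0.7*(1 + 0.49*w^2 - 0.686*w) := by
  nlinarith [sq_nonneg (w-0.7), sq_nonneg (w^2-0.5), mul_nonneg h0 (sub_nonneg.mpr h1), sq_nonneg (w-1), mul_nonneg h0 (sq_nonneg (w-0.8))]

theorem polyG2 (w : ℝ) (h0 : 0 ≤ w) (h1 : w ≤ 0.5831) :
    w * (105 + 129.6*w^2 + 18.6624*w^4) ≤
      0.93387 * (105 + 129.6*w^2 + 18.6624*w^4 - 1.44*(35 + 12.96*w^2)) := by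
  nlinarith [mul_nonneg h0 (sub_nonneg.mpr h1), mul_nonneg (mul_nonneg h0 h0) (sub_nonneg.mpr h1),
    sq_nonneg (w - 0.5831), mul_nonneg (pow_nonneg h0 3) (sub_nonneg.mpr h1)]

theorem polyE_glob (q : ℝ) (h0 : 0 ≤ q) (h1 : q ≤ 1) : 16*q^2*(1-q)^2 ≤ 0.1517 + 1.9402*q := by
  nlinarith [sq_nonneg (q-0.37), mul_nonneg (mul_nonneg h0 (sub_nonneg.mpr h1)) (sq_nonneg (q-0.37)), mul_nonneg h0 (sub_nonneg.mpr h1)]

theorem polyE_small (q : ℝ) (h0 : 0 ≤ q) (h1 : q ≤ 0.085) : 16*q^2*(1-q)^2 ≤ 1.94*q := by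
  nlinarith [mul_nonneg h0 (sub_nonneg.mpr h1), mul_nonneg (mul_nonneg h0 h0) (sub_nonneg.mpr h1)]

theorem polyE_tangent (q : ℝ) (h0 : 0.085 ≤ q) (h1 : q ≤ 1) :
    16*q^2*(1-q)^2 ≤ 16*(0.28208:ℝ)^2*(1-0.28208)^2
      + 32*(0.28208*(1-0.28208))*(1-2*0.28208)*(q-0.28208) := by
  have : q^2+2*0.28208*q+3*(0.28208:ℝ)^2-2*q-4*0.28208+1 ≤ 0 := by nlinarith
  nlinarith [mul_le_mul_of_nonneg_left this (sq_nonneg (q-0.28208))]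

end Vale.P226
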