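import Mathlib.Tactic.NormNum
import Mathlib.Tactic.Linarith
import Mathlib.Tactic.Ring
import Mathlib.Tactic.Positivity
import Mathlib.Data.Real.Basic

/-! # The finite-dimensional inequality for the regime with three dominant cells (P226) -/

namespace Vale.P226

/-- the bound in regime A minus `9/4`, as a polynomial in `c = cos z`, `s = sin z` and `a` -/
noncomputable def PA (a c s : ℝ) : ℝ :=
  (2 - c^2 + c*(1 - a^2/2 + a^4/24) - s*(a - a^3/6)) * (1 - 0.77827*a/18)^2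
    + 4/3*0.77827*a - 9/4

lemma PA_anti {a c s s' : ℝ} (ha : 0 ≤ a) (ha1 : a ≤ 1) (h : s' ≤ s) : PA a c s ≤ PA a c s' := by
  have : 0 ≤ a - a^3/6 := by nlinarith [mul_nonneg ha (show (0:ℝ) ≤ 6 - a^2 by nlinarith)]
  have := mul_le_mul_of_nonneg_left h this
  unfold PA
  nlinarith [mul_le_mul_of_nonneg_right this (sq_nonneg (1 - 0.77827*a/18))]

/-- product Bernstein basis of bidegree (2, 6) on a rectangle -/
lemma bern26 {a c l r A : ℝ} (hl : l ≤ c) (hr : c ≤ r) (ha : 0 ≤ a) (hA : a ≤ A) :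
    0 ≤ (c - l)^0 * (r - c)^2 * (a^0 * (A - a)^6) ∧
    0 ≤ (c - l)^0 * (r - c)^2 * (a^1 * (A - a)^5) ∧
    0 ≤ (c - l)^0 * (r - c)^2 * (a^2 * (A - a)^4) ∧
    0 ≤ (c - l)^0 * (r - c)^2 * (a^3 * (A - a)^3) ∧
    0 ≤ (c - l)^0 * (r - c)^2 * (a^4 * (A - a)^2) ∧
    0 ≤ (c - l)^0 * (r - c)^2 * (a^5 * (A - a)^1) ∧
    0 ≤ (c - l)^0 * (r - c)^2 * (a^6 * (A - a)^0) ∧
    0 ≤ (c - l)^1 * (r - c)^1 * (a^0 * (A - a)^6) ∧
    0 ≤ (c - l)^1 * (r - c)^1 * (a^1 * (A - a)^5) ∧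
    0 ≤ (c - l)^1 * (r - c)^1 * (a^2 * (A - a)^4) ∧
    0 ≤ (c - l)^1 * (r - c)^1 * (a^3 * (A - a)^3) ∧
    0 ≤ (c - l)^1 * (r - c)^1 * (a^4 * (A - a)^2) ∧
    0 ≤ (c - l)^1 * (r - c)^1 * (a^5 * (A - a)^1) ∧
    0 ≤ (c - l)^1 * (r - c)^1 * (a^6 * (A - a)^0) ∧
    0 ≤ (c - l)^2 * (r - c)^0 * (a^0 * (A - a)^6) ∧
    0 ≤ (c - l)^2 * (r - c)^0 * (a^1 * (A - a)^5) ∧
    0 ≤ (c - l)^2 * (r - c)^0 * (a^2 * (A - a)^4) ∧
    0 ≤ (c - l)^2 * (r - c)^0 * (a^3 * (A - a)^3) ∧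
    0 ≤ (c - l)^2 * (r - c)^0 * (a^4 * (A - a)^2) ∧
    0 ≤ (c - l)^2 * (r - c)^0 * (a^5 * (A - a)^1) ∧
    0 ≤ (c - l)^2 * (r - c)^0 * (a^6 * (A - a)^0) := by
  have y := sub_nonneg.mpr hl
  have z := sub_nonneg.mpr hr
  have w := sub_nonneg.mpr hA
  refine ⟨?_, ?_, ?_, ?_, ?_, ?_, ?_, ?_, ?_, ?_, ?_, ?_, ?_, ?_, ?_, ?_, ?_, ?_, ?_, ?_, ?_⟩
  all_goals positivity

lemma PA_box0 {a c : ℝ} (hl : 0.5 ≤ c) (hr : c ≤ 0.55) (ha : 0 ≤ a) (hA : a ≤ 0.35978) :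
    PA a c (0.866 - 0.57736*(c - 1/2) - 1.032*(c - 1/2)^2) ≤ 0 := by
  obtain ⟨b0, b1, b2, b3, b4, b5, b6, b7, b8, b9, b10, b11, b12, b13, b14, b15, b16, b17, b18, b19, b20⟩ :=
    bern26 hl hr ha hA
  unfold PA
  ring_nf at *
  linarith

lemma PA_box1 {a c : ℝ} (hl : 0.55 ≤ c) (hr : c ≤ 0.8) (ha : 0 ≤ a) (hA : a ≤ 0.35978) :
    PA a c (0.866 - 0.57736*(c - 1/2) - 1.032*(c - 1/2)^2) ≤ 0 := by
  obtain ⟨b0, b1, b2, b3, b4, b5, b6, b7, b8, b9, b10, b11, b12, b13, b14, b15, b16, b17, b18, b19, b20⟩ :=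
    bern26 hl hr ha hA
  unfold PA
  ring_nf at *
  linarith

lemma PA_box2 {a c : ℝ} (hl : 0.8 ≤ c) (hr : c ≤ 0.95) (ha : 0 ≤ a) (hA : a ≤ 0.35978) :
    PA a c (0.6 + 1.92*(0.8 - c)) ≤ 0 := by
  obtain ⟨b0, b1, b2, b3, b4, b5, b6, b7, b8, b9, b10, b11, b12, b13, b14, b15, b16, b17, b18, b19, b20⟩ :=
    bern26 hl hr ha hA
  unfold PA
  ring_nf at *
  linarith

lemma PA_box3 {a c : ℝ} (hl : 0.95 ≤ c) (hr : c ≤ 1) (ha : 0 ≤ a) (hA : a ≤ 0.35978) :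
    PA a c (6.244*(1 - c)) ≤ 0 := by
  obtain ⟨b0, b1, b2, b3, b4, b5, b6, b7, b8, b9, b10, b11, b12, b13, b14, b15, b16, b17, b18, b19, b20⟩ :=
    bern26 hl hr ha hA
  unfold PA
  ring_nf at *
  linarith

theorem A_poly {a c s : ℝ} (ha : 0 ≤ a) (hA : a ≤ 0.35978) (hc : 1/2 ≤ c) (hc1 : c ≤ 1)
    (hs : 0 ≤ s) (hcs : s^2 + c^2 = 1) : PA a c s ≤ 0 := by
  rcases le_total c 0.8 with h | h
  · have h' : 0.866 - 0.57736*(c - 1/2) - 1.032*(c - 1/2)^2 ≤ s := by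
      nlinarith [mul_nonneg (sub_nonneg.mpr hc) (sub_nonneg.mpr h), sq_nonneg (c - 1/2), sq_nonneg (c - 0.8),
        mul_nonneg (mul_nonneg (sub_nonneg.mpr hc) (sub_nonneg.mpr h)) (sub_nonneg.mpr hc)]
    refine (PA_anti ha (by linarith) h').trans ?_
    rcases le_total c 0.55 with h2 | h2
    · exact PA_box0 (by linarith) h2 ha hA
    · exact PA_box1 h2 h ha hA
  rcases le_total c 0.95 with h2 | h2
  · have h' : 0.6 + 1.92*(0.8 - c) ≤ s := by nlinarith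
    exact (PA_anti ha (by linarith) h').trans (PA_box2 h h2 ha hA)
  · have h' : 6.244*(1 - c) ≤ s := by nlinarith
    exact (PA_anti ha (by linarith) h').trans (PA_box3 h2 hc1 ha hA)

end Vale.P226
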