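import Mathlib.Tactic.NormNum
import Mathlib.Tactic.Linarith
import Mathlib.Tactic.Ring
import Mathlib.Tactic.Positivity
import Mathlib.Data.Real.Basic

/-! # The finite-dimensional inequality for the regime with a large fourth cell (P226) -/

namespace Vale.P226

/-- `4q(1-q)` -/
noncomputable def vv (q : ℝ) : ℝ := 4 * q * (1 - q)

/-- derivative of `vv^2` -/
noncomputable def fd (q : ℝ) : ℝ := 32 * (q * (1 - q)) * (1 - 2*q)

/-- upper bound for the sum in regime C, minus `9/4` -/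
noncomputable def PC (a Q g t : ℝ) : ℝ :=
  vv a ^ 2 + 3 * vv ((1-a)/3) ^ 2 - 9/4 - fd ((1-a)/3) * Q - 32/9 * (a*(1-a)) * Q^2 + g*Q
    + t * (4 + t - (3 * vv a + vv (1 - Q - 3*a)))

/-- the squared-radius bound `X` -/
noncomputable def XC (a t : ℝ) : ℝ := vv a ^ 2 + (1 - vv a + 1/64) * t

/-- the coefficient bound for small cells -/
noncomputable def gC (a t : ℝ) : ℝ := 3.63 * (0.45 + XC a t / 0.864)

lemma vv_le_one (q : ℝ) : vv q ≤ 1 := by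
  unfold vv; nlinarith [sq_nonneg (1 - 2*q)]

lemma G1_nonneg (a : ℝ) : 0 ≤ 1 - vv a + 1/64 := by
  have := vv_le_one a; linarith

lemma gC_mono {a t T : ℝ} (h : t ≤ T) : gC a t ≤ gC a T := by
  have := mul_le_mul_of_nonneg_left h (G1_nonneg a)
  unfold gC XC
  norm_num
  linarith

lemma PC_mono {a Q g G t T : ℝ} (hQ : 0 ≤ Q) (hg : g ≤ G) (ht0 : 0 ≤ t) (ht : t ≤ T) :
    PC a Q g t ≤ PC a Q G T := by
  have h1 := vv_le_one a
  have h2 := vv_le_one (1 - Q - 3*a)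
  unfold PC
  nlinarith [mul_le_mul_of_nonneg_right hg hQ,
    mul_nonneg (sub_nonneg.mpr ht) (show 0 ≤ 4 + t + T - (3 * vv a + vv (1 - Q - 3*a)) by linarith)]

lemma cubic_chord {e B C D l h Q : ℝ} (hl : l ≤ Q) (hh : Q ≤ h) (hlh : l < h)
    (hc : 0 ≤ D * (Q + l + h) + C)
    (pl : e + B*l + C*l^2 + D*l^3 ≤ 0) (ph : e + B*h + C*h^2 + D*h^3 ≤ 0) :
    e + B*Q + C*Q^2 + D*Q^3 ≤ 0 := by
  nlinarith [mul_nonpos_of_nonneg_of_nonpos (sub_nonneg.mpr hh) pl,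
    mul_nonpos_of_nonneg_of_nonpos (sub_nonneg.mpr hl) ph,
    mul_nonneg (mul_nonneg (mul_nonneg (sub_nonneg.mpr hl) (sub_nonneg.mpr hh)) hc) (sub_nonneg.mpr hlh.le)]

theorem C_mid_poly (x Q : ℝ) (hx : 0 ≤ x) (hx1 : x ≤ 0.127) (hQ : 0 ≤ Q) (hQ4 : Q ≤ 4*x) :
    Q*(-(431/1600) - (2454653/7680000)*Q + (257/400)*Q^2) + x*Q*(4/3 - (3739/1800)*Q)
    + x^2*(-8/3 + (128/9)*x + (448/27)*x^2) + x^2*Q*(3913/300 + (32/9)*Q - (64/27)*x) ≤ 0 := by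
  rcases le_total x 0.08 with hx2 | hx2
  · have hA : -(431/1600) + (4/3)*x + (3913/300)*x^2 - (64/27)*x^3
        + Q*(-(2454653/7680000) - (3739/1800)*x + (32/9)*x^2) + (257/400)*Q^2 ≤ 0 := by
      nlinarith [mul_nonneg hQ (show (0:ℝ) ≤ 0.32 - Q by linarith), mul_nonneg hx (sub_nonneg.mpr hx2),
        mul_nonneg hQ hx, mul_nonneg (mul_nonneg hx hx) hx,
        mul_nonneg (mul_nonneg hQ hx) (sub_nonneg.mpr hx2)]
    have hB : -8/3 + (128/9)*x + (448/27)*x^2 ≤ 0 := by nlinarith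
    nlinarith [mul_nonpos_of_nonneg_of_nonpos hQ hA, mul_nonpos_of_nonneg_of_nonpos (sq_nonneg x) hB]
  rcases le_total Q 0.3 with h | h
  · nlinarith [mul_nonneg (mul_nonneg hQ hQ) (sub_nonneg.mpr h), sq_nonneg (Q - 0.13), mul_nonneg (sub_nonneg.mpr hx2) (sub_nonneg.mpr hx1), mul_nonneg hQ (sub_nonneg.mpr h), mul_nonneg hQ (mul_nonneg (sub_nonneg.mpr hx2) (sub_nonneg.mpr hx1)), mul_nonneg hQ (sub_nonneg.mpr hx1), mul_nonneg (sq_nonneg (Q-0.13)) (sub_nonneg.mpr hx1)]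
  · rcases le_total Q 0.4 with h' | h'
    · nlinarith [mul_nonneg (mul_nonneg hQ hQ) (sub_nonneg.mpr h'), sq_nonneg (Q - 0.3), mul_nonneg (sub_nonneg.mpr hx2) (sub_nonneg.mpr hx1), mul_nonneg (sub_nonneg.mpr h) (sub_nonneg.mpr h'), mul_nonneg (sub_nonneg.mpr h) (sub_nonneg.mpr hx1), mul_nonneg (sub_nonneg.mpr hQ4) (sub_nonneg.mpr hx1)]
    · nlinarith [mul_nonneg (mul_nonneg hQ hQ) (show (0:ℝ) ≤ 0.508 - Q by linarith), sq_nonneg (Q - 0.45), mul_nonneg (sub_nonneg.mpr hx2) (sub_nonneg.mpr hx1), mul_nonneg (sub_nonneg.mpr h') (show (0:ℝ) ≤ 0.508 - Q by linarith), mul_nonneg (sub_nonneg.mpr h') (sub_nonneg.mpr hx1), mul_nonneg (sub_nonneg.mpr hQ4) (sub_nonneg.mpr hx1)]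

/-- Regime C with smallest big weight at least `0.123`. -/
theorem C_mid {a Q t : ℝ} (ha : 0.123 ≤ a) (hQ : 0 ≤ Q) (haQ : 4*a + Q ≤ 1) (ht0 : 0 ≤ t)
    (ht : 16*t ≤ 2.57*Q) : PC a Q 2.57 t ≤ 0 := by
  refine le_trans (PC_mono (T := 2.57*Q/16) hQ le_rfl ht0 (by linarith)) ?_
  have := C_mid_poly (1/4 - a) Q (by linarith) (by linarith) hQ (by linarith)
  unfold PC vv fd
  nlinarith [this]

lemma PC_chord {a Q c l h : ℝ} (hl : l ≤ Q) (hh : Q ≤ h) (hlh : l < h) (hc0 : 0 ≤ c)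
    (hconv : 0 ≤ 4*c*(2*l + h) + (-(32/9)*(a*(1-a)) + 3.63/0.864*(1 - vv a + 1/64)*c + c^2 - 4*c*(1 - 6*a)))
    (pl : PC a l (gC a (c*l)) (c*l) ≤ 0) (ph : PC a h (gC a (c*h)) (c*h) ≤ 0) :
    PC a Q (gC a (c*Q)) (c*Q) ≤ 0 := by
  have E : ∀ Q : ℝ, PC a Q (gC a (c*Q)) (c*Q) = (vv a ^ 2 + 3 * vv ((1-a)/3) ^ 2 - 9/4)
      + (-fd ((1-a)/3) + 3.63*(0.45 + vv a^2/0.864) + c*(4 - 3*vv a - 12*a*(1-3*a)))*Q
      + (-(32/9)*(a*(1-a)) + 3.63/0.864*(1 - vv a + 1/64)*c + c^2 - 4*c*(1 - 6*a))*Q^2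
      + (4*c)*Q^3 := by
    intro Q; simp only [PC, gC, XC, vv]; ring
  rw [E]
  rw [E] at pl ph
  refine cubic_chord hl hh hlh ?_ pl ph
  nlinarith [mul_le_mul_of_nonneg_left hl hc0]

lemma t_le_of_gC {a Q t c h : ℝ} (hQh : Q ≤ h) (hQ : 0 ≤ Q) (hc0 : 0 ≤ c) (ht0 : 0 ≤ t)
    (hc : gC a 0 ≤ c * (16 - 3.63/0.864*(1 - vv a + 1/64)*h))
    (hd : 0 < 16 - 3.63/0.864*(1 - vv a + 1/64)*h)
    (ht : 16*t ≤ gC a t * Q) : t ≤ c * Q := by
  have hG := G1_nonneg a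
  have e : gC a t = gC a 0 + 3.63/0.864*(1 - vv a + 1/64)*t := by simp only [gC, XC]; ring
  rw [e] at ht
  refine le_of_mul_le_mul_right ?_ hd
  nlinarith [mul_le_mul_of_nonneg_right hc hQ,
    mul_le_mul_of_nonneg_left hQh (mul_nonneg (show (0:ℝ) ≤ 3.63/0.864*(1 - vv a + 1/64) by positivity) ht0)]

/-- Bernstein basis of degree four on an interval -/
lemma bern4 {a lo hi : ℝ} (h1 : lo ≤ a) (h2 : a ≤ hi) :
    0 ≤ (hi - a)^4 ∧ 0 ≤ (a - lo)*(hi - a)^3 ∧ 0 ≤ (a - lo)^2*(hi - a)^2 ∧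
      0 ≤ (a - lo)^3*(hi - a) ∧ 0 ≤ (a - lo)^4 :=
  have y := sub_nonneg.mpr h1
  have z := sub_nonneg.mpr h2
  ⟨pow_nonneg z 4, mul_nonneg y (pow_nonneg z 3), mul_nonneg (pow_nonneg y 2) (pow_nonneg z 2),
    mul_nonneg (pow_nonneg y 3) z, pow_nonneg y 4⟩

/-- `R1` -/
theorem C_R1 {a Q t : ℝ} (ha : 0.0925 ≤ a) (ha' : a ≤ 0.123) (hQ : 0 ≤ Q) (hQh : Q ≤ 0.42)
    (ht0 : 0 ≤ t) (ht : 16*t ≤ gC a t * Q) : PC a Q (gC a t) t ≤ 0 := by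
  obtain ⟨b0, b1, b2, b3, b4⟩ := bern4 ha ha'
  have htc : t ≤ 0.1614 * Q := by
    refine t_le_of_gC hQh hQ (by norm_num) ht0 ?_ ?_ ht
    · simp only [gC, XC, vv]; (ring_nf at *; nlinarith)
    · simp only [vv]; (ring_nf at *; nlinarith)
  refine le_trans (PC_mono hQ (gC_mono htc) ht0 htc) ?_
  refine PC_chord hQ hQh (by norm_num) (by norm_num) ?_ ?_ ?_
  · simp only [vv]; (ring_nf at *; nlinarith)
  · simp only [PC, gC, XC, vv, fd]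
    (ring_nf at *; nlinarith)
  · simp only [PC, gC, XC, vv, fd]
    (ring_nf at *; nlinarith)

/-- `R2` -/
theorem C_R2 {a Q t : ℝ} (ha : 0.087 ≤ a) (ha' : a ≤ 0.0925) (hQ : 0 ≤ Q) (hQh : Q ≤ 0.42)
    (ht0 : 0 ≤ t) (ht : 16*t ≤ gC a t * Q) (hg : 0.065 ≤ gC a t * Q) :
    PC a Q (gC a t) t ≤ 0 := by
  obtain ⟨b0, b1, b2, b3, b4⟩ := bern4 ha ha'
  have htc : t ≤ 0.1425 * Q := by
    refine t_le_of_gC hQh hQ (by norm_num) ht0 ?_ ?_ ht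
    · simp only [gC, XC, vv]; (ring_nf at *; nlinarith)
    · simp only [vv]; (ring_nf at *; nlinarith)
  have hgm : gC a t ≤ 2.3 := by
    refine le_trans (gC_mono (show t ≤ 0.1425*0.42 by linarith)) ?_
    simp only [gC, XC, vv]; (ring_nf at *; nlinarith)
  have hl : 0.028 ≤ Q := by nlinarith [mul_le_mul_of_nonneg_right hgm hQ]
  refine le_trans (PC_mono hQ (gC_mono htc) ht0 htc) ?_
  refine PC_chord hl hQh (by norm_num) (by norm_num) ?_ ?_ ?_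
  · simp only [vv]; (ring_nf at *; nlinarith)
  · simp only [PC, gC, XC, vv, fd]
    (ring_nf at *; nlinarith)
  · simp only [PC, gC, XC, vv, fd]
    (ring_nf at *; nlinarith)

lemma R3b {a Q c : ℝ} (h1 : 0.026 ≤ a) (h2 : a ≤ 0.045) (hQh : Q ≤ 0.47) (hc : c = 0.117 + 0.276*a)
    (hc0 : 0 ≤ c) (hXc : 0.0645 ≤ vv a ^ 2 + (1 - vv a + 1/64) * (c*Q)) :
    PC a Q (gC a (c*Q)) (c*Q) ≤ 0 := by
  obtain ⟨b0, b1, b2, b3, b4⟩ := bern4 h1 h2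
  have hl : 0.31 ≤ Q := by
    by_contra hl; push Not at hl
    have := mul_le_mul_of_nonneg_left hl.le (mul_nonneg (G1_nonneg a) hc0)
    rw [hc] at this hXc; simp only [vv] at this hXc
    (ring_nf at *; nlinarith)
  refine PC_chord hl hQh (by norm_num) hc0 ?_ ?_ ?_
  · rw [hc]; simp only [vv]; (ring_nf at *; nlinarith)
  · rw [hc]; simp only [PC, gC, XC, vv, fd]
    (ring_nf at *; nlinarith)
  · rw [hc]; simp only [PC, gC, XC, vv, fd]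
    (ring_nf at *; nlinarith)

lemma R3c {a Q c : ℝ} (h2 : 0.045 ≤ a) (h3 : a ≤ 0.058) (hQh : Q ≤ 0.47) (hc : c = 0.117 + 0.276*a)
    (hc0 : 0 ≤ c) (hXc : 0.0645 ≤ vv a ^ 2 + (1 - vv a + 1/64) * (c*Q)) :
    PC a Q (gC a (c*Q)) (c*Q) ≤ 0 := by
  obtain ⟨b0, b1, b2, b3, b4⟩ := bern4 h2 h3
  have hl : 0.155 ≤ Q := by
    by_contra hl; push Not at hl
    have := mul_le_mul_of_nonneg_left hl.le (mul_nonneg (G1_nonneg a) hc0)
    rw [hc] at this hXc; simp only [vv] at this hXc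
    (ring_nf at *; nlinarith)
  refine PC_chord hl hQh (by norm_num) hc0 ?_ ?_ ?_
  · rw [hc]; simp only [vv]; (ring_nf at *; nlinarith)
  · rw [hc]; simp only [PC, gC, XC, vv, fd]
    (ring_nf at *; nlinarith)
  · rw [hc]; simp only [PC, gC, XC, vv, fd]
    (ring_nf at *; nlinarith)

lemma R3d {a Q c : ℝ} {t : ℝ} (h3 : 0.058 ≤ a) (ha' : a ≤ 0.087) (hQ : 0 ≤ Q) (ht0 : 0 ≤ t) (htc : t ≤ c * Q) (hg : 0.1644 ≤ gC a t * Q) (hQh : Q ≤ 0.47) (hc : c = 0.117 + 0.276*a)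
    (hc0 : 0 ≤ c) (hXc : 0.0645 ≤ vv a ^ 2 + (1 - vv a + 1/64) * (c*Q)) :
    PC a Q (gC a (c*Q)) (c*Q) ≤ 0 := by
  obtain ⟨b0, b1, b2, b3, b4⟩ := bern4 h3 ha'
  have hgm : gC a t ≤ 2.28 := by
    refine le_trans (gC_mono (show t ≤ c * 0.47 by nlinarith)) ?_
    rw [hc]; simp only [gC, XC, vv]; (ring_nf at *; nlinarith)
  have hl : 0.072 ≤ Q := by nlinarith [mul_le_mul_of_nonneg_right hgm hQ]
  refine PC_chord hl hQh (by norm_num) hc0 ?_ ?_ ?_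
  · rw [hc]; simp only [vv]; (ring_nf at *; nlinarith)
  · rw [hc]; simp only [PC, gC, XC, vv, fd]
    (ring_nf at *; nlinarith)
  · rw [hc]; simp only [PC, gC, XC, vv, fd]
    (ring_nf at *; nlinarith)

/-- `R3` -/
theorem C_R3 {a Q t : ℝ} (ha : 0 ≤ a) (ha' : a ≤ 0.087) (hQ : 0 ≤ Q) (hQh : Q ≤ 0.47)
    (ht0 : 0 ≤ t) (ht : 16*t ≤ gC a t * Q) (hg : 0.1644 ≤ gC a t * Q)
    (hX : 0.0645 ≤ XC a t) : PC a Q (gC a t) t ≤ 0 := by
  set c := 0.117 + 0.276*a with hc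
  have hc0 : 0 ≤ c := by rw [hc]; linarith
  have htc : t ≤ c * Q := by
    refine t_le_of_gC hQh hQ hc0 ht0 ?_ ?_ ht
    · obtain ⟨b0, b1, b2, b3, b4⟩ := bern4 ha ha'
      rw [hc]; simp only [gC, XC, vv]
      (ring_nf at *; nlinarith)
    · simp only [vv]; (ring_nf at *; nlinarith)
  have hXc : 0.0645 ≤ vv a ^ 2 + (1 - vv a + 1/64) * (c*Q) := by
    have := mul_le_mul_of_nonneg_left htc (G1_nonneg a)
    unfold XC at hX; linarith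
  refine le_trans (PC_mono hQ (gC_mono htc) ht0 htc) ?_
  rcases le_total a 0.026 with h1 | h1
  · exfalso
    obtain ⟨b0, b1, b2, b3, b4⟩ := bern4 ha h1
    have := mul_le_mul_of_nonneg_left hQh (mul_nonneg (G1_nonneg a) hc0)
    rw [hc] at this hXc; simp only [vv] at this hXc
    (ring_nf at *; nlinarith)
  rcases le_total a 0.045 with h2 | h2
  · exact R3b h1 h2 hQh hc hc0 hXc
  rcases le_total a 0.058 with h3 | h3
  · exact R3c h2 h3 hQh hc hc0 hXc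
  · exact R3d h3 ha' hQ ht0 htc hg hQh hc hc0 hXc

lemma PC_cap {a Q Q0 : ℝ} (hQ : Q0 ≤ Q) (hQ1 : Q ≤ 1 - 4*a)
    (h0 : -fd ((1-a)/3) + gC a (1/16) - 1/4*(1 - 6*a) + (1/4 - 32/9*(a*(1-a)))*(2*Q0) ≤ 0)
    (h1 : -fd ((1-a)/3) + gC a (1/16) - 1/4*(1 - 6*a) + (1/4 - 32/9*(a*(1-a)))*(1 - 4*a + Q0) ≤ 0)
    (hP : PC a Q0 (gC a (1/16)) (1/16) ≤ 0) : PC a Q (gC a (1/16)) (1/16) ≤ 0 := by
  have hB : -fd ((1-a)/3) + gC a (1/16) - 1/4*(1 - 6*a)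
      + (1/4 - 32/9*(a*(1-a)))*(Q + Q0) ≤ 0 := by
    rcases le_total 0 (1/4 - 32/9*(a*(1-a))) with h | h
    · nlinarith [mul_le_mul_of_nonneg_left hQ1 h]
    · nlinarith [mul_le_mul_of_nonpos_left hQ h]
  have e : PC a Q (gC a (1/16)) (1/16) - PC a Q0 (gC a (1/16)) (1/16)
      = (Q - Q0) * (-fd ((1-a)/3) + gC a (1/16) - 1/4*(1 - 6*a)
      + (1/4 - 32/9*(a*(1-a)))*(Q + Q0)) := by
    simp only [PC, vv]; ring
  nlinarith [mul_nonpos_of_nonneg_of_nonpos (sub_nonneg.mpr hQ) hB]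

theorem C_cap_hi {a Q t : ℝ} (ha : 0.087 ≤ a) (ha' : a ≤ 0.123) (hQh : 0.42 ≤ Q) (hQ1 : Q ≤ 1 - 4*a)
    (ht0 : 0 ≤ t) (ht : t ≤ 1/16) : PC a Q (gC a t) t ≤ 0 := by
  obtain ⟨b0, b1, b2, b3, b4⟩ := bern4 ha ha'
  refine le_trans (PC_mono (by linarith) (gC_mono ht) ht0 ht) ?_
  refine PC_cap hQh hQ1 ?_ ?_ ?_
  all_goals simp only [PC, gC, XC, vv, fd]
  all_goals (ring_nf at *; nlinarith)

theorem C_cap_lo {a Q t : ℝ} (ha : 0 ≤ a) (ha' : a ≤ 0.087) (hQh : 0.47 ≤ Q) (hQ1 : Q ≤ 1 - 4*a)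
    (ht0 : 0 ≤ t) (ht : t ≤ 1/16) (hX : 0.0645 ≤ XC a t) : PC a Q (gC a t) t ≤ 0 := by
  have hX' : 0.0645 ≤ XC a (1/16) := by
    have := mul_le_mul_of_nonneg_left ht (G1_nonneg a)
    unfold XC at hX ⊢; linarith
  have h1 : 0.019 ≤ a := by
    by_contra h; push Not at h
    obtain ⟨b0, b1, b2, b3, b4⟩ := bern4 ha h.le
    simp only [XC, vv] at hX'
    (ring_nf at *; nlinarith)
  obtain ⟨b0, b1, b2, b3, b4⟩ := bern4 h1 ha'
  refine le_trans (PC_mono (by linarith) (gC_mono ht) ht0 ht) ?_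
  refine PC_cap hQh hQ1 ?_ ?_ ?_
  all_goals simp only [PC, gC, XC, vv, fd]
  all_goals (ring_nf at *; nlinarith)

/-- Regime C with smallest big weight below `0.123`. -/
theorem C_low {a Q t : ℝ} (ha : 0 ≤ a) (ha' : a ≤ 0.123) (hQ : 0 ≤ Q) (haQ : 4*a + Q ≤ 1)
    (ht0 : 0 ≤ t) (ht1 : t ≤ 1/16) (ht : 16*t ≤ gC a t * Q) (hX : 0.0645 ≤ XC a t)
    (hor : 0.1156 ≤ XC a t ∨ 0.1644 ≤ gC a t * Q) : PC a Q (gC a t) t ≤ 0 := by
  rcases le_total a 0.087 with h | h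
  · rcases le_total Q 0.47 with h' | h'
    · refine C_R3 ha h hQ h' ht0 ht ?_ hX
      rcases hor with h2 | h2
      · have hv : vv a ≤ 0.3178 := by simp only [vv]; (ring_nf at *; nlinarith)
        have hv0 : 0 ≤ vv a := by simp only [vv]; (ring_nf at *; nlinarith)
        unfold XC at h2
        nlinarith [mul_le_mul hv hv hv0 (by norm_num), G1_nonneg a]
      · exact h2
    · exact C_cap_lo ha h h' (by linarith) ht0 ht1 hX
  rcases le_total Q 0.42 with h' | h'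
  · rcases le_total a 0.0925 with h1 | h1
    · refine C_R2 h h1 hQ h' ht0 ht ?_
      rcases hor with h2 | h2
      · have hv : vv a ≤ 0.335775 := by simp only [vv]; (ring_nf at *; nlinarith)
        have hv0 : 0 ≤ vv a := by simp only [vv]; (ring_nf at *; nlinarith)
        unfold XC at h2
        nlinarith [mul_le_mul hv hv hv0 (by norm_num), G1_nonneg a]
      · linarith
    · exact C_R1 h1 ha' hQ h' ht0 ht
  · exact C_cap_hi h ha' h' (by linarith) ht0 ht1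

end Vale.P226
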