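import Mathlib.Analysis.SpecialFunctions.Trigonometric.Bounds
import Mathlib.Analysis.Real.Pi.Bounds
import Mathlib.Algebra.Order.Chebyshev
import Mathlib.Algebra.BigOperators.Fin
import Vale.Agent.P226.Poly
import Vale.Agent.P226.PolyA
import Vale.Agent.P226.PolyC

/-! # The four finite-dimensional regime inequalities (P226) -/

open Finset Real

namespace Vale.P226

/-- Clamp to `[0,1/2]` and refill the total. -/
lemma clamp_fill {ι : Type*} [Fintype ι] (q : ι → ℝ) {T : ℝ} (hq : ∀ i, 0 ≤ q i)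
    (hT : ∑ i, q i ≤ T) (hT' : T ≤ (Fintype.card ι : ℝ) / 2) :
    ∃ q' : ι → ℝ, (∀ i, 0 ≤ q' i ∧ q' i ≤ 1/2 ∧ min (q i) (1/2) ≤ q' i) ∧ ∑ i, q' i = T := by
  set m : ι → ℝ := fun i => min (q i) (1/2) with hm
  have hm0 : ∀ i, 0 ≤ m i := fun i => le_min (hq i) (by norm_num)
  have hm1 : ∀ i, m i ≤ 1/2 := fun i => min_le_right _ _
  have hmT : ∑ i, m i ≤ T := (Finset.sum_le_sum fun i _ => min_le_left _ _).trans hT
  set D := ∑ i, (1/2 - m i) with hD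
  have hD' : D = (Fintype.card ι : ℝ)/2 - ∑ i, m i := by
    rw [hD, Finset.sum_sub_distrib]; simp [Finset.card_univ]; ring
  have hl0 : 0 ≤ (T - ∑ i, m i) / D :=
    div_nonneg (by linarith) (Finset.sum_nonneg fun i _ => by linarith [hm1 i])
  have hl1 : (T - ∑ i, m i) / D ≤ 1 :=
    div_le_one_of_le₀ (by linarith) (Finset.sum_nonneg fun i _ => by linarith [hm1 i])
  refine ⟨fun i => m i + (1/2 - m i) * ((T - ∑ j, m j) / D), fun i => ⟨?_, ?_, ?_⟩, ?_⟩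
  · nlinarith [hm0 i, hm1 i]
  · nlinarith [hm0 i, hm1 i]
  · nlinarith [hm0 i, hm1 i]
  · rw [Finset.sum_add_distrib, ← Finset.sum_mul, ← hD]
    rcases eq_or_ne D 0 with h | h
    · rw [h]; linarith
    · field_simp; ring

lemma vv_mono {p q : ℝ} (h1 : min p (1/2) ≤ q) (h2 : q ≤ 1/2) : vv p ≤ vv q := by
  rcases le_total p (1/2) with h | h
  · rw [min_eq_left h] at h1
    unfold vv; nlinarith [mul_nonneg (sub_nonneg.mpr h1) (show 0 ≤ 1 - p - q by linarith)]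
  · rw [min_eq_right h] at h1
    have : q = 1/2 := le_antisymm h2 h1
    subst this
    unfold vv; nlinarith [sq_nonneg (1 - 2*p)]

/-- One cell in regime D. -/
theorem elem_D {R q : ℝ} (hR : 1/2 < R) (hR1 : R ≤ 1)
    (hb : ∀ C : ℝ, -1 ≤ C → C ≤ 1 → R ≤ 16/3 * C * q + (1 - C)^3 * (3 + C)/3) :
    R^2 ≤ 3*q - 0.15 := by
  set R' := min R 0.99 with hR'
  have h0 : 1/2 ≤ R' := le_min hR.le (by norm_num)
  have h99 : R' ≤ 0.99 := min_le_right _ _
  set u := √(1 - √R') with hu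
  have hs1 : √R' ≤ 0.996 := Real.sqrt_le_iff.mpr ⟨by norm_num, by linarith⟩
  have hs0 : 0.707 ≤ √R' := Real.le_sqrt_of_sq_le (by linarith)
  have hu2 : u^2 = 1 - √R' := by rw [hu, Real.sq_sqrt]; linarith
  have hu1 : u ≤ 0.5412 := by
    rw [hu]; exact Real.sqrt_le_iff.mpr ⟨by norm_num, by
      have : 1/√2 ≤ √R' := by
        rw [one_div, ← Real.sqrt_inv]; exact Real.sqrt_le_sqrt (by linarith)
      have h2 : 0.707105 ≤ 1/√2 := by
        rw [le_div_iff₀ (by positivity)]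
        nlinarith [Real.sq_sqrt (show (0:ℝ) ≤ 2 by norm_num), Real.sqrt_nonneg 2]
      linarith⟩
  have hupos : 0 < u := by rw [hu]; exact Real.sqrt_pos.mpr (by linarith)
  have hRu : R' = (1 - u^2)^2 := by
    rw [hu2, sub_sub_cancel, Real.sq_sqrt (by linarith)]
  have hq : (2 - 3*u + u^3)/4 ≤ q := by
    have h := hb u (by linarith) (by linarith)
    have : R' ≤ R := min_le_left _ _
    refine le_of_mul_le_mul_left ?_ hupos
    nlinarith
  have hp := polyD u hupos.le hu1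
  rcases le_total R 0.99 with h | h
  · have : R' = R := min_eq_left h
    nlinarith [sq_nonneg R, hRu]
  · have : R' = 0.99 := min_eq_right h
    have e : (1 - u^2)^4 = 0.99^2 := by rw [← this, hRu]; ring
    have hu3 : u ≤ 0.08 := by
      rw [hu]; refine Real.sqrt_le_iff.mpr ⟨by norm_num, ?_⟩
      have : 0.9936 ≤ √R' := Real.le_sqrt_of_sq_le (by linarith)
      linarith
    nlinarith [pow_nonneg hupos.le 3]

/-- Regime D. -/
theorem regime_D (R q : Fin 5 → ℝ) {e Q : ℝ} (hR : ∀ i, 1/2 < R i ∧ R i ≤ 1)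
    (hb : ∀ i, ∀ C : ℝ, -1 ≤ C → C ≤ 1 → R i ≤ 16/3 * C * q i + (1 - C)^3 * (3 + C)/3)
    (he : e ≤ 3*Q) (hsum : ∑ i, q i + Q = 1) : ∑ i, R i ^ 2 + e ≤ 9/4 := by
  have := Finset.sum_le_sum (fun i (_ : i ∈ (univ : Finset (Fin 5))) => elem_D (hR i).1 (hR i).2 (hb i))
  rw [Finset.sum_sub_distrib, ← Finset.mul_sum] at this
  simp at this
  linarith

lemma cos_le_taylor {x : ℝ} (hx : 0 ≤ x) (hx1 : x ≤ 1) : cos x ≤ 1 - x^2/2 + x^4/24 := by
  have h : x/2 - (x/2)^3/6 ≤ sin (x/2) := Real.sin_ge_sub_cube (by linarith)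
  have h0 : 0 ≤ x/2 - (x/2)^3/6 := by nlinarith [mul_nonneg hx (show 0 ≤ 24 - x^2 by nlinarith)]
  have e : cos x = 1 - 2 * sin (x/2)^2 := by
    have h2 := Real.cos_two_mul' (x/2)
    rw [show 2*(x/2) = x by ring] at h2
    rw [h2, Real.cos_sq' (x/2)]; ring
  nlinarith [pow_nonneg hx 6, mul_le_mul h h h0 (h0.trans h)]

/-- three angles with prescribed sum -/
lemma three_sin_sq {a x y z : ℝ} (ha : 0 ≤ a) (ha1 : a ≤ 0.35978)
    (hz : 0 ≤ z) (hzx : z ≤ x) (hzy : z ≤ y) (hsum : x + y + z = π - a) :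
    ∃ c s : ℝ, 1/2 ≤ c ∧ c ≤ 1 ∧ 0 ≤ s ∧ s^2 + c^2 = 1 ∧
      sin x ^2 + sin y ^2 + sin z ^2 ≤ 2 - c^2 + c*(1 - a^2/2 + a^4/24) - s*(a - a^3/6) := by
  have hπ := Real.pi_gt_three
  have hz3 : z ≤ π/3 := by linarith
  refine ⟨cos z, sin z, ?_, cos_le_one z, sin_nonneg_of_nonneg_of_le_pi hz (by linarith),
    sin_sq_add_cos_sq z, ?_⟩
  · rw [← Real.cos_pi_div_three]
    exact cos_le_cos_of_nonneg_of_le_pi hz (by linarith) hz3
  have hpos : 0 ≤ cos (a + z) := cos_nonneg_of_mem_Icc ⟨by linarith, by linarith⟩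
  have hxy : cos (x + y) = - cos (a + z) := by
    rw [show x + y = π - (a + z) by linarith, cos_pi_sub]
  have h2 : sin x^2 + sin y^2 = 1 - cos (x + y) * cos (x - y) := by
    rw [cos_add, cos_sub]
    linear_combination (cos y ^ 2) * sin_sq_add_cos_sq x + (1 - sin x ^ 2) * sin_sq_add_cos_sq y
  have hc : cos (a+z) = cos a * cos z - sin a * sin z := cos_add a z
  have hsz := sin_nonneg_of_nonneg_of_le_pi hz (show z ≤ π by linarith)
  have hcz : 0 ≤ cos z := cos_nonneg_of_mem_Icc ⟨by linarith, by linarith⟩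
  rw [h2, hxy, sin_sq z]
  nlinarith [mul_le_mul_of_nonneg_left (cos_le_one (x-y)) hpos,
    mul_le_mul_of_nonneg_right (cos_le_taylor ha (by linarith)) hcz,
    mul_le_mul_of_nonneg_right (Real.sin_ge_sub_cube ha) hsz]

/-- Regime A. -/
theorem regime_A (R q : Fin 3 → ℝ) {t η : ℝ} (ht0 : 0 ≤ t) (ht : 9*t ≤ η) (hη : η ≤ 0.28)
    (hR : ∀ i, 0 ≤ R i) (hq : ∀ i, 0 ≤ q i) (hb : ∀ i, R i ≤ sin (π * q i) * (1 - t/2))
    (hsum : ∑ i, q i ≤ 1 - η/2.445) : ∑ i, (R i ^ 2 + t) + η ≤ 9/4 := by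
  obtain ⟨q', hq', hs'⟩ := clamp_fill q (T := 1 - η/2.445) hq hsum
    (by norm_num; linarith)
  set θ : Fin 3 → ℝ := fun i => π * q' i with hθ
  have hπ := Real.pi_pos
  have hsin : ∀ i, R i ^ 2 ≤ sin (θ i) ^ 2 * (1 - t/2)^2 := by
    intro i
    rw [← mul_pow]
    refine pow_le_pow_left₀ (hR i) ((hb i).trans (mul_le_mul_of_nonneg_right ?_ (by linarith))) 2
    obtain ⟨h0, h1, h2⟩ := hq' i
    rcases le_total (q i) (1/2) with h | h
    · rw [min_eq_left h] at h2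
      exact sin_le_sin_of_le_of_le_pi_div_two (by nlinarith [hq i]) (by nlinarith)
        (mul_le_mul_of_nonneg_left h2 hπ.le)
    · rw [min_eq_right h] at h2
      have : θ i = π/2 := by rw [hθ]; simp only; rw [le_antisymm h1 h2]; ring
      rw [this, sin_pi_div_two]
      exact sin_le_one _
  set a := π * η / 2.445 with hadef
  have hη0 : 0 ≤ η := by linarith
  have ha : 0 ≤ a := by positivity
  have ha1 : a ≤ 0.35978 := by
    rw [hadef, div_le_iff₀ (by norm_num)]; nlinarith [Real.pi_lt_d6]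
  have haη : η ≤ 0.77827 * a := by
    rw [hadef, mul_div_assoc', le_div_iff₀ (by norm_num)]; nlinarith [Real.pi_gt_d6]
  have hθsum : θ 0 + θ 1 + θ 2 = π - a := by
    rw [Fin.sum_univ_three] at hs'
    simp only [hθ, hadef]
    rw [← mul_add, ← mul_add, hs']; ring
  have hθ0 : ∀ i, 0 ≤ θ i := fun i => mul_nonneg hπ.le (hq' i).1
  have key : ∃ c s : ℝ, 1/2 ≤ c ∧ c ≤ 1 ∧ 0 ≤ s ∧ s^2 + c^2 = 1 ∧
      sin (θ 0) ^2 + sin (θ 1) ^2 + sin (θ 2) ^2
        ≤ 2 - c^2 + c*(1 - a^2/2 + a^4/24) - s*(a - a^3/6) := by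
    obtain ⟨i, -, hi⟩ := Finset.exists_min_image (univ : Finset (Fin 3)) θ ⟨0, mem_univ _⟩
    have m := fun j => hi j (mem_univ j)
    fin_cases i
    · obtain ⟨c, s, h1, h2, h3, h4, h5⟩ := three_sin_sq ha ha1 (hθ0 0) (m 1) (m 2)
        (show θ 1 + θ 2 + θ 0 = π - a by linarith)
      exact ⟨c, s, h1, h2, h3, h4, by linarith⟩
    · obtain ⟨c, s, h1, h2, h3, h4, h5⟩ := three_sin_sq ha ha1 (hθ0 1) (m 0) (m 2)
        (show θ 0 + θ 2 + θ 1 = π - a by linarith)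
      exact ⟨c, s, h1, h2, h3, h4, by linarith⟩
    · obtain ⟨c, s, h1, h2, h3, h4, h5⟩ := three_sin_sq ha ha1 (hθ0 2) (m 0) (m 1)
        (show θ 0 + θ 1 + θ 2 = π - a by linarith)
      exact ⟨c, s, h1, h2, h3, h4, by linarith⟩
  obtain ⟨c, s, hc, hc1, hs, hcs, hG⟩ := key
  set G := 2 - c^2 + c*(1 - a^2/2 + a^4/24) - s*(a - a^3/6) with hGdef
  have hG3 : G ≤ 9/4 := by
    have : 0 ≤ a - a^3/6 := by nlinarith [mul_nonneg ha (show 0 ≤ 6 - a^2 by nlinarith)]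
    have : 1 - a^2/2 + a^4/24 ≤ 1 := by nlinarith
    nlinarith [sq_nonneg (c - 1/2)]
  have hG0 : 0 ≤ G := le_trans (by positivity) hG
  have hPA := A_poly ha ha1 hc hc1 hs hcs
  unfold PA at hPA
  rw [← hGdef] at hPA
  have h1 := Finset.sum_le_sum (fun i (_ : i ∈ (univ : Finset (Fin 3))) => hsin i)
  rw [← Finset.sum_mul, Fin.sum_univ_three, Fin.sum_univ_three] at h1
  rw [Fin.sum_univ_three]
  have h2 := mul_le_mul_of_nonneg_right hG (sq_nonneg (1 - t/2))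
  -- monotone in `t` and in `η`
  have h3 : G * (1 - t/2)^2 + 3*t ≤ G * (1 - (η/9)/2)^2 + 3*(η/9) := by
    have h5 : 0 ≤ 3 - G * (1 - (t + η/9)/4) := by
      have := mul_nonneg hG0 (show 0 ≤ (t + η/9)/4 by linarith)
      linarith
    linear_combination mul_nonneg (show 0 ≤ η/9 - t by linarith) h5
  have h4 : G * (1 - η/18)^2 + 4/3*η ≤ G * (1 - 0.77827*a/18)^2 + 4/3*(0.77827*a) := by
    have h5 : 0 ≤ 4/3 - G/18 * (2 - (η + 0.77827*a)/18) := by
      have := mul_nonneg (show 0 ≤ G/18 by linarith) (show 0 ≤ (η + 0.77827*a)/18 by linarith)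
      linarith
    linear_combination mul_nonneg (sub_nonneg.mpr haη) h5
  linarith

/-- Regime E. -/
theorem regime_E (R q : Fin 3 → ℝ) {η Q : ℝ} (hη : 0.28 < η) (hηQ : η ≤ 1.821 * Q)
    (hR : ∀ i, 0 ≤ R i) (hq : ∀ i, 0 ≤ q i) (hb : ∀ i, R i ≤ vv (q i))
    (hsum : ∑ i, q i + Q = 1) : ∑ i, R i ^ 2 + η ≤ 9/4 := by
  have h : ∀ i, R i ^ 2 ≤ 16 * q i ^ 2 * (1 - q i)^2 := fun i =>
    (pow_le_pow_left₀ (hR i) (hb i) 2).trans_eq (by unfold vv; ring)
  rw [Fin.sum_univ_three] at hsum ⊢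
  have hQ : 0.15376 ≤ Q := by linarith
  have hq1 : ∀ i, q i ≤ 1 := fun i => by
    fin_cases i <;> simp <;> linarith [hq 0, hq 1, hq 2]
  by_cases hall : ∀ i, 0.085 ≤ q i
  · have h0 := polyE_tangent _ (hall 0) (hq1 0)
    have h1 := polyE_tangent _ (hall 1) (hq1 1)
    have h2 := polyE_tangent _ (hall 2) (hq1 2)
    linarith [h 0, h 1, h 2]
  · push Not at hall
    obtain ⟨i, hi⟩ := hall
    have g := fun j => polyE_glob _ (hq j) (hq1 j)
    fin_cases i <;> simp at hi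
    · linarith [h 0, h 1, h 2, g 1, g 2, polyE_small _ (hq 0) hi.le, hq 0, hq 1, hq 2]
    · linarith [h 0, h 1, h 2, g 0, g 2, polyE_small _ (hq 1) hi.le, hq 0, hq 1, hq 2]
    · linarith [h 0, h 1, h 2, g 0, g 1, polyE_small _ (hq 2) hi.le, hq 0, hq 1, hq 2]

lemma quartic_tangent {a q : ℝ} (ha : 0 ≤ a) (ha4 : a ≤ 1/4) (hq : a ≤ q) (hq1 : q ≤ 1/2) :
    vv q ^ 2 ≤ vv ((1-a)/3) ^ 2 + fd ((1-a)/3) * (q - (1-a)/3)
      - 32/3 * (a*(1-a)) * (q - (1-a)/3)^2 := by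
  have hb : 0 ≤ (q - a) * (2 - q - a - 2*((1-a)/3)) :=
    mul_nonneg (by linarith) (by linarith)
  unfold vv fd
  nlinarith [mul_nonneg (sq_nonneg (q - (1-a)/3)) hb]

/-- Regime C. -/
theorem regime_C (R q : Fin 4 → ℝ) {t e Q : ℝ} (ht0 : 0 ≤ t) (ht1 : 16*t ≤ 1) (hte : 16*t ≤ e)
    (hR : ∀ i, 0 ≤ R i) (hq : ∀ i, 0 ≤ q i) (hQ : 0 ≤ Q) (hsum : ∑ i, q i + Q = 1)
    (hb : ∀ i, R i + t/2 ≤ vv (q i))
    (he : e ≤ 2.57 * Q) (he' : ∀ i, e ≤ 3.63 * (0.45 + (R i ^ 2 + t)/0.864) * Q)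
    (hX : ∀ i, 0.0645 ≤ R i ^ 2 + t)
    (hor : (∀ i, 0.1156 ≤ R i ^ 2 + t) ∨ 0.1644 ≤ e) :
    ∑ i, (R i ^ 2 + t) + e ≤ 9/4 := by
  obtain ⟨q', hq', hs'⟩ := clamp_fill q (T := 1 - Q) hq (by linarith) (by norm_num; linarith)
  have hv : ∀ i, R i ^ 2 ≤ (vv (q' i) - t/2)^2 := fun i =>
    pow_le_pow_left₀ (hR i)
      (by linarith [hb i, vv_mono (hq' i).2.2 (hq' i).2.1]) 2
  obtain ⟨i₀, -, hmin⟩ := Finset.exists_min_image (univ : Finset (Fin 4)) q' ⟨0, mem_univ _⟩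
  set a := q' i₀ with ha_def
  set S := (univ : Finset (Fin 4)).erase i₀ with hS
  have hcard : S.card = 3 := by simp [hS]
  have hmin' : ∀ i, a ≤ q' i := fun i => hmin i (mem_univ i)
  have h4a : 4*a + Q ≤ 1 := by
    have := Finset.sum_le_sum (fun i (_ : i ∈ (univ : Finset (Fin 4))) => hmin' i)
    simp [hs'] at this; linarith
  have ha0 : 0 ≤ a := (hq' i₀).1
  have hsS : ∑ i ∈ S, q' i = 1 - Q - a := by
    rw [hS, Finset.sum_erase_eq_sub (mem_univ _), hs']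
  set b := (1-a)/3 with hbdef
  have hdev : ∑ i ∈ S, (q' i - b) = -Q := by
    rw [Finset.sum_sub_distrib, hsS, Finset.sum_const, hcard, hbdef]; ring
  have hcs : Q^2/3 ≤ ∑ i ∈ S, (q' i - b)^2 := by
    have := sq_sum_le_card_mul_sum_sq (s := S) (f := fun i => q' i - b)
    rw [hdev, hcard] at this; push_cast at this; linarith
  have hf : ∑ i ∈ S, vv (q' i)^2 ≤ 3 * vv b ^ 2 - fd b * Q - 32/9*(a*(1-a))*Q^2 := by
    calc ∑ i ∈ S, vv (q' i)^2
        ≤ ∑ i ∈ S, (vv b ^ 2 + fd b * (q' i - b) - 32/3*(a*(1-a))*(q' i - b)^2) :=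
          Finset.sum_le_sum fun i _ => quartic_tangent ha0 (by linarith) (hmin' i) (hq' i).2.1
      _ = 3 * vv b ^ 2 + fd b * (-Q) - 32/3*(a*(1-a)) * ∑ i ∈ S, (q' i - b)^2 := by
          rw [Finset.sum_sub_distrib, Finset.sum_add_distrib, ← Finset.mul_sum, ← Finset.mul_sum, hdev,
            Finset.sum_const, hcard]; ring
      _ ≤ _ := by
          nlinarith [mul_le_mul_of_nonneg_left hcs (mul_nonneg ha0 (show 0 ≤ 1 - a by linarith))]
  have hL : 2 * vv a + vv (1 - Q - 3*a) ≤ ∑ i ∈ S, vv (q' i) := by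
    have h2 := Finset.sum_sq_le_sq_sum_of_nonneg (s := S) (f := fun i => q' i - a)
      (fun i _ => by linarith [hmin' i])
    have e1 : ∑ i ∈ S, (q' i - a) = 1 - Q - 4*a := by
      rw [Finset.sum_sub_distrib, hsS, Finset.sum_const, hcard]; ring
    rw [e1] at h2
    have e2 : ∑ i ∈ S, vv (q' i) = 3 * vv a + 4*(1 - 2*a) * ∑ i ∈ S, (q' i - a)
        - 4 * ∑ i ∈ S, (q' i - a)^2 := by
      rw [Finset.mul_sum, Finset.mul_sum, show (3:ℝ) * vv a = ∑ _i ∈ S, vv a by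
        rw [Finset.sum_const, hcard]; ring, ← Finset.sum_add_distrib, ← Finset.sum_sub_distrib]
      exact Finset.sum_congr rfl fun i _ => by unfold vv; ring
    rw [e2, e1]
    simp only [vv]
    nlinarith
  have hsplit : ∀ F : Fin 4 → ℝ, ∑ i, F i = F i₀ + ∑ i ∈ S, F i := fun F =>
    (Finset.add_sum_erase _ F (mem_univ i₀)).symm
  have hmain : ∑ i, (R i ^ 2 + t) ≤ (vv a ^ 2 + 3 * vv b ^ 2 - fd b * Q - 32/9*(a*(1-a))*Q^2)
      + t * (4 + t - (3 * vv a + vv (1 - Q - 3*a))) := by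
    calc ∑ i, (R i ^ 2 + t) ≤ ∑ i, ((vv (q' i) - t/2)^2 + t) :=
          Finset.sum_le_sum fun i _ => by linarith [hv i]
      _ = ∑ i, vv (q' i)^2 - t * ∑ i, vv (q' i) + t^2 + 4*t := by
          simp only [Fin.sum_univ_four]; ring
      _ ≤ _ := by
          rw [hsplit (fun i => vv (q' i)^2), hsplit (fun i => vv (q' i))]
          nlinarith [mul_le_mul_of_nonneg_left hL ht0]
  have hXle : R i₀ ^ 2 + t ≤ XC a t := by
    have h := hv i₀
    have : t*t ≤ t*(1/16) := mul_le_mul_of_nonneg_left (by linarith) ht0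
    unfold XC
    nlinarith
  have heg : e ≤ gC a t * Q := (he' i₀).trans (mul_le_mul_of_nonneg_right (by
    unfold gC; norm_num; linarith) hQ)
  suffices ∃ g, e ≤ g * Q ∧ PC a Q g t ≤ 0 by
    obtain ⟨g, hg, hP⟩ := this
    unfold PC at hP
    linarith
  rcases le_total a 0.123 with h | h
  · refine ⟨gC a t, heg, C_low ha0 h hQ h4a ht0 (by linarith) (by linarith) ((hX i₀).trans hXle) ?_⟩
    rcases hor with h' | h'
    · exact Or.inl ((h' i₀).trans hXle)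
    · exact Or.inr (h'.trans heg)
  · exact ⟨2.57, he, C_mid h hQ h4a ht0 (by linarith)⟩

end Vale.P226
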