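import Mathlib.Analysis.SpecialFunctions.Trigonometric.ArctanDeriv
import Mathlib.Analysis.SpecialFunctions.Trigonometric.Bounds
import Mathlib.Analysis.Real.Pi.Bounds
import Mathlib.Analysis.Calculus.Deriv.MeanValue
import Vale.Agent.P226.Poly

/-! # Bounds for small cells from the one-parameter families (P226) -/

open Real

namespace Vale.P226

lemma pade_arctan {x : ℝ} (hx : 0 ≤ x) :
    x * (105 + 55*x^2) / (105 + 90*x^2 + 9*x^4) ≤ arctan x := by
  set f : ℝ → ℝ := fun x => arctan x - x * (105 + 55*x^2) / (105 + 90*x^2 + 9*x^4) with hf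
  have hd : ∀ x : ℝ, HasDerivAt f (576 * x^8 / ((1 + x^2) * (105 + 90*x^2 + 9*x^4)^2)) x := fun x => by
    have hD : (105 + 90*x^2 + 9*x^4) ≠ 0 := by positivity
    have h1 : HasDerivAt (fun x : ℝ => x * (105 + 55*x^2)) (105 + 165*x^2) x := by
      refine ((hasDerivAt_id x).mul (((hasDerivAt_pow 2 x).const_mul 55).const_add 105)).congr_deriv ?_
      simp only [id_eq]; push_cast; ring
    have h2 : HasDerivAt (fun x : ℝ => 105 + 90*x^2 + 9*x^4) (180*x + 36*x^3) x := by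
      refine ((((hasDerivAt_pow 2 x).const_mul 90).const_add 105).add ((hasDerivAt_pow 4 x).const_mul 9)).congr_deriv ?_
      push_cast; ring
    refine ((hasDerivAt_arctan x).sub (h1.div h2 hD)).congr_deriv ?_
    have : (1 + x^2) ≠ 0 := by positivity
    field_simp
    ring
  have hmono : Monotone f := monotone_of_hasDerivAt_nonneg hd (fun x => by
    have : 0 ≤ x^8 := by positivity
    positivity)
  have := hmono hx
  simp [hf] at this
  linarith

lemma arctan_le_self {x : ℝ} (hx : 0 ≤ x) : arctan x ≤ x := by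
  have h := Real.le_tan (arctan_nonneg.mpr hx) (arctan_lt_pi_div_two x)
  rwa [tan_arctan] at h

lemma sp2_num {σ q : ℝ} (hσ : 0 ≤ σ) (hσ1 : σ ≤ 0.34) (hq : 0 ≤ q)
    (h : ∀ c : ℝ, 0 < c → 0 ≤ 1 - c * arctan (1/c) → σ ≤ c * (π * q) + (1 - c * arctan (1/c))) :
    σ^2 ≤ 2.445 * q := by
  rcases eq_or_lt_of_le hσ with rfl | hσ0
  · nlinarith
  set w := √σ with hw
  have hw0 : 0 < w := Real.sqrt_pos.mpr hσ0
  have hw2 : w^2 = σ := Real.sq_sqrt hσ
  have hw1 : w ≤ 0.5831 := by rw [hw]; exact Real.sqrt_le_iff.mpr ⟨by norm_num, by linarith⟩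
  set X := 1.2 * w with hX
  have hX0 : 0 < X := by rw [hX]; positivity
  have hB : 0 ≤ 1 - 1/X * arctan (1/(1/X)) := by
    rw [one_div_one_div, sub_nonneg, one_div_mul_eq_div, div_le_one hX0]; exact arctan_le_self hX0.le
  have h1 := h (1/X) (by positivity) hB
  rw [one_div_one_div] at h1
  set D := 105 + 90*X^2 + 9*X^4 with hD
  have hD0 : 0 < D := by positivity
  have h2 : 1 - 1/X * arctan X ≤ X^2 * (35 + 9*X^2) / D := by
    have h3 := mul_le_mul_of_nonneg_left (pade_arctan hX0.le) (show 0 ≤ 1/X by positivity)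
    rw [show 1/X * (X * (105 + 55*X^2) / (105 + 90*X^2 + 9*X^4)) = 1 - X^2*(35 + 9*X^2)/D by
      rw [hD]; field_simp; ring] at h3
    linarith
  have hp := polyG2 w hw0.le hw1
  have hD' : D = 105 + 129.6*w^2 + 18.6624*w^4 := by rw [hD, hX]; ring
  have hk : σ * D - X^2 * (35 + 9*X^2) ≤ π * q / X * D := by
    have h4 := mul_le_mul_of_nonneg_right (h1.trans (add_le_add le_rfl h2)) hD0.le
    rw [add_mul, div_mul_cancel₀ _ hD0.ne'] at h4
    calc σ * D - X^2 * (35 + 9*X^2) ≤ 1/X * (π * q) * D := by linarith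
      _ = _ := by ring
  rw [← hD', show 35 + 12.96*w^2 = 35 + 9*X^2 by rw [hX]; ring] at hp
  have h5 : w^3 * D ≤ 0.93387 * (σ * D - X^2 * (35 + 9*X^2)) := by
    have := mul_le_mul_of_nonneg_left hp (sq_nonneg w)
    rw [← hw2, hX] at *
    linear_combination this
  have h6 : w^3 * D * X ≤ 0.93387 * (π * q) * D := by
    have h7 := mul_le_mul_of_nonneg_right (h5.trans (mul_le_mul_of_nonneg_left hk (by norm_num))) hX0.le
    calc w^3 * D * X ≤ 0.93387 * (π * q / X * D) * X := h7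
      _ = _ := by field_simp
  have h8 : w^3 * X ≤ 0.93387 * (π * q) := le_of_mul_le_mul_right (by linarith) hD0
  rw [hX, show w^3 * (1.2 * w) = 1.2 * σ^2 by rw [← hw2]; ring] at h8
  nlinarith [mul_le_mul_of_nonneg_right Real.pi_lt_d4.le hq]

lemma sp3_aux {σ q K m : ℝ} (hσ : 0 < σ) (hσ1 : √σ ≤ m) (hm : m ≤ 1)
    (hK : ∀ w : ℝ, 0 ≤ w → w ≤ m → 2 * (1 - (49/100)^2*w^4) ≤ K*0.7*(1 + 0.49*w^2 - 0.686*w))
    (hK0 : 0 ≤ K) (h : ∀ s : ℝ, 0 < s → s < 1 → σ ≤ (1/s - s)/2 * (4*q) + 2*s^3/(1+s^2)) :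
    σ^2 ≤ K * √σ * q := by
  set w := √σ with hw
  have hw0 : 0 < w := Real.sqrt_pos.mpr hσ
  have hw2 : w^2 = σ := Real.sq_sqrt hσ.le
  set s := 0.7 * w with hs
  have hs0 : 0 < s := by rw [hs]; positivity
  have hs1 : s < 1 := by rw [hs]; linarith
  have h1 := h s hs0 hs1
  have hD : (0:ℝ) < 1 + s^2 := by positivity
  have h2 : (σ * (1+s^2) - 2*s^3) * s ≤ 2 * (1 - s^2) * q * (1+s^2) := by
    have h3 := mul_le_mul_of_nonneg_right h1 (mul_nonneg hD.le hs0.le)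
    rw [show ((1/s - s)/2 * (4*q) + 2*s^3/(1+s^2)) * ((1+s^2)*s)
      = 2 * (1 - s^2) * q * (1+s^2) + 2*s^3*s by field_simp; ring] at h3
    linarith
  have h4 := mul_le_mul_of_nonneg_left h2 (show 0 ≤ K * w by positivity)
  have h5 := mul_le_mul_of_nonneg_right (hK w hw0.le hσ1) (show 0 ≤ w^4 by positivity)
  have hs2 : s^2 < 1 := by nlinarith
  have h6 : w^4 * (2 * (1 - s^2) * (1+s^2)) ≤ K * w * q * (2 * (1 - s^2) * (1+s^2)) := by
    rw [← hw2, hs] at h4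
    rw [hs]
    linear_combination h4 + h5
  have := le_of_mul_le_mul_right h6 (by nlinarith)
  rw [← hw2]; linear_combination this

lemma sp3_num {σ q : ℝ} (hσ : 0 ≤ σ) (hσ1 : σ ≤ 1) (hq : 0 ≤ q)
    (h : ∀ s : ℝ, 0 < s → s < 1 → σ ≤ (1/s - s)/2 * (4*q) + 2*s^3/(1+s^2)) :
    σ^2 ≤ 3.63 * √σ * q ∧ (σ ≤ 0.254 → σ^2 ≤ 1.821 * q) := by
  rcases eq_or_lt_of_le hσ with rfl | hσ0
  · simp; intro _; linarith
  refine ⟨sp3_aux hσ0 (Real.sqrt_le_one.mpr hσ1) le_rfl polyG3 (by norm_num) h, fun h254 => ?_⟩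
  have hs : √σ ≤ 0.50399 := Real.sqrt_le_iff.mpr ⟨by norm_num, by linarith⟩
  have := sp3_aux hσ0 (hs.trans (by norm_num)) (by norm_num) polyG3E (by norm_num) h
  nlinarith [mul_le_mul_of_nonneg_right hs hq]

lemma sp5_num {σ q : ℝ} (hσ : 0 ≤ σ) (hσ1 : σ ≤ 1) (hq : 0 ≤ q)
    (h : ∀ s : ℝ, 0 < s → s < 1 → σ ≤ √(3/5) * ((1/s - s)/2) * (16/3*q) + 2*s^3/(1+s^2)) :
    σ^2 ≤ 3 * q := by
  rcases eq_or_lt_of_le hσ with rfl | hσ0
  · simp; linarith
  set w := √σ with hw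
  have hw0 : 0 < w := Real.sqrt_pos.mpr hσ0
  have hw1 : w ≤ 1 := Real.sqrt_le_one.mpr hσ1
  have hw2 : w^2 = σ := Real.sq_sqrt hσ
  set s := 0.7 * w with hs
  have hs0 : 0 < s := by rw [hs]; positivity
  have hs1 : s < 1 := by rw [hs]; linarith
  have hr : √(3/5) ≤ 0.7746 := Real.sqrt_le_iff.mpr ⟨by norm_num, by norm_num⟩
  have hpos : 0 ≤ (1/s - s)/2 := by
    have : 1 ≤ 1/s := by rw [le_div_iff₀ hs0]; linarith
    linarith
  have h1 : σ ≤ (1/s - s)/2 * (4.1312*q) + 2*s^3/(1+s^2) := by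
    have := mul_le_mul_of_nonneg_right hr (mul_nonneg hpos hq)
    linarith [h s hs0 hs1]
  have hD : (0:ℝ) < 1 + s^2 := by positivity
  have h2 : (σ * (1+s^2) - 2*s^3) * s ≤ 2.0656 * (1 - s^2) * q * (1+s^2) := by
    have h3 := mul_le_mul_of_nonneg_right h1 (mul_nonneg hD.le hs0.le)
    rw [show ((1/s - s)/2 * (4.1312*q) + 2*s^3/(1+s^2)) * ((1+s^2)*s)
      = 2.0656 * (1 - s^2) * q * (1+s^2) + 2*s^3*s by field_simp; ring] at h3
    linarith
  have h5 := mul_le_mul_of_nonneg_right (polyG5 w hw0.le hw1) (show 0 ≤ w^3 by positivity)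
  have hs2 : s^2 < 1 := by nlinarith
  have h6 : w^4 * ((1 - s^2) * (1+s^2)) ≤ 3 * q * ((1 - s^2) * (1+s^2)) := by
    rw [← hw2, hs] at h2
    rw [hs]
    have := mul_nonneg hq (mul_nonneg (sub_nonneg.mpr hs2.le) hD.le)
    rw [hs] at this
    linarith
  have := le_of_mul_le_mul_right h6 (by nlinarith)
  rw [← hw2]; linear_combination this

end Vale.P226
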