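import Vale.Agent.P226.Cells
import Vale.Agent.P226.Regimes
import Vale.Agent.P226.Specks

/-! # Assembly of the regimes (P226) -/

open MeasureTheory ProbabilityTheory Set Real Module
open scoped ENNReal NNReal RealInnerProductSpace

namespace Vale.P226

variable {E : Type*} [NormedAddCommGroup E] [InnerProductSpace ℝ E] [FiniteDimensional ℝ E]
  [MeasurableSpace E] [BorelSpace E]

/-- a fuzzy partition -/
structure IsFuzzy {N : ℕ} (w : Fin N → E → ℝ) : Prop where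
  wt : ∀ i, IsWt (w i)
  sum_one : ∀ᵐ x ∂stdGaussian E, ∑ i, w i x = 1

lemma Zv_sum {ι : Type*} (s : Finset ι) {w : ι → E → ℝ} (hw : ∀ i, IsWt (w i)) :
    Zv (fun x => ∑ i ∈ s, w i x) = ∑ i ∈ s, Zv (w i) := by
  simp only [Zv, Finset.sum_smul]
  rw [integral_finsetSum _ (fun i _ => (hw i).integrable_smul), Finset.smul_sum]

lemma IsFuzzy.isWt_sum {N : ℕ} {w : Fin N → E → ℝ} (h : IsFuzzy w) (s : Finset (Fin N)) :
    IsWt (fun x => ∑ i ∈ s, w i x) := by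
  refine ⟨Finset.measurable_sum _ fun i _ => (h.wt i).meas, ?_⟩
  filter_upwards [h.sum_one, ae_all_iff.mpr fun i => (h.wt i).bdd] with x h1 h2
  refine ⟨Finset.sum_nonneg fun i _ => (h2 i).1, ?_⟩
  rw [← h1]
  exact Finset.sum_le_univ_sum_of_nonneg fun i => (h2 i).1

lemma IsFuzzy.sum_Zv {N : ℕ} {w : Fin N → E → ℝ} (h : IsFuzzy w) : ∑ i, Zv (w i) = 0 := by
  rw [← Zv_sum _ h.wt, Zv]
  have : (fun x => (∑ i, w i x) • x) =ᵐ[stdGaussian E] fun x => x :=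
    h.sum_one.mono fun x hx => by simp [hx]
  rw [integral_congr_ae this, integral_id_stdGaussian, smul_zero]

lemma IsFuzzy.sum_GP {N : ℕ} {w : Fin N → E → ℝ} (h : IsFuzzy w) {P : Submodule ℝ E} {En : ℝ}
    (hm : IsMeanRadius P En) (hE : 0 ≤ En) : ∑ i, GP P (w i) = En := by
  simp only [GP]
  rw [← Finset.mul_sum, ← integral_finsetSum _ (fun i _ => (h.wt i).integrable_mul (integrable_N P))]
  rw [← hm.integral hE]
  congr 1
  refine integral_congr_ae (h.sum_one.mono fun x hx => ?_)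
  simp only [← Finset.sum_mul, hx, one_mul]

omit [FiniteDimensional ℝ E] [MeasurableSpace E] [BorelSpace E] in
lemma sq_norm_sum_le {r : ℕ} {z : Fin r → E} (h : ∀ i j, i ≠ j → ⟪z i, z j⟫ ≤ 0) :
    ‖∑ i, z i‖^2 ≤ ∑ i, ‖z i‖^2 := by
  rw [← real_inner_self_eq_norm_sq, sum_inner]
  refine Finset.sum_le_sum fun i _ => ?_
  rw [inner_sum, ← Finset.add_sum_erase _ _ (Finset.mem_univ i), real_inner_self_eq_norm_sq]
  have : ∑ j ∈ (Finset.univ : Finset (Fin r)).erase i, ⟪z i, z j⟫ ≤ 0 :=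
    Finset.sum_nonpos fun j hj => h i j (Finset.ne_of_mem_erase hj).symm
  linarith

omit [MeasurableSpace E] [BorelSpace E] in
lemma pythag (P : Submodule ℝ E) (z : E) :
    ‖z‖^2 = ‖P.starProjection z‖^2 + ‖z - P.starProjection z‖^2 := by
  have h : ⟪P.starProjection z, z - P.starProjection z⟫ = 0 :=
    P.inner_right_of_mem_orthogonal (P.starProjection_apply_mem z) (P.sub_starProjection_mem_orthogonal z)
  have := norm_add_sq_real (P.starProjection z) (z - P.starProjection z)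
  rw [add_sub_cancel, h] at this
  linarith

omit [MeasurableSpace E] [BorelSpace E] in
lemma common_normal {K : ℕ} (P : Submodule ℝ E) (Z : Fin K → E) (S : E)
    (hsum : ∑ i, Z i + S = 0) (i₀ : Fin K) (hd : ∀ i, Z i - Z i₀ ∈ P) :
    (∀ i, Z i - P.starProjection (Z i) = Z i₀ - P.starProjection (Z i₀)) ∧
      (K:ℝ)^2 * ‖Z i₀ - P.starProjection (Z i₀)‖^2 ≤ ‖S‖^2 := by
  have h1 : ∀ i, Z i - P.starProjection (Z i) = Z i₀ - P.starProjection (Z i₀) := fun i => by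
    have := Submodule.starProjection_eq_self_iff.mpr (hd i)
    rw [map_sub] at this
    rw [sub_eq_sub_iff_sub_eq_sub]
    exact this.symm
  refine ⟨h1, ?_⟩
  have h2 : (K:ℝ) • (Z i₀ - P.starProjection (Z i₀)) = -(S - P.starProjection S) := by
    have e : ∑ i, (Z i - P.starProjection (Z i)) = (K:ℝ) • (Z i₀ - P.starProjection (Z i₀)) := by
      simp only [h1, Finset.sum_const, Finset.card_univ, Fintype.card_fin]
      rw [Nat.cast_smul_eq_nsmul]
    rw [← e, Finset.sum_sub_distrib, ← map_sum]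
    have : S = -∑ i, Z i := eq_neg_of_add_eq_zero_right hsum
    rw [this, map_neg]; abel
  have h3 := congrArg (fun v => ‖v‖^2) h2
  simp only [norm_smul, norm_neg, Real.norm_natCast, mul_pow] at h3
  rw [h3]
  have := pythag P S
  nlinarith [sq_nonneg ‖P.starProjection S‖]

/-- regime D -/
lemma cells_D (hd : 6 ≤ finrank ℝ E) {r : ℕ} {w : Fin (5 + r) → E → ℝ} (h : IsFuzzy w)
    (hbig : ∀ i : Fin 5, 1/2 < ‖Zv (w (Fin.castAdd r i))‖) :
    ∑ i, ‖Zv (w i)‖^2 ≤ 9/4 := by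
  obtain ⟨P, hP, hmem⟩ := exists_subspace (fun i : Fin 5 => Zv (w (Fin.castAdd r i))) le_rfl
    (by omega : 5 ≤ finrank ℝ E)
  set q : Fin (5 + r) → ℝ := fun i => GP P (w i) / (16/3) with hq
  have hq0 : ∀ i, 0 ≤ q i := fun i => div_nonneg (GP_nonneg (h.wt i) P) (by norm_num)
  have hsum : ∑ i, q i = 1 := by
    simp only [hq]
    rw [← Finset.sum_div, h.sum_GP (meanRadius5 hP) (by norm_num)]; norm_num
  rw [Fin.sum_univ_add] at hsum ⊢
  refine regime_D (fun i => ‖Zv (w (Fin.castAdd r i))‖) (fun i => q (Fin.castAdd r i))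
    (Q := ∑ j, q (Fin.natAdd 5 j)) (fun i => ⟨hbig i, norm_Zv_le_one (by omega) (h.wt _)⟩)
    (fun i C hC hC' => big5 (h.wt _) P hP (hmem i) hC hC') ?_ hsum
  rw [Finset.mul_sum]
  refine Finset.sum_le_sum fun j _ => sp5_num (norm_nonneg _) (norm_Zv_le_one (by omega) (h.wt _))
    (hq0 _) fun s hs hs1 => ?_
  have := speck5 (h.wt (Fin.natAdd 5 j)) P hP (by omega) hs hs1
  rw [show 16/3 * q (Fin.natAdd 5 j) = GP P (w (Fin.natAdd 5 j)) by simp only [hq]; ring]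
  exact this

/-- regime A -/
lemma cells_A (hd : 6 ≤ finrank ℝ E) {r : ℕ} {w : Fin (3 + r) → E → ℝ} (h : IsFuzzy w)
    (hneg : ∀ i j, i ≠ j → ⟪Zv (w i), Zv (w j)⟫ ≤ 0)
    (hsmall : ∀ j : Fin r, ‖Zv (w (Fin.natAdd 3 j))‖ ≤ 0.34)
    (hη : ∑ j : Fin r, ‖Zv (w (Fin.natAdd 3 j))‖^2 ≤ 0.28) :
    ∑ i, ‖Zv (w i)‖^2 ≤ 9/4 := by
  set Z : Fin 3 → E := fun i => Zv (w (Fin.castAdd r i)) with hZ
  obtain ⟨P, hP, hmem⟩ := exists_subspace ![Z 1 - Z 0, Z 2 - Z 0] le_rfl (by omega : 2 ≤ finrank ℝ E)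
  have hd0 : ∀ i, Z i - Z 0 ∈ P := fun i => by
    fin_cases i
    · simp
    · exact hmem 0
    · exact hmem 1
  have hs := h.sum_Zv
  rw [Fin.sum_univ_add] at hs
  obtain ⟨hn, ht⟩ := common_normal P Z _ hs 0 hd0
  set η := ∑ j : Fin r, ‖Zv (w (Fin.natAdd 3 j))‖^2 with hηdef
  set t := ‖Z 0 - P.starProjection (Z 0)‖^2 with htdef
  have ht9 : 9 * t ≤ η := by
    refine le_trans (le_of_eq ?_) (ht.trans (sq_norm_sum_le fun i j hij =>
      hneg _ _ ((Fin.natAdd_injective r 3).ne hij)))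
    norm_num [htdef]
  set q : Fin (3 + r) → ℝ := fun i => GP P (w i) / π with hq
  have hq0 : ∀ i, 0 ≤ q i := fun i => div_nonneg (GP_nonneg (h.wt i) P) pi_pos.le
  have hsum : ∑ i, q i = 1 := by
    simp only [hq]
    rw [← Finset.sum_div, h.sum_GP (meanRadius2 hP) pi_pos.le, div_self Real.pi_ne_zero]
  have hQ : η ≤ 2.445 * ∑ j : Fin r, q (Fin.natAdd 3 j) := by
    rw [Finset.mul_sum]
    refine Finset.sum_le_sum fun j _ => sp2_num (norm_nonneg _) (hsmall j) (hq0 _) fun c hc hB => ?_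
    have := speck2 (h.wt (Fin.natAdd 3 j)) P hP (by omega) hc hB
    rwa [show π * q (Fin.natAdd 3 j) = GP P (w (Fin.natAdd 3 j)) by simp only [hq]; field_simp]
  rw [Fin.sum_univ_add] at hsum ⊢
  have hsplit : ∀ i, ‖Z i‖^2 = ‖P.starProjection (Z i)‖^2 + t := fun i => by
    rw [pythag P (Z i), hn i]
  have := regime_A (fun i => ‖P.starProjection (Z i)‖) (fun i => q (Fin.castAdd r i)) (sq_nonneg _)
    ht9 hη (fun i => norm_nonneg _) (fun i => hq0 _) (fun i => by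
      have := big2 (h.wt (Fin.castAdd r i)) P hP (by omega)
      simp only [htdef, ← hn i]
      exact this) (by
      have := (div_le_iff₀' (by norm_num : (0:ℝ) < 2.445)).mpr hQ
      linarith)
  calc _ = ∑ i, (‖P.starProjection (Z i)‖^2 + t) + η := by
        rw [hηdef]; congr 1; exact Finset.sum_congr rfl fun i _ => hsplit i
    _ ≤ _ := this

/-- regime E -/
lemma cells_E (hd : 6 ≤ finrank ℝ E) {r : ℕ} {w : Fin (3 + r) → E → ℝ} (h : IsFuzzy w)
    (hsmall : ∀ j : Fin r, ‖Zv (w (Fin.natAdd 3 j))‖ ≤ 0.254)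
    (hη : 0.28 < ∑ j : Fin r, ‖Zv (w (Fin.natAdd 3 j))‖^2) :
    ∑ i, ‖Zv (w i)‖^2 ≤ 9/4 := by
  set Z : Fin 3 → E := fun i => Zv (w (Fin.castAdd r i)) with hZ
  obtain ⟨P, hP, hmem⟩ := exists_subspace Z le_rfl (by omega : 3 ≤ finrank ℝ E)
  set q : Fin (3 + r) → ℝ := fun i => GP P (w i) / 4 with hq
  have hq0 : ∀ i, 0 ≤ q i := fun i => div_nonneg (GP_nonneg (h.wt i) P) (by norm_num)
  have hsum : ∑ i, q i = 1 := by
    simp only [hq]
    rw [← Finset.sum_div, h.sum_GP (meanRadius3 hP) (by norm_num)]; norm_num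
  rw [Fin.sum_univ_add] at hsum ⊢
  refine regime_E (fun i => ‖Z i‖) (fun i => q (Fin.castAdd r i)) hη ?_ (fun i => norm_nonneg _)
    (fun i => hq0 _) (fun i => ?_) hsum
  · rw [Finset.mul_sum]
    refine Finset.sum_le_sum fun j _ => (sp3_num (norm_nonneg _) (by linarith [hsmall j]) (hq0 _)
      fun s hs hs1 => ?_).2 (hsmall j)
    have := speck3 (h.wt (Fin.natAdd 3 j)) P hP (by omega) hs hs1
    rwa [show 4 * q (Fin.natAdd 3 j) = GP P (w (Fin.natAdd 3 j)) by simp only [hq]; ring]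
  · have := big3 (h.wt (Fin.castAdd r i)) P hP (by omega)
    rw [Submodule.starProjection_eq_self_iff.mpr (hmem i), sub_self, norm_zero] at this
    simp only [hq, vv, hZ] at this ⊢
    linarith

lemma sqrt_le_tangent {w : ℝ} (hw : 0 ≤ w) : w ≤ 0.45 + w^4/0.864 := by
  rw [← sub_nonneg]
  have : 0.45 + w^4/0.864 - w = (w - 0.6)^2 * (w^2 + 1.2*w + 1.08) / 0.864 := by ring
  rw [this]; positivity

/-- regime C -/
lemma cells_C (hd : 6 ≤ finrank ℝ E) {r : ℕ} {w : Fin (4 + r) → E → ℝ} (h : IsFuzzy w)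
    (hneg : ∀ i j, i ≠ j → ⟪Zv (w i), Zv (w j)⟫ ≤ 0)
    (hle : ∀ (i : Fin 4) (j : Fin r), ‖Zv (w (Fin.natAdd 4 j))‖ ≤ ‖Zv (w (Fin.castAdd r i))‖)
    (hhalf : ∀ j : Fin r, ‖Zv (w (Fin.natAdd 4 j))‖ ≤ 1/2)
    (hbig : ∀ i : Fin 4, 0.254 ≤ ‖Zv (w (Fin.castAdd r i))‖)
    (hor : (∀ i : Fin 4, 0.34 ≤ ‖Zv (w (Fin.castAdd r i))‖) ∨
      0.1644 ≤ ∑ j : Fin r, ‖Zv (w (Fin.natAdd 4 j))‖^2) :
    ∑ i, ‖Zv (w i)‖^2 ≤ 9/4 := by
  set Z : Fin 4 → E := fun i => Zv (w (Fin.castAdd r i)) with hZ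
  obtain ⟨P, hP, hmem⟩ := exists_subspace ![Z 1 - Z 0, Z 2 - Z 0, Z 3 - Z 0] le_rfl
    (by omega : 3 ≤ finrank ℝ E)
  have hd0 : ∀ i, Z i - Z 0 ∈ P := fun i => by
    fin_cases i
    · simp
    · exact hmem 0
    · exact hmem 1
    · exact hmem 2
  have hs := h.sum_Zv
  rw [Fin.sum_univ_add] at hs
  obtain ⟨hn, ht⟩ := common_normal P Z _ hs 0 hd0
  set e := ∑ j : Fin r, ‖Zv (w (Fin.natAdd 4 j))‖^2 with hedef
  set t := ‖Z 0 - P.starProjection (Z 0)‖^2 with htdef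
  have ht16 : 16 * t ≤ e := by
    refine le_trans (le_of_eq ?_) (ht.trans (sq_norm_sum_le fun i j hij =>
      hneg _ _ ((Fin.natAdd_injective r 4).ne hij)))
    norm_num [htdef]
  have ht1 : 16 * t ≤ 1 := by
    refine le_trans (le_of_eq ?_) (ht.trans ?_)
    · norm_num [htdef]
    · have e2 : ∑ j : Fin r, Zv (w (Fin.natAdd 4 j))
          = Zv (fun x => ∑ i ∈ Finset.univ.map ⟨Fin.natAdd 4, Fin.natAdd_injective r 4⟩, w i x) := by
        rw [Zv_sum _ h.wt, Finset.sum_map]; rfl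
      rw [e2]
      exact pow_le_one₀ (norm_nonneg _) (norm_Zv_le_one (by omega) (h.isWt_sum _))
  set q : Fin (4 + r) → ℝ := fun i => GP P (w i) / 4 with hq
  have hq0 : ∀ i, 0 ≤ q i := fun i => div_nonneg (GP_nonneg (h.wt i) P) (by norm_num)
  have hsum : ∑ i, q i = 1 := by
    simp only [hq]
    rw [← Finset.sum_div, h.sum_GP (meanRadius3 hP) (by norm_num)]; norm_num
  have hsp : ∀ j : Fin r, ‖Zv (w (Fin.natAdd 4 j))‖^2
      ≤ 3.63 * √‖Zv (w (Fin.natAdd 4 j))‖ * q (Fin.natAdd 4 j) := fun j =>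
    (sp3_num (norm_nonneg _) (by linarith [hhalf j]) (hq0 _) fun s hs hs1 => by
      have := speck3 (h.wt (Fin.natAdd 4 j)) P hP (by omega) hs hs1
      rwa [show 4 * q (Fin.natAdd 4 j) = GP P (w (Fin.natAdd 4 j)) by simp only [hq]; ring]).1
  have hsplit : ∀ i, ‖Z i‖^2 = ‖P.starProjection (Z i)‖^2 + t := fun i => by
    rw [pythag P (Z i), hn i]
  rw [Fin.sum_univ_add] at hsum ⊢
  set Q := ∑ j : Fin r, q (Fin.natAdd 4 j) with hQdef
  have hbound : ∀ g : ℝ, (∀ j : Fin r, 3.63 * √‖Zv (w (Fin.natAdd 4 j))‖ ≤ g) → e ≤ g * Q := fun g hg => by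
    rw [hQdef, Finset.mul_sum]
    exact Finset.sum_le_sum fun j _ => (hsp j).trans (mul_le_mul_of_nonneg_right (hg j) (hq0 _))
  have := regime_C (fun i => ‖P.starProjection (Z i)‖) (fun i => q (Fin.castAdd r i)) (Q := Q)
    (sq_nonneg _) ht1 ht16 (fun i => norm_nonneg _) (fun i => hq0 _) (Finset.sum_nonneg fun j _ => hq0 _)
    hsum
    (fun i => by
      have := big3 (h.wt (Fin.castAdd r i)) P hP (by omega)
      simp only [htdef, ← hn i, vv, hq]
      exact this)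
    (hbound _ fun j => by
      have : √‖Zv (w (Fin.natAdd 4 j))‖ ≤ 0.7078 :=
        Real.sqrt_le_iff.mpr ⟨by norm_num, by linarith [hhalf j]⟩
      linarith)
    (fun i => by
      rw [← hsplit i]
      refine hbound _ fun j => mul_le_mul_of_nonneg_left ?_ (by norm_num)
      refine (Real.sqrt_le_sqrt (hle i j)).trans ((sqrt_le_tangent (Real.sqrt_nonneg _)).trans_eq ?_)
      rw [show (√‖Z i‖)^4 = ((√‖Z i‖)^2)^2 by ring, Real.sq_sqrt (norm_nonneg _)])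
    (fun i => by
      rw [← hsplit i]
      have := pow_le_pow_left₀ (by norm_num) (hbig i) 2
      linarith)
    (by
      rcases hor with h' | h'
      · left; intro i
        rw [← hsplit i]
        have := pow_le_pow_left₀ (by norm_num) (h' i) 2
        linarith
      · exact Or.inr h')
  calc _ = ∑ i, (‖P.starProjection (Z i)‖^2 + t) + e := by
        rw [hedef]; congr 1; exact Finset.sum_congr rfl fun i _ => hsplit i
    _ ≤ _ := this

/-- all four regimes together, for a decreasingly ordered configuration with non-positive correlations -/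
lemma cells_sorted (hd : 6 ≤ finrank ℝ E) {r : ℕ} {w : Fin (5 + r) → E → ℝ} (h : IsFuzzy w)
    (hneg : ∀ i j, i ≠ j → ⟪Zv (w i), Zv (w j)⟫ ≤ 0)
    (hanti : ∀ i j, i ≤ j → ‖Zv (w j)‖ ≤ ‖Zv (w i)‖) :
    ∑ i, ‖Zv (w i)‖^2 ≤ 9/4 := by
  let i4 : Fin (5 + r) := ⟨4, by omega⟩
  let i3 : Fin (5 + r) := ⟨3, by omega⟩
  by_cases h5 : 1/2 < ‖Zv (w i4)‖
  · refine cells_D hd h fun i => lt_of_lt_of_le h5 (hanti _ _ ?_)
    rw [Fin.le_def]; have := i.2; simp [i4]; omega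
  push Not at h5
  have e3 : 3 + (2 + r) = 5 + r := by omega
  have e4 : 4 + (1 + r) = 5 + r := by omega
  set w3 : Fin (3 + (2 + r)) → E → ℝ := fun i => w (Fin.cast e3 i) with hw3
  set w4 : Fin (4 + (1 + r)) → E → ℝ := fun i => w (Fin.cast e4 i) with hw4
  have hf3 : IsFuzzy w3 := ⟨fun i => h.wt _, h.sum_one.mono fun x hx => by
    rw [← hx]; exact Equiv.sum_comp (finCongr e3) (fun i => w i x)⟩
  have hf4 : IsFuzzy w4 := ⟨fun i => h.wt _, h.sum_one.mono fun x hx => by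
    rw [← hx]; exact Equiv.sum_comp (finCongr e4) (fun i => w i x)⟩
  have hs3 : ∑ i, ‖Zv (w3 i)‖^2 = ∑ i, ‖Zv (w i)‖^2 := Equiv.sum_comp (finCongr e3) (fun i => ‖Zv (w i)‖^2)
  have hs4 : ∑ i, ‖Zv (w4 i)‖^2 = ∑ i, ‖Zv (w i)‖^2 := Equiv.sum_comp (finCongr e4) (fun i => ‖Zv (w i)‖^2)
  have hsm3 : ∀ j : Fin (2 + r), ‖Zv (w3 (Fin.natAdd 3 j))‖ ≤ ‖Zv (w i3)‖ := fun j =>
    hanti _ _ (by rw [Fin.le_def]; simp [i3])
  by_cases hA : ‖Zv (w i3)‖ ≤ 0.34 ∧ ∑ j : Fin (2 + r), ‖Zv (w3 (Fin.natAdd 3 j))‖^2 ≤ 0.28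
  · rw [← hs3]
    exact cells_A hd hf3 (fun i j hij => hneg _ _ ((Fin.cast_injective e3).ne hij))
      (fun j => (hsm3 j).trans hA.1) hA.2
  by_cases hE : ‖Zv (w i3)‖ ≤ 0.254
  · rw [← hs3]
    refine cells_E hd hf3 (fun j => (hsm3 j).trans hE) ?_
    by_contra hcon; push Not at hcon
    exact hA ⟨by linarith, hcon⟩
  push Not at hE
  have hi3 : ∀ i : Fin 4, ‖Zv (w i3)‖ ≤ ‖Zv (w4 (Fin.castAdd (1 + r) i))‖ := fun i =>
    hanti _ _ (by rw [Fin.le_def]; simp [i3]; omega)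
  rw [← hs4]
  refine cells_C hd hf4 (fun i j hij => hneg _ _ ((Fin.cast_injective e4).ne hij))
    (fun i j => hanti _ _ (by rw [Fin.le_def]; simp; omega))
    (fun j => le_trans (hanti _ _ (by rw [Fin.le_def]; simp [i4])) h5)
    (fun i => le_trans hE.le (hi3 i)) ?_
  rcases le_or_gt (‖Zv (w i3)‖) 0.34 with h34 | h34
  · right
    have hη : 0.28 < ∑ j : Fin (2 + r), ‖Zv (w3 (Fin.natAdd 3 j))‖^2 := by
      by_contra hcon; push Not at hcon; exact hA ⟨h34, hcon⟩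
    have hsq := pow_le_pow_left₀ (norm_nonneg _) h34 2
    have ht := hs3.trans hs4.symm
    rw [Fin.sum_univ_add (fun i => ‖Zv (w3 i)‖^2), Fin.sum_univ_add (fun i => ‖Zv (w4 i)‖^2),
      Fin.sum_univ_three, Fin.sum_univ_four] at ht
    have c0 : w3 (Fin.castAdd (2+r) 0) = w4 (Fin.castAdd (1+r) 0) := rfl
    have c1 : w3 (Fin.castAdd (2+r) 1) = w4 (Fin.castAdd (1+r) 1) := rfl
    have c2 : w3 (Fin.castAdd (2+r) 2) = w4 (Fin.castAdd (1+r) 2) := rfl
    have c3 : w4 (Fin.castAdd (1+r) 3) = w i3 := rfl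
    rw [c0, c1, c2, c3] at ht
    linarith
  · exact Or.inl fun i => le_trans h34.le (hi3 i)

end Vale.P226
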