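import Vale.Agent.P226.Gauss1
import Mathlib.Probability.Distributions.Gaussian.Multivariate
import Mathlib.Analysis.InnerProductSpace.GramSchmidtOrtho

/-! # Coordinates of the standard Gaussian along orthonormal families (P226) -/

open MeasureTheory ProbabilityTheory Set Real Module
open scoped ENNReal NNReal RealInnerProductSpace

namespace Vale.P226

variable {E : Type*} [NormedAddCommGroup E] [InnerProductSpace ℝ E] [FiniteDimensional ℝ E]
  [MeasurableSpace E] [BorelSpace E]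

/-- the coordinates along a family -/
noncomputable def coords {m : ℕ} (f : Fin m → E) (x : E) : Fin m → ℝ := fun i => ⟪f i, x⟫

@[fun_prop]
lemma measurable_coords {m : ℕ} (f : Fin m → E) : Measurable (coords f) := by
  unfold coords; fun_prop

lemma law {m : ℕ} {f : Fin m → E} (hf : Orthonormal ℝ f) :
    Measure.map (coords f) (stdGaussian E) = Measure.pi (fun _ : Fin m => gR) := by
  have h1 : Measure.map (WithLp.toLp 2 ∘ coords f) (stdGaussian E)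
      = stdGaussian (EuclideanSpace ℝ (Fin m)) := by
    apply Measure.ext_of_charFun (E := EuclideanSpace ℝ (Fin m))
    ext t
    have e : ∀ x, ⟪(WithLp.toLp 2 ∘ coords f) x, t⟫ = ⟪x, ∑ i, t i • f i⟫ := fun x => by
      simp [PiLp.inner_apply, coords, inner_sum, real_inner_smul_right, real_inner_comm x,
        mul_comm]
    have e2 : ‖∑ i, t i • f i‖^2 = ‖t‖^2 := by
      rw [← real_inner_self_eq_norm_sq, hf.inner_sum, EuclideanSpace.real_norm_sq_eq]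
      exact Finset.sum_congr rfl fun i _ => by simp; ring
    rw [charFun_apply, integral_map (Measurable.aemeasurable (by fun_prop))
      (Measurable.aestronglyMeasurable (by fun_prop))]
    simp only [e]
    rw [← charFun_apply, charFun_stdGaussian, charFun_stdGaussian, ← Complex.ofReal_pow,
      ← Complex.ofReal_pow, e2]
  have h2 : coords f = (WithLp.ofLp : EuclideanSpace ℝ (Fin m) → Fin m → ℝ) ∘ (WithLp.toLp 2 ∘ coords f) := rfl
  rw [h2, ← Measure.map_map (by fun_prop) (by fun_prop), h1, ← map_pi_eq_stdGaussian,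
    Measure.map_map (by fun_prop) (by fun_prop)]
  exact Measure.map_id

lemma lintegral_coords {m : ℕ} {f : Fin m → E} (hf : Orthonormal ℝ f)
    (F : (Fin m → ℝ) → ℝ≥0∞) (hF : Measurable F) :
    ∫⁻ x, F (coords f x) ∂stdGaussian E = ∫⁻ z, F z ∂Measure.pi (fun _ => gR) := by
  rw [← law hf, lintegral_map hF (by fun_prop)]

lemma law1 {f : Fin 1 → E} (hf : Orthonormal ℝ f) (H : ℝ → ℝ≥0∞) (hH : Measurable H) :
    ∫⁻ x, H ⟪f 0, x⟫ ∂stdGaussian E = ∫⁻ a, H a ∂gR := by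
  rw [show (fun x => H ⟪f 0, x⟫) = fun x => (fun z : Fin 1 → ℝ => H (z 0)) (coords f x) from rfl,
    lintegral_coords hf (fun z : Fin 1 → ℝ => H (z 0)) (by fun_prop), lintegral_pi_succ _ (by fun_prop)]
  simp

lemma law2 {f : Fin 2 → E} (hf : Orthonormal ℝ f) (H : ℝ → ℝ → ℝ≥0∞)
    (hH : Measurable fun p : ℝ × ℝ => H p.1 p.2) :
    ∫⁻ x, H ⟪f 0, x⟫ ⟪f 1, x⟫ ∂stdGaussian E = ∫⁻ a, ∫⁻ b, H a b ∂gR ∂gR := by
  have m2 : Measurable fun z : Fin 2 → ℝ => H (z 0) (z 1) :=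
    hH.comp (by fun_prop : Measurable fun z : Fin 2 → ℝ => (z 0, z 1))
  rw [show (fun x => H ⟪f 0, x⟫ ⟪f 1, x⟫) = fun x => (fun z : Fin 2 → ℝ => H (z 0) (z 1)) (coords f x) from rfl,
    lintegral_coords hf _ m2, lintegral_pi_succ _ m2]
  refine lintegral_congr fun a => ?_
  simp only [Fin.cons_zero, Fin.cons_one]
  rw [lintegral_pi_succ (fun z : Fin 1 → ℝ => H a (z 0))
    (hH.comp (by fun_prop : Measurable fun z : Fin 1 → ℝ => (a, z 0)))]
  simp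

lemma law3 {f : Fin 3 → E} (hf : Orthonormal ℝ f) (H : ℝ → ℝ → ℝ → ℝ≥0∞)
    (hH : Measurable fun p : ℝ × ℝ × ℝ => H p.1 p.2.1 p.2.2) :
    ∫⁻ x, H ⟪f 0, x⟫ ⟪f 1, x⟫ ⟪f 2, x⟫ ∂stdGaussian E = ∫⁻ a, ∫⁻ b, ∫⁻ c, H a b c ∂gR ∂gR ∂gR := by
  have m3 : Measurable fun z : Fin 3 → ℝ => H (z 0) (z 1) (z 2) :=
    hH.comp (by fun_prop : Measurable fun z : Fin 3 → ℝ => (z 0, z 1, z 2))
  rw [show (fun x => H ⟪f 0, x⟫ ⟪f 1, x⟫ ⟪f 2, x⟫)
      = fun x => (fun z : Fin 3 → ℝ => H (z 0) (z 1) (z 2)) (coords f x) from rfl,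
    lintegral_coords hf _ m3, lintegral_pi_succ _ m3]
  refine lintegral_congr fun a => ?_
  have c2 : ∀ (a : ℝ) (z : Fin 2 → ℝ), (Fin.cons a z : Fin 3 → ℝ) 2 = z 1 := fun a z => rfl
  simp only [Fin.cons_zero, Fin.cons_one, c2]
  rw [lintegral_pi_succ (fun z : Fin 2 → ℝ => H a (z 0) (z 1))
    (hH.comp (by fun_prop : Measurable fun z : Fin 2 → ℝ => (a, z 0, z 1)))]
  refine lintegral_congr fun b => ?_
  simp only [Fin.cons_zero, Fin.cons_one]
  rw [lintegral_pi_succ (fun z : Fin 1 → ℝ => H a b (z 0))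
    (hH.comp (by fun_prop : Measurable fun z : Fin 1 → ℝ => (a, b, z 0)))]
  simp

lemma law4 {f : Fin 4 → E} (hf : Orthonormal ℝ f) (H : ℝ → ℝ → ℝ → ℝ → ℝ≥0∞)
    (hH : Measurable fun p : ℝ × ℝ × ℝ × ℝ => H p.1 p.2.1 p.2.2.1 p.2.2.2) :
    ∫⁻ x, H ⟪f 0, x⟫ ⟪f 1, x⟫ ⟪f 2, x⟫ ⟪f 3, x⟫ ∂stdGaussian E
      = ∫⁻ a, ∫⁻ b, ∫⁻ c, ∫⁻ d, H a b c d ∂gR ∂gR ∂gR ∂gR := by
  have m4 : Measurable fun z : Fin 4 → ℝ => H (z 0) (z 1) (z 2) (z 3) :=
    hH.comp (by fun_prop : Measurable fun z : Fin 4 → ℝ => (z 0, z 1, z 2, z 3))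
  rw [show (fun x => H ⟪f 0, x⟫ ⟪f 1, x⟫ ⟪f 2, x⟫ ⟪f 3, x⟫)
      = fun x => (fun z : Fin 4 → ℝ => H (z 0) (z 1) (z 2) (z 3)) (coords f x) from rfl,
    lintegral_coords hf _ m4, lintegral_pi_succ _ m4]
  refine lintegral_congr fun a => ?_
  have c2 : ∀ (a : ℝ) (z : Fin 3 → ℝ), (Fin.cons a z : Fin 4 → ℝ) 2 = z 1 := fun a z => rfl
  have c3 : ∀ (a : ℝ) (z : Fin 3 → ℝ), (Fin.cons a z : Fin 4 → ℝ) 3 = z 2 := fun a z => rfl
  have d2 : ∀ (a : ℝ) (z : Fin 2 → ℝ), (Fin.cons a z : Fin 3 → ℝ) 2 = z 1 := fun a z => rfl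
  simp only [Fin.cons_zero, Fin.cons_one, c2, c3]
  rw [lintegral_pi_succ (fun z : Fin 3 → ℝ => H a (z 0) (z 1) (z 2))
    (hH.comp (by fun_prop : Measurable fun z : Fin 3 → ℝ => (a, z 0, z 1, z 2)))]
  refine lintegral_congr fun b => ?_
  simp only [Fin.cons_zero, Fin.cons_one, d2]
  rw [lintegral_pi_succ (fun z : Fin 2 → ℝ => H a b (z 0) (z 1))
    (hH.comp (by fun_prop : Measurable fun z : Fin 2 → ℝ => (a, b, z 0, z 1)))]
  refine lintegral_congr fun c => ?_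
  simp only [Fin.cons_zero, Fin.cons_one]
  rw [lintegral_pi_succ (fun z : Fin 1 → ℝ => H a b c (z 0))
    (hH.comp (by fun_prop : Measurable fun z : Fin 1 → ℝ => (a, b, c, z 0)))]
  simp

lemma law5 {f : Fin 5 → E} (hf : Orthonormal ℝ f) (H : ℝ → ℝ → ℝ → ℝ → ℝ → ℝ≥0∞)
    (hH : Measurable fun p : ℝ × ℝ × ℝ × ℝ × ℝ => H p.1 p.2.1 p.2.2.1 p.2.2.2.1 p.2.2.2.2) :
    ∫⁻ x, H ⟪f 0, x⟫ ⟪f 1, x⟫ ⟪f 2, x⟫ ⟪f 3, x⟫ ⟪f 4, x⟫ ∂stdGaussian E
      = ∫⁻ a, ∫⁻ b, ∫⁻ c, ∫⁻ d, ∫⁻ e, H a b c d e ∂gR ∂gR ∂gR ∂gR ∂gR := by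
  have m5 : Measurable fun z : Fin 5 → ℝ => H (z 0) (z 1) (z 2) (z 3) (z 4) :=
    hH.comp (by fun_prop : Measurable fun z : Fin 5 → ℝ => (z 0, z 1, z 2, z 3, z 4))
  rw [show (fun x => H ⟪f 0, x⟫ ⟪f 1, x⟫ ⟪f 2, x⟫ ⟪f 3, x⟫ ⟪f 4, x⟫)
      = fun x => (fun z : Fin 5 → ℝ => H (z 0) (z 1) (z 2) (z 3) (z 4)) (coords f x) from rfl,
    lintegral_coords hf _ m5, lintegral_pi_succ _ m5]
  refine lintegral_congr fun a => ?_
  have c2 : ∀ (a : ℝ) (z : Fin 4 → ℝ), (Fin.cons a z : Fin 5 → ℝ) 2 = z 1 := fun a z => rfl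
  have c3 : ∀ (a : ℝ) (z : Fin 4 → ℝ), (Fin.cons a z : Fin 5 → ℝ) 3 = z 2 := fun a z => rfl
  have c4 : ∀ (a : ℝ) (z : Fin 4 → ℝ), (Fin.cons a z : Fin 5 → ℝ) 4 = z 3 := fun a z => rfl
  have d2 : ∀ (a : ℝ) (z : Fin 3 → ℝ), (Fin.cons a z : Fin 4 → ℝ) 2 = z 1 := fun a z => rfl
  have d3 : ∀ (a : ℝ) (z : Fin 3 → ℝ), (Fin.cons a z : Fin 4 → ℝ) 3 = z 2 := fun a z => rfl
  have e2 : ∀ (a : ℝ) (z : Fin 2 → ℝ), (Fin.cons a z : Fin 3 → ℝ) 2 = z 1 := fun a z => rfl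
  simp only [Fin.cons_zero, Fin.cons_one, c2, c3, c4]
  rw [lintegral_pi_succ (fun z : Fin 4 → ℝ => H a (z 0) (z 1) (z 2) (z 3))
    (hH.comp (by fun_prop : Measurable fun z : Fin 4 → ℝ => (a, z 0, z 1, z 2, z 3)))]
  refine lintegral_congr fun b => ?_
  simp only [Fin.cons_zero, Fin.cons_one, d2, d3]
  rw [lintegral_pi_succ (fun z : Fin 3 → ℝ => H a b (z 0) (z 1) (z 2))
    (hH.comp (by fun_prop : Measurable fun z : Fin 3 → ℝ => (a, b, z 0, z 1, z 2)))]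
  refine lintegral_congr fun c => ?_
  simp only [Fin.cons_zero, Fin.cons_one, e2]
  rw [lintegral_pi_succ (fun z : Fin 2 → ℝ => H a b c (z 0) (z 1))
    (hH.comp (by fun_prop : Measurable fun z : Fin 2 → ℝ => (a, b, c, z 0, z 1)))]
  refine lintegral_congr fun d => ?_
  simp only [Fin.cons_zero, Fin.cons_one]
  rw [lintegral_pi_succ (fun z : Fin 1 → ℝ => H a b c d (z 0))
    (hH.comp (by fun_prop : Measurable fun z : Fin 1 → ℝ => (a, b, c, d, z 0)))]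
  simp

omit [MeasurableSpace E] [BorelSpace E] in
/-- an orthonormal family adapted to a subspace and one of its unit vectors -/
lemma exists_frame {n : ℕ} (P : Submodule ℝ E) (hP : finrank ℝ P = n + 1) {e : E} (he : e ∈ P)
    (he1 : ‖e‖ = 1) :
    ∃ g : Fin (n+1) → E, Orthonormal ℝ g ∧ g 0 = e ∧ (∀ i, g i ∈ P) ∧
      ∀ x, ‖P.starProjection x‖^2 = ∑ i, ⟪g i, x⟫^2 := by
  have hv : Orthonormal ℝ (({0} : Set (Fin (n+1))).domRestrict fun _ => (⟨e, he⟩ : P)) := by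
    refine ⟨fun i => by simpa using he1, fun i j hij => absurd (Subsingleton.elim i j) hij⟩
  obtain ⟨b, hb⟩ := hv.exists_orthonormalBasis_extension_of_card_eq
    (by rw [hP, Fintype.card_fin])
  refine ⟨fun i => (b i : E), b.orthonormal.comp_linearIsometry P.subtypeₗᵢ, ?_,
    fun i => (b i).2, fun x => ?_⟩
  · have := hb 0 rfl
    simp [this]
  · have h := (b.sum_sq_inner_right (P.orthogonalProjectionOnto x)).symm
    rw [Submodule.coe_norm] at h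
    rw [Submodule.starProjection_apply, h]
    exact Finset.sum_congr rfl fun i _ => by
      rw [Submodule.inner_orthogonalProjectionOnto_eq_of_mem_left (b i) x]

omit [MeasurableSpace E] [BorelSpace E] in
/-- a unit vector orthogonal to a proper subspace, along a given orthogonal vector -/
lemma exists_normal (P : Submodule ℝ E) (hP : finrank ℝ P < finrank ℝ E) {v : E} (hv : v ∈ Pᗮ) :
    ∃ o ∈ Pᗮ, ‖o‖ = 1 ∧ v = ‖v‖ • o := by
  rcases eq_or_ne v 0 with rfl | h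
  · have : Pᗮ ≠ ⊥ := by
      intro h
      rw [Submodule.orthogonal_eq_bot_iff] at h
      rw [h, finrank_top] at hP
      exact lt_irrefl _ hP
    obtain ⟨y, hy, hy0⟩ := Submodule.exists_mem_ne_zero_of_ne_bot this
    exact ⟨‖y‖⁻¹ • y, Pᗮ.smul_mem _ hy, by simp [norm_smul, hy0], by simp⟩
  · exact ⟨‖v‖⁻¹ • v, Pᗮ.smul_mem _ hv, by simp [norm_smul, h], by
      rw [smul_smul, mul_inv_cancel₀ (norm_ne_zero_iff.mpr h), one_smul]⟩

omit [MeasurableSpace E] [BorelSpace E] in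
lemma orthonormal_cons {m : ℕ} {o : E} {g : Fin m → E} (ho : ‖o‖ = 1) (hg : Orthonormal ℝ g)
    (h : ∀ i, ⟪o, g i⟫ = 0) : Orthonormal ℝ (Fin.cons o g : Fin (m+1) → E) := by
  rw [orthonormal_iff_ite] at hg ⊢
  intro i j
  refine Fin.cases ?_ (fun i => ?_) i <;> refine Fin.cases ?_ (fun j => ?_) j
  · simp [real_inner_self_eq_norm_sq, ho]
  · simp [h, (Fin.succ_ne_zero j).symm]
  · simp [real_inner_comm o, h, Fin.succ_ne_zero]
  · simp [hg i j, Fin.succ_inj]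

omit [MeasurableSpace E] [BorelSpace E] in
/-- a subspace of prescribed dimension containing given vectors -/
lemma exists_subspace {m n : ℕ} (v : Fin m → E) (hm : m ≤ n) (hn : n ≤ finrank ℝ E) :
    ∃ P : Submodule ℝ E, finrank ℝ P = n ∧ ∀ i, v i ∈ P := by
  let f : Fin (finrank ℝ E) → E := fun j => if h : (j:ℕ) < m then v ⟨j, h⟩ else 0
  let b := InnerProductSpace.gramSchmidtOrthonormalBasis (𝕜 := ℝ) (f := f) (Fintype.card_fin _).symm
  let g : Fin n → E := fun i => b (Fin.castLE hn i)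
  have hg : Orthonormal ℝ g := b.orthonormal.comp _ (Fin.castLE_injective hn)
  refine ⟨Submodule.span ℝ (range g), ?_, fun i => ?_⟩
  · rw [finrank_span_eq_card hg.linearIndependent, Fintype.card_fin]
  · let i' : Fin (finrank ℝ E) := ⟨i, lt_of_lt_of_le i.2 (hm.trans hn)⟩
    have hv : v i = f i' := by simp [f, i']
    rw [hv, ← b.sum_repr' (f i')]
    refine Submodule.sum_mem _ fun j _ => ?_
    rcases lt_or_ge (j:ℕ) n with hj | hj
    · exact Submodule.smul_mem _ _ (Submodule.subset_span ⟨⟨j, hj⟩, rfl⟩)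
    · have : i' < j := Fin.mk_lt_of_lt_val (lt_of_lt_of_le i.2 (hm.trans hj))
      rw [show ⟪b j, f i'⟫ = 0 from InnerProductSpace.gramSchmidtOrthonormalBasis_inv_triangular (Fintype.card_fin _).symm f this,
        zero_smul]
      exact Submodule.zero_mem _

end Vale.P226
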