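import Vale.Agent.P226.Psi2
import Vale.Agent.P226.Law
import Mathlib.Algebra.Order.Chebyshev

/-! # Bounds for one cell (P226) -/

open MeasureTheory ProbabilityTheory Set Real Module
open scoped ENNReal NNReal RealInnerProductSpace

namespace Vale.P226

variable {E : Type*} [NormedAddCommGroup E] [InnerProductSpace ℝ E] [FiniteDimensional ℝ E]
  [MeasurableSpace E] [BorelSpace E]


/-- admissible weights: measurable, `[0,1]`-valued almost everywhere -/
structure IsWt (w : E → ℝ) : Prop where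
  meas : Measurable w
  bdd : ∀ᵐ x ∂stdGaussian E, 0 ≤ w x ∧ w x ≤ 1

/-- normalised first moment -/
noncomputable def Zv (w : E → ℝ) : E := √(2*π) • ∫ x, w x • x ∂stdGaussian E

/-- normalised radial moment -/
noncomputable def GP (P : Submodule ℝ E) (w : E → ℝ) : ℝ :=
  √(2*π) * ∫ x, w x * ‖P.starProjection x‖ ∂stdGaussian E

lemma sp_pos : (0:ℝ) < √(2*π) := by positivity

lemma integrable_gauss_id : Integrable (fun x : E => x) (stdGaussian E) := IsGaussian.integrable_id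

lemma integrable_N (P : Submodule ℝ E) : Integrable (fun x => ‖P.starProjection x‖) (stdGaussian E) :=
  (P.starProjection.integrable_comp integrable_gauss_id).norm

lemma integrable_inner' (u : E) : Integrable (fun x => ⟪u, x⟫) (stdGaussian E) :=
  (innerSL ℝ u).integrable_comp integrable_gauss_id

lemma IsWt.bdd_norm {w : E → ℝ} (hw : IsWt w) : ∀ᵐ x ∂stdGaussian E, ‖w x‖ ≤ 1 :=
  hw.bdd.mono fun x hx => by rw [Real.norm_eq_abs, abs_of_nonneg hx.1]; exact hx.2

lemma IsWt.integrable_mul {w f : E → ℝ} (hw : IsWt w) (hf : Integrable f (stdGaussian E)) :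
    Integrable (fun x => w x * f x) (stdGaussian E) :=
  hf.bdd_mul hw.meas.aestronglyMeasurable hw.bdd_norm

lemma IsWt.integrable_smul {w : E → ℝ} (hw : IsWt w) :
    Integrable (fun x => w x • x) (stdGaussian E) :=
  integrable_gauss_id.bdd_smul 1 hw.meas.aestronglyMeasurable hw.bdd_norm

lemma inner_Zv {w : E → ℝ} (hw : IsWt w) (u : E) :
    ⟪u, Zv w⟫ = √(2*π) * ∫ x, w x * ⟪u, x⟫ ∂stdGaussian E := by
  rw [Zv, real_inner_smul_right, ← integral_inner hw.integrable_smul]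
  simp only [real_inner_smul_right]

lemma multiplier {w : E → ℝ} (hw : IsWt w) (P : Submodule ℝ E) (u : E) (c : ℝ) {B : ℝ} (hB : 0 ≤ B)
    (h : ∫⁻ x, ENNReal.ofReal (⟪u, x⟫ - c * ‖P.starProjection x‖) ∂stdGaussian E ≤ ENNReal.ofReal (phi0 * B)) :
    ⟪u, Zv w⟫ ≤ c * GP P w + B := by
  set f : E → ℝ := fun x => ⟪u, x⟫ - c * ‖P.starProjection x‖ with hf
  have hfi : Integrable f (stdGaussian E) := (integrable_inner' u).sub ((integrable_N P).const_mul c)
  have hmax : Integrable (fun x => max (f x) 0) (stdGaussian E) := hfi.pos_part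
  have h1 : ∫ x, w x * f x ∂stdGaussian E ≤ ∫ x, max (f x) 0 ∂stdGaussian E := by
    refine integral_mono_ae (hw.integrable_mul hfi) hmax (hw.bdd.mono fun x hx => ?_)
    calc w x * f x ≤ w x * max (f x) 0 := mul_le_mul_of_nonneg_left (le_max_left _ _) hx.1
      _ ≤ 1 * max (f x) 0 := mul_le_mul_of_nonneg_right hx.2 (le_max_right _ _)
      _ = _ := one_mul _
  have h2 : ∫ x, max (f x) 0 ∂stdGaussian E ≤ phi0 * B := by
    rw [integral_eq_lintegral_of_nonneg_ae (f := fun x => max (f x) 0) (ae_of_all _ fun x => le_max_right _ _) hmax.aestronglyMeasurable]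
    refine ENNReal.toReal_le_of_le_ofReal (mul_nonneg phi0_pos.le hB) (le_trans (le_of_eq ?_) h)
    refine lintegral_congr fun x => ?_
    rcases le_total (f x) 0 with h' | h'
    · rw [max_eq_right h', ENNReal.ofReal_zero, ENNReal.ofReal_of_nonpos h']
    · rw [max_eq_left h']
  have h3 : ∫ x, w x * ⟪u, x⟫ ∂stdGaussian E
      = ∫ x, w x * f x ∂stdGaussian E + c * ∫ x, w x * ‖P.starProjection x‖ ∂stdGaussian E := by
    rw [← integral_const_mul, ← integral_add (hw.integrable_mul hfi)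
      ((hw.integrable_mul (integrable_N P)).const_mul c)]
    exact integral_congr_ae (ae_of_all _ fun x => by simp only [hf]; ring)
  rw [inner_Zv hw, h3, GP]
  have e := phi0_mul_sqrt
  calc √(2*π) * (∫ x, w x * f x ∂stdGaussian E + c * ∫ x, w x * ‖P.starProjection x‖ ∂stdGaussian E)
      ≤ √(2*π) * (phi0 * B + c * ∫ x, w x * ‖P.starProjection x‖ ∂stdGaussian E) :=
        mul_le_mul_of_nonneg_left (by linarith) sp_pos.le
    _ = c * (√(2*π) * ∫ x, w x * ‖P.starProjection x‖ ∂stdGaussian E) + (phi0 * √(2*π)) * B := by ring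
    _ = _ := by rw [e, one_mul]

lemma GP_nonneg {w : E → ℝ} (hw : IsWt w) (P : Submodule ℝ E) : 0 ≤ GP P w :=
  mul_nonneg sp_pos.le (integral_nonneg_of_ae (hw.bdd.mono fun x hx => mul_nonneg hx.1 (norm_nonneg _)))

/-- the normalised mean radius -/
def IsMeanRadius (P : Submodule ℝ E) (En : ℝ) : Prop :=
  ∫⁻ x, ENNReal.ofReal ‖P.starProjection x‖ ∂stdGaussian E = ENNReal.ofReal (phi0 * En)

lemma IsMeanRadius.integral {P : Submodule ℝ E} {En : ℝ} (h : IsMeanRadius P En) (hE : 0 ≤ En) :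
    √(2*π) * ∫ x, ‖P.starProjection x‖ ∂stdGaussian E = En := by
  rw [integral_eq_lintegral_of_nonneg_ae (ae_of_all _ fun x => norm_nonneg _)
    (integrable_N P).aestronglyMeasurable, h, ENNReal.toReal_ofReal (mul_nonneg phi0_pos.le hE)]
  have e := phi0_mul_sqrt
  linear_combination En * e

lemma GP_le {w : E → ℝ} (hw : IsWt w) {P : Submodule ℝ E} {En : ℝ} (h : IsMeanRadius P En)
    (hE : 0 ≤ En) : GP P w ≤ En := by
  rw [← h.integral hE]
  refine mul_le_mul_of_nonneg_left (integral_mono_ae (hw.integrable_mul (integrable_N P))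
    (integrable_N P) (hw.bdd.mono fun x hx => mul_le_of_le_one_left (norm_nonneg _) hx.2)) sp_pos.le

lemma N_eq {n : ℕ} {P : Submodule ℝ E} {g : Fin n → E}
    (hN : ∀ x, ‖P.starProjection x‖^2 = ∑ i, ⟪g i, x⟫^2) (x : E) :
    ‖P.starProjection x‖ = √(∑ i, ⟪g i, x⟫^2) := by
  rw [← hN, Real.sqrt_sq (norm_nonneg _)]

lemma N2 {P : Submodule ℝ E} {g : Fin 2 → E}
    (hN : ∀ x, ‖P.starProjection x‖^2 = ∑ i, ⟪g i, x⟫^2) (x : E) :
    ‖P.starProjection x‖ = √(⟪g 0, x⟫^2 + ⟪g 1, x⟫^2) := by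
  rw [N_eq hN, Fin.sum_univ_two]

lemma N3 {P : Submodule ℝ E} {g : Fin 3 → E}
    (hN : ∀ x, ‖P.starProjection x‖^2 = ∑ i, ⟪g i, x⟫^2) (x : E) :
    ‖P.starProjection x‖ = √(⟪g 0, x⟫^2 + (⟪g 1, x⟫^2 + ⟪g 2, x⟫^2)) := by
  rw [N_eq hN, Fin.sum_univ_three, add_assoc]

lemma N5 {P : Submodule ℝ E} {g : Fin 5 → E}
    (hN : ∀ x, ‖P.starProjection x‖^2 = ∑ i, ⟪g i, x⟫^2) (x : E) :
    ‖P.starProjection x‖
      = √(⟪g 0, x⟫^2 + ((⟪g 1, x⟫^2 + ⟪g 2, x⟫^2) + (⟪g 3, x⟫^2 + ⟪g 4, x⟫^2))) := by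
  rw [N_eq hN, Fin.sum_univ_five]; congr 1; ring

omit [MeasurableSpace E] [BorelSpace E] in
lemma exists_unit {n : ℕ} (P : Submodule ℝ E) (hP : finrank ℝ P = n + 1) (z : E) :
    ∃ e ∈ P, ‖e‖ = 1 ∧ P.starProjection z = ‖P.starProjection z‖ • e := by
  rcases eq_or_ne (P.starProjection z) 0 with h | h
  · have : P ≠ ⊥ := by
      intro h'; rw [h', finrank_bot] at hP; omega
    obtain ⟨y, hy, hy0⟩ := Submodule.exists_mem_ne_zero_of_ne_bot this
    exact ⟨‖y‖⁻¹ • y, P.smul_mem _ hy, by simp [norm_smul, hy0], by simp [h]⟩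
  · exact ⟨‖P.starProjection z‖⁻¹ • P.starProjection z, P.smul_mem _ (P.starProjection_apply_mem z),
      by simp [norm_smul, h], by rw [smul_smul, mul_inv_cancel₀ (norm_ne_zero_iff.mpr h), one_smul]⟩

lemma meanRadius2 {P : Submodule ℝ E} (hP : finrank ℝ P = 2) : IsMeanRadius P π := by
  obtain ⟨e, he, he1, -⟩ := exists_unit P hP 0
  obtain ⟨g, hg, -, -, hN⟩ := exists_frame P hP he he1
  simp only [IsMeanRadius, N2 hN]
  rw [law2 hg (fun a b => ENNReal.ofReal (√(a^2 + b^2))) (by fun_prop), EN2]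

lemma meanRadius3 {P : Submodule ℝ E} (hP : finrank ℝ P = 3) : IsMeanRadius P 4 := by
  obtain ⟨e, he, he1, -⟩ := exists_unit P hP 0
  obtain ⟨g, hg, -, -, hN⟩ := exists_frame P hP he he1
  simp only [IsMeanRadius, N3 hN]
  rw [law3 hg (fun a b c => ENNReal.ofReal (√(a^2 + (b^2 + c^2)))) (by fun_prop), EN3]

lemma meanRadius5 {P : Submodule ℝ E} (hP : finrank ℝ P = 5) : IsMeanRadius P (16/3) := by
  obtain ⟨e, he, he1, -⟩ := exists_unit P hP 0
  obtain ⟨g, hg, -, -, hN⟩ := exists_frame P hP he he1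
  simp only [IsMeanRadius, N5 hN]
  rw [law5 hg (fun a b c d e => ENNReal.ofReal (√(a^2 + ((b^2 + c^2) + (d^2 + e^2))))) (by fun_prop), EN5]

lemma norm_Zv_le_one (hd : 1 ≤ finrank ℝ E) {w : E → ℝ} (hw : IsWt w) : ‖Zv w‖ ≤ 1 := by
  rcases eq_or_ne (Zv w) 0 with h | h
  · simp [h]
  set u := ‖Zv w‖⁻¹ • Zv w with hu
  have hu1 : ‖u‖ = 1 := by simp [hu, norm_smul, h]
  have hb : ∫⁻ x, ENNReal.ofReal (⟪u, x⟫ - 0 * ‖(⊥ : Submodule ℝ E).starProjection x‖) ∂stdGaussian E
      ≤ ENNReal.ofReal (phi0 * 1) := by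
    simp only [zero_mul, sub_zero]
    have ho : Orthonormal ℝ (fun _ : Fin 1 => u) :=
      ⟨fun _ => hu1, fun i j hij => absurd (Subsingleton.elim i j) hij⟩
    rw [law1 ho (fun a => ENNReal.ofReal a) (by fun_prop), lintegral_gR _ (by fun_prop)]
    have e : ∀ a, ENNReal.ofReal (phi0 * gw a) * ENNReal.ofReal a = (Ioi (0:ℝ)).indicator (fun a => ENNReal.ofReal phi0 * ENNReal.ofReal (a^1 * gw a)) a := fun a => by
      by_cases ha : 0 < a
      · rw [indicator_of_mem (mem_Ioi.mpr ha), ← ENNReal.ofReal_mul phi0_pos.le,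
          ← ENNReal.ofReal_mul (mul_nonneg phi0_pos.le (gw_pos a).le)]
        ring_nf
      · rw [indicator_of_notMem (by simpa using ha), ENNReal.ofReal_of_nonpos (p := a) (not_lt.mp ha), mul_zero]
    simp only [e]
    rw [lintegral_indicator measurableSet_Ioi, lintegral_const_mul _ (by fun_prop), lintegral_gw_moment]
    simp only [pow_one, moment1]
    rw [← ENNReal.ofReal_mul phi0_pos.le]
  have := multiplier hw ⊥ u 0 zero_le_one hb
  rw [hu, real_inner_smul_left, real_inner_self_eq_norm_sq, zero_mul, zero_add,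
    show ‖Zv w‖⁻¹ * ‖Zv w‖^2 = ‖Zv w‖ by field_simp] at this
  exact this

/-- decomposition of a vector along a subspace and a unit normal -/
lemma split {n : ℕ} (P : Submodule ℝ E) (hP : finrank ℝ P = n + 1) (hn : n + 1 < finrank ℝ E) (z : E) :
    ∃ (e o : E) (g : Fin (n+1) → E), ‖e‖ = 1 ∧ ‖o‖ = 1 ∧ Orthonormal ℝ g ∧ g 0 = e ∧
      (∀ i, ⟪o, g i⟫ = 0) ∧ (∀ x, ‖P.starProjection x‖^2 = ∑ i, ⟪g i, x⟫^2) ∧
      z = ‖P.starProjection z‖ • e + ‖z - P.starProjection z‖ • o := by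
  obtain ⟨e, he, he1, hze⟩ := exists_unit P hP z
  obtain ⟨g, hg, hg0, hgP, hN⟩ := exists_frame P hP he he1
  obtain ⟨o, ho, ho1, hzo⟩ := exists_normal P (by rw [hP]; exact hn) (P.sub_starProjection_mem_orthogonal z)
  refine ⟨e, o, g, he1, ho1, hg, hg0, fun i => P.inner_left_of_mem_orthogonal (hgP i) ho, hN, ?_⟩
  rw [← hze, ← hzo]; abel

/-- a large cell, three-dimensional comparison subspace -/
lemma big3 {w : E → ℝ} (hw : IsWt w) (P : Submodule ℝ E) (hP : finrank ℝ P = 3) (hd : 3 < finrank ℝ E) :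
    ‖P.starProjection (Zv w)‖ + ‖Zv w - P.starProjection (Zv w)‖^2/2 ≤ 4 * (GP P w / 4) * (1 - GP P w / 4) := by
  obtain ⟨e, o, g, he, ho, hg, hg0, hog, hN, hz⟩ := split P hP hd (Zv w)
  set R := ‖P.starProjection (Zv w)‖
  set m := ‖Zv w - P.starProjection (Zv w)‖
  set q := GP P w / 4 with hq
  set c := 1 - 2*q with hc
  have hf := orthonormal_cons ho hg hog
  have h : ∫⁻ x, ENNReal.ofReal (⟪e + m • o, x⟫ - c * ‖P.starProjection x‖) ∂stdGaussian E
      ≤ ENNReal.ofReal (phi0 * ((1-c)^2 + m^2/2)) := by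
    refine le_trans (le_of_eq ?_) (psi3_le c m)
    rw [← law4 hf (fun y a b d => ENNReal.ofReal (a + m*y - c*√(a^2 + (b^2 + d^2)))) (by fun_prop)]
    refine lintegral_congr fun x => ?_
    rw [N3 hN, inner_add_left, real_inner_smul_left]
    simp only [Fin.cons_zero, Fin.cons_one, show (Fin.cons o g : Fin 4 → E) 2 = g 1 from rfl,
      show (Fin.cons o g : Fin 4 → E) 3 = g 2 from rfl, hg0, add_assoc]
  have hm := multiplier hw P (e + m • o) c (by positivity) h
  have hinner : ⟪e + m • o, Zv w⟫ = R + m^2 := by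
    have h1 : ⟪o, e⟫ = 0 := by rw [← hg0]; exact hog 0
    have h1' : ⟪e, o⟫ = 0 := by rw [real_inner_comm]; exact h1
    have h2 : ⟪e, e⟫ = 1 := by rw [real_inner_self_eq_norm_sq, he]; norm_num
    have h3 : ⟪o, o⟫ = 1 := by rw [real_inner_self_eq_norm_sq, ho]; norm_num
    conv_lhs => rw [hz]
    simp only [inner_add_left, inner_add_right, real_inner_smul_left, real_inner_smul_right, h1, h1', h2, h3]
    ring
  rw [hinner, show GP P w = 4*q by rw [hq]; ring] at hm

  nlinarith [hm]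

/-- a large cell, planar comparison subspace -/
lemma big2 {w : E → ℝ} (hw : IsWt w) (P : Submodule ℝ E) (hP : finrank ℝ P = 2) (hd : 2 < finrank ℝ E) :
    ‖P.starProjection (Zv w)‖
      ≤ sin (π * (GP P w / π)) * (1 - ‖Zv w - P.starProjection (Zv w)‖^2/2) := by
  obtain ⟨e, o, g, he, ho, hg, hg0, hog, hN, hz⟩ := split P hP hd (Zv w)
  set R := ‖P.starProjection (Zv w)‖
  set m := ‖Zv w - P.starProjection (Zv w)‖
  rw [mul_div_cancel₀ _ Real.pi_ne_zero]
  set θ := GP P w with hθ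
  have hθ0 : 0 ≤ θ := GP_nonneg hw P
  have hθπ : θ ≤ π := GP_le hw (meanRadius2 hP) pi_pos.le
  have hinner : ∀ s : ℝ, ⟪e + s • o, Zv w⟫ = R + s*m := fun s => by
    have h1 : ⟪o, e⟫ = 0 := by rw [← hg0]; exact hog 0
    have h1' : ⟪e, o⟫ = 0 := by rw [real_inner_comm]; exact h1
    have h2 : ⟪e, e⟫ = 1 := by rw [real_inner_self_eq_norm_sq, he]; norm_num
    have h3 : ⟪o, o⟫ = 1 := by rw [real_inner_self_eq_norm_sq, ho]; norm_num
    conv_lhs => rw [hz]
    simp only [inner_add_left, inner_add_right, real_inner_smul_left, real_inner_smul_right, h1, h1', h2, h3]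
    ring
  have hR : ⟪e, Zv w⟫ = R := by
    have := hinner 0; simpa using this
  rcases eq_or_lt_of_le hθ0 with h0 | h0
  · have h : ∫⁻ x, ENNReal.ofReal (⟪e, x⟫ - 1 * ‖P.starProjection x‖) ∂stdGaussian E ≤ ENNReal.ofReal (phi0 * 0) := by
      refine le_of_eq ?_
      rw [mul_zero, ENNReal.ofReal_zero]
      refine (lintegral_congr fun x => ENNReal.ofReal_of_nonpos ?_).trans lintegral_zero
      rw [one_mul, N_eq hN, sub_nonpos, ← hg0]
      exact Real.le_sqrt_of_sq_le (Finset.single_le_sum (f := fun i => ⟪g i, x⟫^2)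
        (fun i _ => sq_nonneg _) (Finset.mem_univ 0))
    have := multiplier hw P e 1 le_rfl h
    rw [hR, ← hθ, ← h0] at this
    rw [← h0, sin_zero, zero_mul]; linarith
  rcases eq_or_lt_of_le hθπ with h1 | h1
  · have h : ∫⁻ x, ENNReal.ofReal (⟪e, x⟫ - (-1) * ‖P.starProjection x‖) ∂stdGaussian E ≤ ENNReal.ofReal (phi0 * π) := by
      have := psi2_zero pi_pos.le (le_refl π)
      rw [cos_pi, sin_pi] at this
      refine le_of_eq ?_
      rw [show phi0 * π = phi0 * (0 - π * -1) by ring, ← this,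
        ← law2 hg (fun a b => ENNReal.ofReal (a - -1 * √(a^2 + b^2))) (by fun_prop)]
      refine lintegral_congr fun x => ?_
      rw [N2 hN, hg0]
    have := multiplier hw P e (-1) pi_pos.le h
    rw [hR, ← hθ, h1] at this
    rw [h1, sin_pi, zero_mul]; linarith
  have hs : 0 < sin θ := sin_pos_of_pos_of_lt_pi h0 h1
  set M := sin θ * m with hM
  have hf := orthonormal_cons ho hg hog
  have hB : 0 ≤ sin θ - θ * cos θ + M^2/(2*sin θ) := by
    have hc1 : ∫ φ in (0:ℝ)..θ, (cos φ - cos θ) = sin θ - θ * cos θ := by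
      rw [intervalIntegral.integral_sub (continuous_cos.intervalIntegrable _ _) intervalIntegrable_const,
        integral_cos, intervalIntegral.integral_const, sin_zero, smul_eq_mul]; ring
    have : 0 ≤ ∫ φ in (0:ℝ)..θ, (cos φ - cos θ) :=
      intervalIntegral.integral_nonneg h0.le fun φ hφ =>
        sub_nonneg.mpr (cos_le_cos_of_nonneg_of_le_pi hφ.1 h1.le hφ.2)
    have : 0 ≤ M^2/(2*sin θ) := by positivity
    linarith
  have h : ∫⁻ x, ENNReal.ofReal (⟪e + M • o, x⟫ - cos θ * ‖P.starProjection x‖) ∂stdGaussian E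
      ≤ ENNReal.ofReal (phi0 * (sin θ - θ * cos θ + M^2/(2*sin θ))) := by
    refine le_trans (le_of_eq ?_) (psi2_le h0 h1 M)
    rw [← law3 hf (fun y a b => ENNReal.ofReal (a + M*y - cos θ * √(a^2 + b^2))) (by fun_prop)]
    refine lintegral_congr fun x => ?_
    rw [N2 hN, inner_add_left, real_inner_smul_left]
    simp only [Fin.cons_zero, Fin.cons_one, show (Fin.cons o g : Fin 3 → E) 2 = g 1 from rfl, hg0]
  have hm := multiplier hw P (e + M • o) (cos θ) hB h
  rw [hinner, ← hθ, hM, show (sin θ * m)^2/(2*sin θ) = sin θ * m^2/2 by field_simp] at hm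
  linarith

/-- a large cell, five-dimensional comparison subspace -/
lemma big5 {w : E → ℝ} (hw : IsWt w) (P : Submodule ℝ E) (hP : finrank ℝ P = 5) (hz : Zv w ∈ P)
    {C : ℝ} (hC : -1 ≤ C) (hC' : C ≤ 1) :
    ‖Zv w‖ ≤ 16/3 * C * (GP P w / (16/3)) + (1-C)^3 * (3+C)/3 := by
  obtain ⟨e, he, he1, hze⟩ := exists_unit P hP (Zv w)
  obtain ⟨g, hg, hg0, -, hN⟩ := exists_frame P hP he he1
  rw [Submodule.starProjection_eq_self_iff.mpr hz] at hze
  have h : ∫⁻ x, ENNReal.ofReal (⟪e, x⟫ - C * ‖P.starProjection x‖) ∂stdGaussian E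
      ≤ ENNReal.ofReal (phi0 * ((1-C)^3 * (3+C)/3)) := by
    rw [← psi5_eq hC hC']
    refine le_of_eq ?_
    simp only [N5 hN, ← hg0]
    exact law5 hg (fun a b c d e => ENNReal.ofReal (a - C * √(a^2 + ((b^2 + c^2) + (d^2 + e^2))))) (by fun_prop)
  have := multiplier hw P e C (by
    have : 0 ≤ 1 - C := by linarith
    have : 0 ≤ 3 + C := by linarith
    positivity) h
  have e2 : ⟪e, Zv w⟫ = ‖Zv w‖ := by
    conv_lhs => rw [hze]
    rw [real_inner_smul_right, real_inner_self_eq_norm_sq, he1]; ring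
  linarith

/-- decoupling: the worst direction is independent of the subspace -/
lemma decouple {n : ℕ} (P : Submodule ℝ E) (hP : finrank ℝ P = n + 1) (hd : n + 1 < finrank ℝ E)
    {u : E} (hu : ‖u‖ = 1) {c : ℝ} (hc : 0 ≤ c) :
    ∫⁻ x, ENNReal.ofReal (⟪u, x⟫ - c * ‖P.starProjection x‖) ∂stdGaussian E
      ≤ ∫⁻ y, (∫⁻ x, ENNReal.ofReal (y - c * ‖P.starProjection x‖) ∂stdGaussian E) ∂gR := by
  obtain ⟨e, o, g, he, ho, hg, hg0, hog, hN, hz⟩ := split P hP hd u
  set a := ‖P.starProjection u‖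
  set b := ‖u - P.starProjection u‖
  set v := b • e - a • o with hv
  have heo : ⟪e, o⟫ = 0 := by rw [real_inner_comm, ← hg0]; exact hog 0
  have heo' : ⟪o, e⟫ = 0 := by rw [real_inner_comm]; exact heo
  have hee : ⟪e, e⟫ = 1 := by rw [real_inner_self_eq_norm_sq, he]; norm_num
  have hoo : ⟪o, o⟫ = 1 := by rw [real_inner_self_eq_norm_sq, ho]; norm_num
  have hab : a^2 + b^2 = 1 := by
    have := congrArg (fun z => ⟪z, z⟫) hz
    simp only [real_inner_self_eq_norm_sq u, hu, inner_add_left, inner_add_right, real_inner_smul_left,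
      real_inner_smul_right, hee, hoo, heo, heo'] at this
    linarith
  have heq : e = a • u + b • v := by
    rw [hv, hz]
    calc e = (a^2 + b^2) • e := by rw [hab, one_smul]
      _ = _ := by module
  have hgi : ∀ i : Fin n, ⟪e, g i.succ⟫ = 0 := fun i => by
    rw [← hg0]; exact hg.2 (Fin.succ_ne_zero i).symm
  have hf : Orthonormal ℝ (Fin.cons u (Fin.cons v fun i : Fin n => g i.succ) : Fin (n+2) → E) := by
    refine orthonormal_cons hu (orthonormal_cons ?_ (hg.comp _ (Fin.succ_injective n)) fun i => ?_) fun i => ?_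
    · rw [← sq_eq_sq₀ (norm_nonneg _) zero_le_one, ← real_inner_self_eq_norm_sq, hv]
      simp only [inner_sub_left, inner_sub_right, real_inner_smul_left, real_inner_smul_right, hee, hoo, heo, heo']
      linarith
    · rw [hv, inner_sub_left, real_inner_smul_left, real_inner_smul_left, hog, hgi]; ring
    · refine Fin.cases ?_ (fun i => ?_) i
      · rw [Fin.cons_zero, hv, hz]
        simp only [inner_add_left, inner_sub_right, real_inner_smul_left, real_inner_smul_right, hee, hoo, heo, heo']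
        ring
      · rw [Fin.cons_succ, hz]
        simp only [inner_add_left, real_inner_smul_left, hgi, hog]
        ring
  have hN' : ∀ x, ‖P.starProjection x‖
      = √((a * ⟪u, x⟫ + b * ⟪v, x⟫)^2 + ∑ i : Fin n, ⟪g i.succ, x⟫^2) := fun x => by
    rw [N_eq hN, Fin.sum_univ_succ]
    congr 2
    rw [hg0]
    conv_lhs => rw [heq]
    rw [inner_add_left, real_inner_smul_left, real_inner_smul_left]
  set K : ℝ → (Fin (n+2) → ℝ) → ℝ≥0∞ := fun y z =>
    ENNReal.ofReal (y - c * √((a * z 0 + b * z 1)^2 + ∑ i : Fin n, (z i.succ.succ)^2)) with hK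
  have hKm : Measurable (fun p : ℝ × (Fin (n+2) → ℝ) => K p.1 p.2) := by rw [hK]; fun_prop
  have hsplit : ∀ F : (Fin (n+2) → ℝ) → ℝ≥0∞, Measurable F →
      ∫⁻ z, F z ∂Measure.pi (fun _ => gR)
        = ∫⁻ s, ∫⁻ w, ∫⁻ v, F (Fin.cons w (Fin.cons v s)) ∂gR ∂gR ∂Measure.pi (fun _ : Fin n => gR) := by
    intro F hF
    rw [lintegral_pi_succ F hF]
    have e : ∀ w, ∫⁻ z, F (Fin.cons w z) ∂Measure.pi (fun _ : Fin (n+1) => gR)
        = ∫⁻ s, ∫⁻ v, F (Fin.cons w (Fin.cons v s)) ∂gR ∂Measure.pi (fun _ : Fin n => gR) := fun w => by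
      rw [lintegral_pi_succ (fun z => F (Fin.cons w z)) (hF.comp (by fun_prop)),
        lintegral_lintegral_swap (by fun_prop)]
    simp only [e]
    rw [lintegral_lintegral_swap]
    exact (Measurable.lintegral_prod_right'
      (f := fun p : (ℝ × (Fin n → ℝ)) × ℝ => F (Fin.cons p.1.1 (Fin.cons p.2 p.1.2)))
      (hF.comp (by fun_prop))).aemeasurable
  have m0 : Measurable fun z : Fin (n+2) → ℝ => K (z 0) z :=
    hKm.comp (by fun_prop : Measurable fun z : Fin (n+2) → ℝ => (z 0, z))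
  have my : ∀ y, Measurable fun z : Fin (n+2) → ℝ => K y z := fun y =>
    hKm.comp (by fun_prop : Measurable fun z : Fin (n+2) → ℝ => (y, z))
  have hL : ∫⁻ x, ENNReal.ofReal (⟪u, x⟫ - c * ‖P.starProjection x‖) ∂stdGaussian E
      = ∫⁻ z, K (z 0) z ∂Measure.pi (fun _ => gR) := by
    rw [← lintegral_coords hf (fun z => K (z 0) z) m0]
    refine lintegral_congr fun x => ?_
    rw [hN']; rfl
  have hRi : ∀ y, ∫⁻ x, ENNReal.ofReal (y - c * ‖P.starProjection x‖) ∂stdGaussian E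
      = ∫⁻ z, K y z ∂Measure.pi (fun _ => gR) := fun y => by
    rw [← lintegral_coords hf (fun z => K y z) (my y)]
    refine lintegral_congr fun x => ?_
    rw [hN']; rfl
  have hcons : ∀ (y w v : ℝ) (s : Fin n → ℝ), K y (Fin.cons w (Fin.cons v s))
      = ENNReal.ofReal (y - c * √((a*w + b*v)^2 + ∑ i, (s i)^2)) := fun y w v s => by
    simp only [hK, Fin.cons_zero, Fin.cons_one, Fin.cons_succ]
  simp only [hL, hRi]
  rw [hsplit _ m0]
  simp only [fun y => hsplit _ (my y), hcons, Fin.cons_zero]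
  have hm3 : Measurable (Function.uncurry fun (y : ℝ) (s : Fin n → ℝ) =>
      ∫⁻ w, ∫⁻ v, ENNReal.ofReal (y - c * √((a*w + b*v)^2 + ∑ i, (s i)^2)) ∂gR ∂gR) :=
    Measurable.lintegral_prod_right
      (f := fun (p : ℝ × (Fin n → ℝ)) (w : ℝ) =>
        ∫⁻ v, ENNReal.ofReal (p.1 - c * √((a*w + b*v)^2 + ∑ i, (p.2 i)^2)) ∂gR)
      (Measurable.lintegral_prod_right
        (f := fun (p : (ℝ × (Fin n → ℝ)) × ℝ) (v : ℝ) =>
          ENNReal.ofReal (p.1.1 - c * √((a*p.2 + b*v)^2 + ∑ i, (p.1.2 i)^2))) (by fun_prop))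
  rw [lintegral_lintegral_swap hm3.aemeasurable]
  exact lintegral_mono fun s => decouple2 hc

lemma exists_dir (hd : 1 ≤ finrank ℝ E) (z : E) : ∃ u : E, ‖u‖ = 1 ∧ ⟪u, z⟫ = ‖z‖ := by
  rcases eq_or_ne z 0 with rfl | h
  · obtain ⟨u, hu, hu1, -⟩ := exists_unit (n := finrank ℝ E - 1) (⊤ : Submodule ℝ E)
      (by rw [finrank_top]; omega) 0
    exact ⟨u, hu1, by simp⟩
  · exact ⟨‖z‖⁻¹ • z, by simp [norm_smul, h], by
      rw [real_inner_smul_left, real_inner_self_eq_norm_sq]; field_simp⟩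

lemma speck2 {w : E → ℝ} (hw : IsWt w) (P : Submodule ℝ E) (hP : finrank ℝ P = 2) (hd : 2 < finrank ℝ E)
    {c : ℝ} (hc : 0 < c) (hB : 0 ≤ 1 - c * arctan (1/c)) :
    ‖Zv w‖ ≤ c * GP P w + (1 - c * arctan (1/c)) := by
  obtain ⟨u, hu, huz⟩ := exists_dir (by omega) (Zv w)
  obtain ⟨e, he, he1, -⟩ := exists_unit P hP 0
  obtain ⟨g, hg, -, -, hN⟩ := exists_frame P hP he he1
  rw [← huz]
  refine multiplier hw P u c hB ((decouple P hP hd hu hc.le).trans_eq ?_)
  rw [← K2_eq hc]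
  refine lintegral_congr fun y => ?_
  simp only [N2 hN]
  exact law2 hg (fun a b => ENNReal.ofReal (y - c * √(a^2 + b^2))) (by fun_prop)

lemma triple_eq {g : Fin 3 → E} (hg : Orthonormal ℝ g) {s : ℝ} (hs : 0 < s) (hs1 : s < 1) :
    ∫⁻ y, (∫⁻ x, ENNReal.ofReal (y - (1/s - s)/2 * √(⟪g 0, x⟫^2 + (⟪g 1, x⟫^2 + ⟪g 2, x⟫^2))) ∂stdGaussian E) ∂gR
      = ENNReal.ofReal (phi0 * (2*s^3/(1+s^2))) := by
  rw [← K3_eq hs hs1]
  exact lintegral_congr fun y =>
    law3 hg (fun a b d => ENNReal.ofReal (y - (1/s - s)/2 * √(a^2 + (b^2 + d^2)))) (by fun_prop)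

lemma speck3 {w : E → ℝ} (hw : IsWt w) (P : Submodule ℝ E) (hP : finrank ℝ P = 3) (hd : 3 < finrank ℝ E)
    {s : ℝ} (hs : 0 < s) (hs1 : s < 1) :
    ‖Zv w‖ ≤ (1/s - s)/2 * GP P w + 2*s^3/(1+s^2) := by
  obtain ⟨u, hu, huz⟩ := exists_dir (by omega) (Zv w)
  obtain ⟨e, he, he1, -⟩ := exists_unit P hP 0
  obtain ⟨g, hg, -, -, hN⟩ := exists_frame P hP he he1
  have hc : 0 ≤ (1/s - s)/2 := by
    have : 1 ≤ 1/s := by rw [le_div_iff₀ hs]; linarith
    linarith
  rw [← huz]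
  refine multiplier hw P u _ (by positivity) ((decouple P hP hd hu hc).trans_eq ?_)
  rw [← triple_eq hg hs hs1]
  simp only [N3 hN]

lemma speck5 {w : E → ℝ} (hw : IsWt w) (P : Submodule ℝ E) (hP : finrank ℝ P = 5) (hd : 5 < finrank ℝ E)
    {s : ℝ} (hs : 0 < s) (hs1 : s < 1) :
    ‖Zv w‖ ≤ √(3/5) * ((1/s - s)/2) * GP P w + 2*s^3/(1+s^2) := by
  obtain ⟨u, hu, huz⟩ := exists_dir (by omega) (Zv w)
  obtain ⟨e, he, he1, -⟩ := exists_unit P hP 0
  obtain ⟨g, hg, -, -, hN⟩ := exists_frame P hP he he1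
  set c := (1/s - s)/2 with hcdef
  have hc : 0 ≤ c := by
    have : 1 ≤ 1/s := by rw [le_div_iff₀ hs]; linarith
    rw [hcdef]; linarith
  set T : Fin 5 → E → ℝ := fun j x => √(⟪g j, x⟫^2 + (⟪g (j+1), x⟫^2 + ⟪g (j+2), x⟫^2)) with hT
  have hinj : ∀ j : Fin 5, Function.Injective ![j, j+1, j+2] := by decide
  have hTrip : ∀ j, Orthonormal ℝ (g ∘ ![j, j+1, j+2]) := fun j => hg.comp _ (hinj j)
  have hval : ∀ j, ∫⁻ y, (∫⁻ x, ENNReal.ofReal (y - c * T j x) ∂stdGaussian E) ∂gR = ENNReal.ofReal (phi0 * (2*s^3/(1+s^2))) :=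
    fun j => triple_eq (hTrip j) hs hs1
  have hpt : ∀ (y : ℝ) x, ENNReal.ofReal (y - √(3/5) * c * ‖P.starProjection x‖)
      ≤ ∑ j, ENNReal.ofReal (1/5) * ENNReal.ofReal (y - c * T j x) := fun y x => by
    have hsq : ∑ j, (T j x)^2 = 3 * ‖P.starProjection x‖^2 := by
      simp only [hT, Real.sq_sqrt (add_nonneg (sq_nonneg _) (add_nonneg (sq_nonneg _) (sq_nonneg _))), hN]
      have key : ∀ F : Fin 5 → ℝ, ∑ j, (F j + (F (j+1) + F (j+2))) = 3 * ∑ j, F j := fun F => by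
        have e1 : ∑ j, F (j+1) = ∑ j, F j := Equiv.sum_comp (Equiv.addRight (1 : Fin 5)) F
        have e2 : ∑ j, F (j+2) = ∑ j, F j := Equiv.sum_comp (Equiv.addRight (2 : Fin 5)) F
        rw [Finset.sum_add_distrib, Finset.sum_add_distrib, e1, e2]; ring
      exact key (fun j => ⟪g j, x⟫^2)
    have hcs : (∑ j, T j x)^2 ≤ 15 * ‖P.starProjection x‖^2 := by
      have := sq_sum_le_card_mul_sum_sq (s := (Finset.univ : Finset (Fin 5))) (f := fun j => T j x)
      simp only [Finset.card_univ, Fintype.card_fin] at this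
      push_cast at this; linarith
    have hle : (∑ j, T j x)/5 ≤ √(3/5) * ‖P.starProjection x‖ := by
      refine le_of_sq_le_sq ?_ (by positivity)
      rw [mul_pow, Real.sq_sqrt (by norm_num), div_pow]
      linarith
    calc ENNReal.ofReal (y - √(3/5) * c * ‖P.starProjection x‖) ≤ ENNReal.ofReal (∑ j, (1/5) * (y - c * T j x)) := by
          refine ENNReal.ofReal_le_ofReal ?_
          rw [← Finset.mul_sum, Finset.sum_sub_distrib, ← Finset.mul_sum]
          simp only [Finset.sum_const, Finset.card_univ, Fintype.card_fin, nsmul_eq_mul]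
          have := mul_le_mul_of_nonneg_left hle hc
          push_cast
          linarith
      _ ≤ ∑ j, ENNReal.ofReal ((1/5) * (y - c * T j x)) := by
          refine Finset.le_sum_of_subadditive ENNReal.ofReal (by simp) (fun _ _ => ENNReal.ofReal_add_le) _ _
      _ = _ := Finset.sum_congr rfl fun j _ => ENNReal.ofReal_mul (by norm_num)
  rw [← huz]
  refine multiplier hw P u _ (by positivity) ((decouple P hP hd hu (by positivity)).trans ?_)
  refine (lintegral_mono fun y => lintegral_mono fun x => hpt y x).trans (le_of_eq ?_)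
  have e1 : ∀ y, ∫⁻ x, ∑ j, ENNReal.ofReal (1/5) * ENNReal.ofReal (y - c * T j x) ∂stdGaussian E
      = ∑ j, ENNReal.ofReal (1/5) * ∫⁻ x, ENNReal.ofReal (y - c * T j x) ∂stdGaussian E := fun y => by
    rw [lintegral_finsetSum _ (fun j _ => by simp only [hT]; fun_prop)]
    exact Finset.sum_congr rfl fun j _ => lintegral_const_mul _ (by simp only [hT]; fun_prop)
  simp only [e1]
  have hm : ∀ j, Measurable fun y => ∫⁻ x, ENNReal.ofReal (y - c * T j x) ∂stdGaussian E := fun j =>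
    Measurable.lintegral_prod_right (f := fun y x => ENNReal.ofReal (y - c * T j x)) (by simp only [hT]; fun_prop)
  rw [lintegral_finsetSum _ (fun j _ => (hm j).const_mul _)]
  simp only [lintegral_const_mul _ (hm _), hval, Finset.sum_const, Finset.card_univ, Fintype.card_fin]
  rw [nsmul_eq_mul, ← mul_assoc, show ((5:ℕ):ℝ≥0∞) * ENNReal.ofReal (1/5) = 1 by
    rw [← ENNReal.ofReal_natCast, ← ENNReal.ofReal_mul (by norm_num)]; norm_num, one_mul]

end Vale.P226
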