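import Mathlib.Probability.Distributions.Gaussian.Real
import Mathlib.Analysis.SpecialFunctions.PolarCoord
import Mathlib.Analysis.SpecialFunctions.Gaussian.GaussianIntegral
import Mathlib.MeasureTheory.Integral.Gamma
import Mathlib.MeasureTheory.Function.JacobianOneDim
import Mathlib.MeasureTheory.Constructions.Pi

/-! # One- and two-dimensional Gaussian integrals (P226) -/

open MeasureTheory ProbabilityTheory Set Real
open scoped ENNReal NNReal

namespace Vale.P226

/-- the standard Gaussian measure on the line -/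
noncomputable abbrev gR : Measure ℝ := gaussianReal 0 1

/-- `1/√(2π)` -/
noncomputable def phi0 : ℝ := (√(2 * π))⁻¹

lemma phi0_pos : 0 < phi0 := by unfold phi0; positivity

lemma phi0_mul_sqrt : phi0 * √(2*π) = 1 := by
  unfold phi0; exact inv_mul_cancel₀ (by positivity)

lemma phi0_sq : phi0 * phi0 = (2*π)⁻¹ := by
  unfold phi0; rw [← mul_inv, Real.mul_self_sqrt (by positivity)]

/-- the Gaussian weight -/
noncomputable def gw (x : ℝ) : ℝ := exp (-(x^2/2))

lemma gw_pos (x : ℝ) : 0 < gw x := exp_pos _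

@[fun_prop]
lemma measurable_gw : Measurable gw := by unfold gw; fun_prop

@[fun_prop]
lemma continuous_gw : Continuous gw := by unfold gw; fun_prop

lemma lintegral_gR (f : ℝ → ℝ≥0∞) (hf : Measurable f) :
    ∫⁻ x, f x ∂gR = ∫⁻ x, ENNReal.ofReal (phi0 * gw x) * f x := by
  rw [gR, gaussianReal_of_var_ne_zero 0 one_ne_zero,
    lintegral_withDensity_eq_lintegral_mul _ (measurable_gaussianPDF 0 1) hf]
  refine lintegral_congr fun x => ?_
  simp only [Pi.mul_apply, gaussianPDF, gaussianPDFReal, phi0, gw]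
  norm_num
  ring_nf

lemma gw_mul_gw (a b : ℝ) : gw a * gw b = gw (√(a^2 + b^2)) := by
  unfold gw
  rw [← exp_add, Real.sq_sqrt (by positivity)]; ring_nf

lemma polar_gauss (H : ℝ → ℝ → ℝ≥0∞) (hH : Measurable (Function.uncurry H)) :
    ∫⁻ a, ∫⁻ b, H a b ∂gR ∂gR =
      ∫⁻ r in Ioi 0, ENNReal.ofReal ((2*π)⁻¹ * (r * gw r)) *
        ∫⁻ θ in Ioo (-π) π, H (r * cos θ) (r * sin θ) := by
  have hin : Measurable (fun a => ∫⁻ b, H a b ∂gR) := hH.lintegral_prod_right
  rw [lintegral_gR _ hin]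
  have h1 : ∀ a, ENNReal.ofReal (phi0 * gw a) * ∫⁻ b, H a b ∂gR
      = ∫⁻ b, ENNReal.ofReal (phi0 * gw a) * (ENNReal.ofReal (phi0 * gw b) * H a b) := fun a => by
    rw [lintegral_gR (fun b => H a b) (hH.comp (by fun_prop : Measurable fun b => (a, b)))]
    rw [lintegral_const_mul]
    exact (by fun_prop : Measurable fun b => ENNReal.ofReal (phi0 * gw b)).mul
      (hH.comp (by fun_prop : Measurable fun b => (a, b)))
  simp_rw [h1]
  have hJ : Measurable (fun p : ℝ × ℝ =>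
      ENNReal.ofReal (phi0 * gw p.1) * (ENNReal.ofReal (phi0 * gw p.2) * H p.1 p.2)) :=
    (by fun_prop : Measurable fun p : ℝ × ℝ => ENNReal.ofReal (phi0 * gw p.1)).mul
      ((by fun_prop : Measurable fun p : ℝ × ℝ => ENNReal.ofReal (phi0 * gw p.2)).mul hH)
  rw [← lintegral_prod _ hJ.aemeasurable, ← Measure.volume_eq_prod, ← lintegral_comp_polarCoord_symm]
  rw [show polarCoord.target = Ioi (0:ℝ) ×ˢ Ioo (-π) π from rfl, Measure.volume_eq_prod,
    ← Measure.prod_restrict, lintegral_prod]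
  · refine setLIntegral_congr_fun measurableSet_Ioi fun r hr => ?_
    rw [← lintegral_const_mul]
    · refine lintegral_congr fun θ => ?_
      have hr0 : (0:ℝ) < r := hr
      simp only [polarCoord_symm_apply, smul_eq_mul]
      rw [← mul_assoc, ← mul_assoc, ← ENNReal.ofReal_mul hr0.le,
        ← ENNReal.ofReal_mul (mul_nonneg hr0.le (mul_nonneg phi0_pos.le (gw_pos _).le))]
      congr 2
      have h2 := gw_mul_gw (r * cos θ) (r * sin θ)
      rw [show (r * cos θ)^2 + (r * sin θ)^2 = r^2 by linear_combination r^2 * cos_sq_add_sin_sq θ,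
        Real.sqrt_sq hr0.le] at h2
      rw [← phi0_sq, ← h2]; ring
    · exact hH.comp (by fun_prop : Measurable fun θ => (r * cos θ, r * sin θ))
  · exact ((by fun_prop : Measurable fun p : ℝ × ℝ => ENNReal.ofReal p.1).mul
      (hJ.comp (by fun_prop : Measurable fun p : ℝ × ℝ => polarCoord.symm p))).aemeasurable

lemma polar_radial (F : ℝ → ℝ≥0∞) (hF : Measurable F) :
    ∫⁻ a, ∫⁻ b, F (√(a^2 + b^2)) ∂gR ∂gR = ∫⁻ r in Ioi 0, ENNReal.ofReal (r * gw r) * F r := by
  rw [polar_gauss (fun a b => F (√(a^2 + b^2))) (hF.comp (by fun_prop))]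
  refine setLIntegral_congr_fun measurableSet_Ioi fun r hr => ?_
  have hr0 : (0:ℝ) < r := hr
  have h : ∀ θ : ℝ, F (√((r * cos θ)^2 + (r * sin θ)^2)) = F r := fun θ => by
    rw [show (r * cos θ)^2 + (r * sin θ)^2 = r^2 by linear_combination r^2 * cos_sq_add_sin_sq θ,
      Real.sqrt_sq hr0.le]
  simp only [h, setLIntegral_const, Real.volume_Ioo]
  rw [mul_comm (F r), ← mul_assoc, ← ENNReal.ofReal_mul (by positivity [gw_pos r])]
  congr 2
  field_simp
  ring

lemma shift_lintegral {s : ℝ} (hs : 0 ≤ s) (F : ℝ → ℝ≥0∞) :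
    ∫⁻ b in Ioi 0, ENNReal.ofReal b * F (√(s^2 + b^2))
      = ∫⁻ r in Ioi s, ENNReal.ofReal r * F r := by
  have himg : (fun b => √(s^2 + b^2)) '' Ioi 0 = Ioi s := by
    ext r
    constructor
    · rintro ⟨b, hb, rfl⟩
      exact (Real.lt_sqrt hs).mpr (by nlinarith [mem_Ioi.mp hb])
    · intro hr
      have hr' : s < r := hr
      refine ⟨√(r^2 - s^2), Real.sqrt_pos.mpr (by nlinarith), ?_⟩
      simp only
      rw [Real.sq_sqrt (by nlinarith), show s^2 + (r^2 - s^2) = r^2 by ring, Real.sqrt_sq (by linarith)]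
  have hinj : InjOn (fun b => √(s^2 + b^2)) (Ioi 0) := fun a ha b hb h => by
    have := congrArg (· ^ 2) h
    simp only [Real.sq_sqrt (add_nonneg (sq_nonneg s) (sq_nonneg a)),
      Real.sq_sqrt (add_nonneg (sq_nonneg s) (sq_nonneg b))] at this
    exact (sq_eq_sq₀ (mem_Ioi.mp ha).le (mem_Ioi.mp hb).le).mp (by linarith)
  rw [← himg, lintegral_image_eq_lintegral_abs_deriv_mul measurableSet_Ioi
    (f' := fun b => b / √(s^2 + b^2)) (fun b hb => ?_) hinj]
  · refine setLIntegral_congr_fun measurableSet_Ioi fun b hb => ?_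
    have hb0 : (0:ℝ) < b := hb
    have hpos : 0 < √(s^2 + b^2) := Real.sqrt_pos.mpr (by positivity)
    rw [← mul_assoc, ← ENNReal.ofReal_mul (abs_nonneg _), abs_of_nonneg (by positivity),
      div_mul_cancel₀ _ hpos.ne']
  · have hb0 : (0:ℝ) < b := hb
    have h := ((hasDerivAt_pow 2 b).const_add (s^2)).sqrt (by positivity)
    refine (h.congr_deriv ?_).hasDerivWithinAt
    simp; ring

lemma lintegral_pi_succ {k : ℕ} (F : (Fin (k+1) → ℝ) → ℝ≥0∞) (hF : Measurable F) :
    ∫⁻ z, F z ∂Measure.pi (fun _ => gR)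
      = ∫⁻ a, ∫⁻ z, F (Fin.cons a z) ∂Measure.pi (fun _ => gR) ∂gR := by
  have h := measurePreserving_piFinSuccAbove (fun _ : Fin (k+1) => gR) 0
  rw [← (h.symm).lintegral_comp hF]
  have hc : ∀ p : ℝ × (Fin k → ℝ),
      (MeasurableEquiv.piFinSuccAbove (fun _ : Fin (k+1) => ℝ) 0).symm p = Fin.cons p.1 p.2 := fun p => by
    simp [MeasurableEquiv.piFinSuccAbove]
    rfl
  simp only [hc]
  rw [lintegral_prod]
  exact (hF.comp (by fun_prop)).aemeasurable

lemma lintegral_pi_zero (F : (Fin 0 → ℝ) → ℝ≥0∞) :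
    ∫⁻ z, F z ∂Measure.pi (fun _ => gR) = F Fin.elim0 := by
  rw [lintegral_unique, measure_univ, mul_one]
  congr 1
  try exact Subsingleton.elim _ _

lemma moment (k : ℕ) {b : ℝ} (hb : 0 < b) :
    ∫ x in Ioi (0:ℝ), x ^ k * exp (-b * x^2)
      = b ^ (-((k:ℝ) + 1) / 2) * (1/2) * Gamma (((k:ℝ) + 1) / 2) := by
  rw [← integral_rpow_mul_exp_neg_mul_rpow (p := 2) (q := (k:ℝ)) (by norm_num)
    (by linarith [k.cast_nonneg (α := ℝ)]) hb]
  refine setIntegral_congr_fun measurableSet_Ioi fun x _ => ?_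
  simp only [Real.rpow_natCast, Real.rpow_two]

lemma integrable_moment (k : ℕ) {b : ℝ} (hb : 0 < b) :
    IntegrableOn (fun x => x ^ k * exp (-b * x^2)) (Ioi (0:ℝ)) := by
  have h := integrableOn_rpow_mul_exp_neg_mul_sq hb (s := (k:ℝ)) (by linarith [k.cast_nonneg (α := ℝ)])
  refine h.congr_fun (fun x _ => ?_) measurableSet_Ioi
  simp only [Real.rpow_natCast]

lemma lintegral_moment (k : ℕ) {b : ℝ} (hb : 0 < b) :
    ∫⁻ x in Ioi (0:ℝ), ENNReal.ofReal (x ^ k * exp (-b * x^2))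
      = ENNReal.ofReal (b ^ (-((k:ℝ) + 1) / 2) * (1/2) * Gamma (((k:ℝ) + 1) / 2)) := by
  rw [← moment k hb, ofReal_integral_eq_lintegral_ofReal (integrable_moment k hb)]
  exact (ae_restrict_iff' measurableSet_Ioi).mpr (ae_of_all _ fun x hx => by
    have : (0:ℝ) < x := hx
    positivity)

lemma moment1 : ∫ x in Ioi (0:ℝ), x * gw x = 1 := by
  have h := moment 1 (b := 1/2) (by norm_num)
  norm_num [Real.Gamma_one, Real.rpow_neg_one] at h
  rw [← h]
  refine setIntegral_congr_fun measurableSet_Ioi fun x _ => ?_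
  unfold gw; ring_nf

lemma moment3 : ∫ x in Ioi (0:ℝ), x^3 * gw x = 2 := by
  have h := moment 3 (b := 1/2) (by norm_num)
  have h2 : Gamma 2 = 1 := by
    rw [show (2:ℝ) = ((1:ℕ):ℝ) + 1 by norm_num, Real.Gamma_nat_eq_factorial]; norm_num
  norm_num [h2] at h
  rw [← h]
  refine setIntegral_congr_fun measurableSet_Ioi fun x _ => ?_
  unfold gw; ring_nf

lemma moment5 : ∫ x in Ioi (0:ℝ), x^5 * gw x = 8 := by
  have h := moment 5 (b := 1/2) (by norm_num)
  have h3 : Gamma 3 = 2 := by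
    rw [show (3:ℝ) = ((2:ℕ):ℝ) + 1 by norm_num, Real.Gamma_nat_eq_factorial]; norm_num
  norm_num [h3] at h
  rw [← h]
  refine setIntegral_congr_fun measurableSet_Ioi fun x _ => ?_
  unfold gw; ring_nf

lemma moment2 : ∫ x in Ioi (0:ℝ), x^2 * gw x = √(2*π)/2 := by
  have h := moment 2 (b := 1/2) (by norm_num)
  have h3 : Gamma (3/2) = √π/2 := by
    rw [show (3:ℝ)/2 = 1/2 + 1 by norm_num, Real.Gamma_add_one (by norm_num), Real.Gamma_one_half_eq]
    ring
  have h4 : ((1:ℝ)/2) ^ (-(3:ℝ)/2) = 2 * √2 := by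
    rw [one_div, Real.inv_rpow (by norm_num), ← Real.rpow_neg (by norm_num),
      show -(-(3:ℝ)/2) = 1 + 1/2 by norm_num, Real.rpow_add (by norm_num), Real.rpow_one,
      Real.sqrt_eq_rpow]
  push_cast at h
  norm_num [h3] at h
  rw [show (-3:ℝ)/2 = -(3/2) by ring] at *
  rw [Real.sqrt_mul (by norm_num)]
  have e : ∫ x in Ioi (0:ℝ), x^2 * gw x = ∫ x in Ioi (0:ℝ), x^2 * exp (-(1/2 * x^2)) :=
    setIntegral_congr_fun measurableSet_Ioi fun x _ => by unfold gw; ring_nf
  rw [e, h, h4]; ring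

lemma lintegral_gw_moment (k : ℕ) :
    ∫⁻ x in Ioi (0:ℝ), ENNReal.ofReal (x ^ k * gw x)
      = ENNReal.ofReal (∫ x in Ioi (0:ℝ), x ^ k * gw x) := by
  have hi : IntegrableOn (fun x => x ^ k * gw x) (Ioi (0:ℝ)) :=
    (integrable_moment k (b := 1/2) (by norm_num)).congr_fun
      (fun x _ => by unfold gw; ring_nf) measurableSet_Ioi
  rw [ofReal_integral_eq_lintegral_ofReal hi]
  exact (ae_restrict_iff' measurableSet_Ioi).mpr (ae_of_all _ fun x hx => by
    have : (0:ℝ) < x := hx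
    have := gw_pos x
    positivity)

end Vale.P226
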