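import Vale.Agent.P226.Assembly
import Mathlib.Data.Fin.Tuple.Sort
import Mathlib.MeasureTheory.Constructions.BorelSpace.Metrizable

/-! # Merging, reordering and dimension padding (P226) -/

open MeasureTheory ProbabilityTheory Set Real Module
open scoped ENNReal NNReal RealInnerProductSpace

namespace Vale.P226

variable {E : Type*} [NormedAddCommGroup E] [InnerProductSpace ℝ E] [FiniteDimensional ℝ E]
  [MeasurableSpace E] [BorelSpace E]

lemma isWt_zero : IsWt (fun _ : E => (0:ℝ)) :=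
  ⟨measurable_const, ae_of_all _ fun _ => ⟨le_rfl, zero_le_one⟩⟩

lemma Zv_zero : Zv (fun _ : E => (0:ℝ)) = 0 := by simp [Zv]

lemma terminal (hd : 6 ≤ finrank ℝ E) {N : ℕ} {w : Fin N → E → ℝ} (h : IsFuzzy w)
    (hneg : ∀ i j, i ≠ j → ⟪Zv (w i), Zv (w j)⟫ ≤ 0) : ∑ i, ‖Zv (w i)‖^2 ≤ 9/4 := by
  set v : Fin (5 + N) → E → ℝ := Fin.addCases (fun _ _ => 0) w with hv
  have hv5 : ∀ i : Fin 5, v (Fin.castAdd N i) = fun _ => 0 := fun i => by simp [hv]
  have hvN : ∀ i : Fin N, v (Fin.natAdd 5 i) = w i := fun i => by simp [hv]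
  set σ : Equiv.Perm (Fin (5 + N)) := Tuple.sort fun i => -‖Zv (v i)‖ with hσ
  have hmono := Tuple.monotone_sort fun i => -‖Zv (v i)‖
  have hvw : ∀ i, IsWt (v i) := fun i => by
    induction i using Fin.addCases with
    | left i => rw [hv5]; exact isWt_zero
    | right i => rw [hvN]; exact h.wt i
  have hf : IsFuzzy fun i => v (σ i) := ⟨fun i => hvw _, h.sum_one.mono fun x hx => by
    rw [Equiv.sum_comp σ (fun i => v i x), Fin.sum_univ_add]
    simp only [hv5, hvN, Finset.sum_const_zero, zero_add, hx]⟩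
  have hvneg : ∀ i j, i ≠ j → ⟪Zv (v i), Zv (v j)⟫ ≤ 0 := fun i j hij => by
    induction i using Fin.addCases with
    | left i => rw [hv5, Zv_zero, inner_zero_left]
    | right i =>
      induction j using Fin.addCases with
      | left j => rw [hv5, Zv_zero, inner_zero_right]
      | right j => rw [hvN, hvN]; exact hneg i j fun e => hij (by rw [e])
  have := cells_sorted hd hf (fun i j hij => hvneg _ _ (σ.injective.ne hij))
    (fun i j hij => neg_le_neg_iff.mp (hmono hij))
  rw [Equiv.sum_comp σ (fun i => ‖Zv (v i)‖^2), Fin.sum_univ_add] at this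
  simpa [hv5, hvN, Zv_zero] using this

theorem fuzzy_bound (hd : 6 ≤ finrank ℝ E) :
    ∀ {N : ℕ} {w : Fin N → E → ℝ}, IsFuzzy w → ∑ i, ‖Zv (w i)‖^2 ≤ 9/4
  | 0, _, _ => by simp; norm_num
  | N + 1, w, h => by
    by_cases hneg : ∀ i j, i ≠ j → ⟪Zv (w i), Zv (w j)⟫ ≤ 0
    · exact terminal hd h hneg
    push Not at hneg
    obtain ⟨i, j, hij, hpos⟩ := hneg
    obtain ⟨i', rfl⟩ := Fin.exists_succAbove_eq hij
    let v : Fin N → E → ℝ := Function.update (fun m => w (j.succAbove m)) i'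
      fun x => w (j.succAbove i') x + w j x
    have hsumv : ∀ x, ∑ m, v m x = ∑ m, w m x := fun x => by
      rw [Fin.sum_univ_succAbove _ j, ← Finset.add_sum_erase _ _ (Finset.mem_univ i'),
        ← Finset.add_sum_erase (Finset.univ : Finset (Fin N)) (fun m => w (j.succAbove m) x) (Finset.mem_univ i')]
      have e : ∑ m ∈ (Finset.univ : Finset (Fin N)).erase i', v m x
          = ∑ m ∈ (Finset.univ : Finset (Fin N)).erase i', w (j.succAbove m) x :=
        Finset.sum_congr rfl fun m hm => by simp [v, Finset.ne_of_mem_erase hm]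
      rw [e]
      simp [v]; ring
    have hpair : (fun x => w (j.succAbove i') x + w j x)
        = fun x => ∑ m ∈ ({j.succAbove i', j} : Finset (Fin (N+1))), w m x := by
      funext x; rw [Finset.sum_pair hij]
    have hv : IsFuzzy v := ⟨fun m => by
      rcases eq_or_ne m i' with rfl | hm
      · simp only [v, Function.update_self, hpair]; exact h.isWt_sum _
      · simp only [v, Function.update_of_ne hm]; exact h.wt _,
      h.sum_one.mono fun x hx => by rw [hsumv, hx]⟩
    refine le_trans ?_ (fuzzy_bound hd hv)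
    have hZ : Zv (v i') = Zv (w (j.succAbove i')) + Zv (w j) := by
      simp only [v, Function.update_self, hpair]
      rw [Zv_sum _ h.wt, Finset.sum_pair hij]
    have e : ∑ m ∈ (Finset.univ : Finset (Fin N)).erase i', ‖Zv (v m)‖^2
        = ∑ m ∈ (Finset.univ : Finset (Fin N)).erase i', ‖Zv (w (j.succAbove m))‖^2 :=
      Finset.sum_congr rfl fun m hm => by simp [v, Finset.ne_of_mem_erase hm]
    rw [Fin.sum_univ_succAbove _ j, ← Finset.add_sum_erase _ _ (Finset.mem_univ i'),
      ← Finset.add_sum_erase (Finset.univ : Finset (Fin N)) (fun m => ‖Zv (v m)‖^2) (Finset.mem_univ i'), e,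
      hZ, norm_add_sq_real]
    linarith

/-- projection onto the first coordinates -/
noncomputable def proj (d : ℕ) : EuclideanSpace ℝ (Fin (d + 6)) →L[ℝ] EuclideanSpace ℝ (Fin d) :=
  (PiLp.continuousLinearEquiv 2 ℝ (fun _ : Fin d => ℝ)).symm.toContinuousLinearMap.comp
    (ContinuousLinearMap.pi fun i : Fin d =>
      innerSL ℝ (EuclideanSpace.basisFun (Fin (d + 6)) ℝ (Fin.castAdd 6 i)))

lemma proj_eq (d : ℕ) : ⇑(proj d) = WithLp.toLp 2 ∘
    coords (fun i : Fin d => EuclideanSpace.basisFun (Fin (d + 6)) ℝ (Fin.castAdd 6 i)) := rfl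

lemma proj_orth (d : ℕ) :
    Orthonormal ℝ (fun i : Fin d => EuclideanSpace.basisFun (Fin (d + 6)) ℝ (Fin.castAdd 6 i)) :=
  (EuclideanSpace.basisFun (Fin (d + 6)) ℝ).orthonormal.comp _ (Fin.castAdd_injective d 6)

lemma proj_map (d : ℕ) : Measure.map (proj d) (stdGaussian (EuclideanSpace ℝ (Fin (d + 6))))
    = stdGaussian (EuclideanSpace ℝ (Fin d)) := by
  rw [proj_eq, ← Measure.map_map (by fun_prop) (measurable_coords _), law (proj_orth d),
    map_pi_eq_stdGaussian]

lemma proj_norm (d : ℕ) (x : EuclideanSpace ℝ (Fin (d + 6))) : ‖proj d x‖ ≤ ‖x‖ := by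
  refine (sq_le_sq₀ (norm_nonneg _) (norm_nonneg _)).mp ?_
  rw [EuclideanSpace.real_norm_sq_eq]
  refine le_trans (le_of_eq ?_) ((proj_orth d).sum_inner_products_le x (s := Finset.univ))
  refine Finset.sum_congr rfl fun i _ => ?_
  rw [Real.norm_eq_abs, sq_abs, proj_eq]
  simp [coords]

/-- The propeller bound for fuzzy partitions of any dimension. -/
theorem moments_bound (d k : ℕ) (w : Fin k → EuclideanSpace ℝ (Fin d) → ℝ)
    (hm : ∀ i, Measurable (w i))
    (h0 : ∀ i, ∀ᵐ x ∂stdGaussian (EuclideanSpace ℝ (Fin d)), 0 ≤ w i x ∧ w i x ≤ 1)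
    (h1 : ∀ᵐ x ∂stdGaussian (EuclideanSpace ℝ (Fin d)), ∑ i, w i x = 1) :
    ∑ i, ‖∫ x, w i x • x ∂stdGaussian (EuclideanSpace ℝ (Fin d))‖^2 ≤ 9 / (8 * π) := by
  let L := proj d
  have hL : AEMeasurable L (stdGaussian (EuclideanSpace ℝ (Fin (d + 6)))) := L.continuous.aemeasurable
  rw [← proj_map d] at h0 h1
  have hf : IsFuzzy fun i x => w i (L x) :=
    ⟨fun i => ⟨(hm i).comp L.continuous.measurable, ae_of_ae_map hL (h0 i)⟩, ae_of_ae_map hL h1⟩
  have hb := fuzzy_bound (by rw [finrank_euclideanSpace_fin]; omega) hf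
  have key : ∀ i, 2 * π * ‖∫ x, w i x • x ∂stdGaussian (EuclideanSpace ℝ (Fin d))‖^2
      ≤ ‖Zv (fun x => w i (L x))‖^2 := fun i => by
    have e : ∫ x, w i x • x ∂stdGaussian (EuclideanSpace ℝ (Fin d))
        = L (∫ x, w i (L x) • x ∂stdGaussian (EuclideanSpace ℝ (Fin (d + 6)))) := by
      rw [← ContinuousLinearMap.integral_comp_comm _ (hf.wt i).integrable_smul, ← proj_map d,
        integral_map hL (f := fun x => w i x • x) ((hm i).smul measurable_id).aestronglyMeasurable]
      simp only [map_smul, L]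
    rw [e, Zv, norm_smul, mul_pow, Real.norm_eq_abs, sq_abs, Real.sq_sqrt (by positivity)]
    exact mul_le_mul_of_nonneg_left (pow_le_pow_left₀ (norm_nonneg _) (proj_norm d _) 2) (by positivity)
  have h2 : 2 * π * ∑ i, ‖∫ x, w i x • x ∂stdGaussian (EuclideanSpace ℝ (Fin d))‖^2 ≤ 9/4 := by
    rw [Finset.mul_sum]; exact (Finset.sum_le_sum fun i _ => key i).trans hb
  rw [le_div_iff₀ (by positivity)]
  linarith

end Vale.P226
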