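import Vale.Agent.P226.Radial
import Mathlib.Analysis.SpecialFunctions.Trigonometric.ArctanDeriv
import Mathlib.Analysis.SpecialFunctions.Integrals.Basic

/-! # The model Gaussian integrals and their bounds (P226) -/

open MeasureTheory ProbabilityTheory Set Real
open scoped ENNReal NNReal

namespace Vale.P226


lemma memLp_id_two : MemLp (id : ℝ → ℝ) 2 gR := memLp_id_gaussianReal' 2 (by norm_num)

lemma integral_sq_gR : ∫ y, y^2 ∂gR = 1 := by
  have h := variance_id_gaussianReal (μ := 0) (v := 1)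
  rw [variance_eq_sub memLp_id_two] at h
  simpa [integral_id_gaussianReal] using h

lemma gauss_sq (α m : ℝ) : ∫⁻ y, ENNReal.ofReal ((α + m*y)^2) ∂gR = ENNReal.ofReal (α^2 + m^2) := by
  have h1 : Integrable (fun y : ℝ => y) gR := memLp_id_two.integrable one_le_two
  have h2 : Integrable (fun y : ℝ => y^2) gR := memLp_id_two.integrable_sq
  have hi : Integrable (fun y => (α + m*y)^2) gR := by
    have := ((integrable_const (α^2)).add (h1.const_mul (2*α*m))).add (h2.const_mul (m^2))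
    refine this.congr (ae_of_all _ fun y => ?_)
    simp only [Pi.add_apply]; ring
  rw [← ofReal_integral_eq_lintegral_ofReal hi (ae_of_all _ fun y => sq_nonneg _)]
  congr 1
  have : ∀ y, (α + m*y)^2 = α^2 + (2*α*m)*y + m^2*y^2 := fun y => by ring
  simp only [this]
  rw [integral_add (((integrable_const _).fun_add (h1.const_mul _))) (h2.const_mul _),
    integral_add (integrable_const _) (h1.const_mul _), integral_const_mul, integral_const_mul,
    integral_sq_gR, integral_id_gaussianReal]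
  simp

lemma pp_int_le (l h k : ℝ) : ∫⁻ x in Ioo l h, ENNReal.ofReal (x + k) ≤ ENNReal.ofReal ((h + k)^2/2) := by
  rcases le_total (-k) h with hk | hk
  · have e : ENNReal.ofReal ((h + k)^2/2) = ∫⁻ x in Ioo (-k) h, ENNReal.ofReal (x + k) := by
      rw [ofReal_Ioo hk (by fun_prop) (fun x hx => by linarith [hx.1]),
        intervalIntegral.integral_comp_add_right (fun x => x), integral_id]
      ring_nf
    rw [e, ← lintegral_indicator measurableSet_Ioo, ← lintegral_indicator measurableSet_Ioo]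
    refine lintegral_mono fun x => ?_
    by_cases hx : x ∈ Ioo l h
    · rw [indicator_of_mem hx]
      rcases le_or_gt x (-k) with h' | h'
      · rw [ENNReal.ofReal_of_nonpos (by linarith)]; exact zero_le
      · rw [indicator_of_mem (show x ∈ Ioo (-k) h from ⟨h', hx.2⟩)]
    · rw [indicator_of_notMem hx]; exact zero_le
  · rw [← lintegral_indicator measurableSet_Ioo]
    refine le_trans (le_of_eq ((lintegral_congr fun x => ?_).trans lintegral_zero)) zero_le
    by_cases hx : x ∈ Ioo l h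
    · rw [indicator_of_mem hx]; exact ENNReal.ofReal_of_nonpos (by linarith [hx.2])
    · rw [indicator_of_notMem hx]

/-- dimension 3, big cell -/
lemma psi3_le (c m : ℝ) :
    ∫⁻ y, ∫⁻ a, ∫⁻ b, ∫⁻ d, ENNReal.ofReal (a + m*y - c*√(a^2 + (b^2 + d^2))) ∂gR ∂gR ∂gR ∂gR
      ≤ ENNReal.ofReal (phi0 * ((1-c)^2 + m^2/2)) := by
  have h : ∀ y, ∫⁻ a, ∫⁻ b, ∫⁻ d, ENNReal.ofReal (a + m*y - c*√(a^2 + (b^2 + d^2))) ∂gR ∂gR ∂gR
      ≤ ∫⁻ r in Ioi 0, ENNReal.ofReal (phi0 * (r * gw r)) * ENNReal.ofReal ((r*(1-c) + m*y)^2/2) := fun y => by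
    rw [radial3 (fun a r => ENNReal.ofReal (a + m*y - c*r)) (by fun_prop)]
    refine lintegral_mono fun r => mul_le_mul' le_rfl ?_
    have e : ∀ a, a + m*y - c*r = a + (m*y - c*r) := fun a => by ring
    simp only [e]
    refine (pp_int_le _ _ _).trans_eq ?_
    ring_nf
  refine (lintegral_mono h).trans ?_
  rw [lintegral_lintegral_swap]
  swap
  · exact ((by fun_prop : Measurable fun p : ℝ × ℝ => ENNReal.ofReal (phi0 * (p.2 * gw p.2))).fun_mul
      (by fun_prop : Measurable fun p : ℝ × ℝ => ENNReal.ofReal ((p.2*(1-c) + m*p.1)^2/2))).aemeasurable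
  have h2 : ∀ r ∈ Ioi (0:ℝ), ∫⁻ y, ENNReal.ofReal (phi0 * (r * gw r)) * ENNReal.ofReal ((r*(1-c) + m*y)^2/2) ∂gR
      = ENNReal.ofReal (phi0/2*(1-c)^2 * (r^3 * gw r)) + ENNReal.ofReal (phi0/2*m^2 * (r^1 * gw r)) := fun r hr => by
    have hr0 : (0:ℝ) < r := hr
    have := gw_pos r
    have := phi0_pos
    rw [lintegral_const_mul _ (by fun_prop)]
    have e : ∀ y : ℝ, ENNReal.ofReal ((r*(1-c) + m*y)^2/2) = ENNReal.ofReal (1/2) * ENNReal.ofReal ((r*(1-c) + m*y)^2) := fun y => by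
      rw [← ENNReal.ofReal_mul (by norm_num)]; ring_nf
    simp only [e]
    rw [lintegral_const_mul _ (by fun_prop), gauss_sq, ← ENNReal.ofReal_mul (by norm_num),
      ← ENNReal.ofReal_mul (by positivity), ← ENNReal.ofReal_add (by positivity) (by positivity)]
    ring_nf
  have hφ := phi0_pos
  rw [setLIntegral_congr_fun measurableSet_Ioi h2, lintegral_add_left (by fun_prop)]
  simp only [ENNReal.ofReal_mul (show 0 ≤ phi0/2*(1-c)^2 by positivity),
    ENNReal.ofReal_mul (show 0 ≤ phi0/2*m^2 by positivity)]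
  rw [lintegral_const_mul _ (by fun_prop), lintegral_const_mul _ (by fun_prop),
    lintegral_gw_moment, lintegral_gw_moment, moment3]
  simp only [pow_one, moment1]
  rw [← ENNReal.ofReal_mul (by positivity), ← ENNReal.ofReal_mul (by positivity),
    ← ENNReal.ofReal_add (by positivity) (by positivity)]
  exact le_of_eq (by ring_nf)

/-- dimension 5, big cell -/
lemma psi5_eq {C : ℝ} (hC : -1 ≤ C) (hC' : C ≤ 1) :
    ∫⁻ a, ∫⁻ b, ∫⁻ c, ∫⁻ d, ∫⁻ e, ENNReal.ofReal (a - C*√(a^2 + ((b^2 + c^2) + (d^2 + e^2)))) ∂gR ∂gR ∂gR ∂gR ∂gR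
      = ENNReal.ofReal (phi0 * ((1-C)^3 * (3+C)/3)) := by
  rw [radial5 (fun a r => ENNReal.ofReal (a - C*r)) (by fun_prop)]
  have h : ∀ r ∈ Ioi (0:ℝ), ENNReal.ofReal (phi0 * (r * gw r)) *
      ∫⁻ a in Ioo (-r) r, ENNReal.ofReal ((r^2 - a^2)/2) * ENNReal.ofReal (a - C*r)
      = ENNReal.ofReal (phi0 * ((1-C)^3*(3+C)/24)) * ENNReal.ofReal (r^5 * gw r) := fun r hr => by
    have hr0 : (0:ℝ) < r := hr
    have hl : -r ≤ C*r := by nlinarith
    have hu : C*r ≤ r := by nlinarith
    have e1 : ∫⁻ a in Ioo (-r) r, ENNReal.ofReal ((r^2 - a^2)/2) * ENNReal.ofReal (a - C*r)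
        = ∫⁻ a in Ioo (C*r) r, ENNReal.ofReal ((r^2 - a^2)/2 * (a - C*r)) := by
      rw [← lintegral_indicator measurableSet_Ioo, ← lintegral_indicator measurableSet_Ioo]
      refine lintegral_congr fun a => ?_
      by_cases ha : a ∈ Ioo (-r) r
      · rw [indicator_of_mem ha]
        by_cases ha2 : C*r < a
        · rw [indicator_of_mem (show a ∈ Ioo (C*r) r from ⟨ha2, ha.2⟩),
            ENNReal.ofReal_mul (by nlinarith [ha.1, ha.2])]
        · rw [indicator_of_notMem (fun h => ha2 h.1), ENNReal.ofReal_of_nonpos (p := a - C*r) (by linarith),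
            mul_zero]
      · rw [indicator_of_notMem ha, indicator_of_notMem]
        exact fun h => ha ⟨lt_of_le_of_lt hl h.1, h.2⟩
    rw [e1, ofReal_Ioo hu (by fun_prop) (fun x hx => mul_nonneg
      (by nlinarith [hx.1, hx.2]) (by linarith [hx.1]))]
    have hd : ∀ x ∈ uIcc (C*r) r, HasDerivAt
        (fun x => -x^4/8 + C*r*x^3/6 + r^2*x^2/4 - C*r^3*x/2) ((r^2 - x^2)/2 * (x - C*r)) x := by
      intro x _
      have := (((((hasDerivAt_pow 4 x).neg).div_const 8).add
        (((hasDerivAt_pow 3 x).const_mul (C*r)).div_const 6)).add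
        (((hasDerivAt_pow 2 x).const_mul (r^2)).div_const 4)).sub
        (((hasDerivAt_id x).const_mul (C*r^3)).div_const 2)
      refine this.congr_deriv ?_
      push_cast; ring
    rw [intervalIntegral.integral_eq_sub_of_hasDerivAt hd (by
      apply Continuous.intervalIntegrable; fun_prop)]
    have := gw_pos r
    have hp : 0 ≤ (1-C)^3*(3+C)/24 := by
      have : 0 ≤ 1 - C := by linarith
      have : 0 ≤ 3 + C := by linarith
      positivity
    rw [← ENNReal.ofReal_mul (mul_nonneg phi0_pos.le (mul_nonneg hr0.le (gw_pos r).le)),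
      ← ENNReal.ofReal_mul (mul_nonneg phi0_pos.le hp)]
    ring_nf
  rw [setLIntegral_congr_fun measurableSet_Ioi h, lintegral_const_mul _ (by fun_prop),
    lintegral_gw_moment, moment5, ← ENNReal.ofReal_mul' (by norm_num)]
  ring_nf

lemma EN2 : ∫⁻ a, ∫⁻ b, ENNReal.ofReal (√(a^2 + b^2)) ∂gR ∂gR = ENNReal.ofReal (phi0 * π) := by
  rw [polar_radial (fun r => ENNReal.ofReal r) (by fun_prop)]
  have h : ∀ r ∈ Ioi (0:ℝ), ENNReal.ofReal (r * gw r) * ENNReal.ofReal r = ENNReal.ofReal (r^2 * gw r) := fun r hr => by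
    have hr0 : (0:ℝ) < r := hr
    rw [← ENNReal.ofReal_mul (by positivity [gw_pos r])]; ring_nf
  rw [setLIntegral_congr_fun measurableSet_Ioi h, lintegral_gw_moment, moment2]
  congr 1
  have := phi0_mul_sqrt
  have := Real.mul_self_sqrt (show 0 ≤ 2*π by positivity)
  unfold phi0; field_simp; linarith

lemma EN3 : ∫⁻ a, ∫⁻ b, ∫⁻ c, ENNReal.ofReal (√(a^2 + (b^2 + c^2))) ∂gR ∂gR ∂gR = ENNReal.ofReal (phi0 * 4) := by
  rw [radial3 (fun _ r => ENNReal.ofReal r) (by fun_prop)]
  have h : ∀ r ∈ Ioi (0:ℝ), ENNReal.ofReal (phi0 * (r * gw r)) * ∫⁻ _a in Ioo (-r) r, ENNReal.ofReal r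
      = ENNReal.ofReal (phi0 * 2) * ENNReal.ofReal (r^3 * gw r) := fun r hr => by
    have hr0 : (0:ℝ) < r := hr
    have := gw_pos r; have := phi0_pos
    rw [setLIntegral_const, Real.volume_Ioo, ← ENNReal.ofReal_mul hr0.le,
      ← ENNReal.ofReal_mul (by positivity), ← ENNReal.ofReal_mul (by positivity)]
    ring_nf
  rw [setLIntegral_congr_fun measurableSet_Ioi h, lintegral_const_mul _ (by fun_prop),
    lintegral_gw_moment, moment3, ← ENNReal.ofReal_mul' (by norm_num)]
  ring_nf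

lemma EN5 : ∫⁻ a, ∫⁻ b, ∫⁻ c, ∫⁻ d, ∫⁻ e, ENNReal.ofReal (√(a^2 + ((b^2 + c^2) + (d^2 + e^2)))) ∂gR ∂gR ∂gR ∂gR ∂gR
    = ENNReal.ofReal (phi0 * (16/3)) := by
  rw [radial5 (fun _ r => ENNReal.ofReal r) (by fun_prop)]
  have h : ∀ r ∈ Ioi (0:ℝ), ENNReal.ofReal (phi0 * (r * gw r)) * ∫⁻ a in Ioo (-r) r, ENNReal.ofReal ((r^2 - a^2)/2) * ENNReal.ofReal r
      = ENNReal.ofReal (phi0 * (2/3)) * ENNReal.ofReal (r^5 * gw r) := fun r hr => by
    have hr0 : (0:ℝ) < r := hr
    have := gw_pos r; have := phi0_pos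
    rw [lintegral_mul_const _ (by fun_prop), ofReal_Ioo (by linarith) (by fun_prop)
      (fun x hx => by nlinarith [hx.1, hx.2]), intervalIntegral.integral_div,
      intervalIntegral.integral_sub intervalIntegrable_const
        ((by fun_prop : Continuous fun x : ℝ => x^2).intervalIntegrable _ _),
      intervalIntegral.integral_const, integral_pow, smul_eq_mul, ← ENNReal.ofReal_mul' hr0.le,
      ← ENNReal.ofReal_mul (by positivity), ← ENNReal.ofReal_mul (by positivity)]
    push_cast; ring_nf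
  rw [setLIntegral_congr_fun measurableSet_Ioi h, lintegral_const_mul _ (by fun_prop),
    lintegral_gw_moment, moment5, ← ENNReal.ofReal_mul' (by norm_num)]
  ring_nf

lemma scale_lintegral {y : ℝ} (hy : 0 < y) (F : ℝ → ℝ≥0∞) :
    ∫⁻ r in Ioi 0, F r = ∫⁻ s in Ioi 0, ENNReal.ofReal y * F (y * s) := by
  have himg : (fun s => y * s) '' Ioi 0 = Ioi 0 := by
    ext r; constructor
    · rintro ⟨s, hs, rfl⟩; exact mul_pos hy hs
    · exact fun hr => ⟨r/y, div_pos hr hy, by field_simp⟩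
  conv_lhs => rw [← himg]
  rw [lintegral_image_eq_lintegral_abs_deriv_mul measurableSet_Ioi (f' := fun _ => y)
    (fun s _ => by simpa using ((hasDerivAt_id s).const_mul y).hasDerivWithinAt)
    (mul_right_injective₀ hy.ne').injOn]
  simp only [abs_of_pos hy]

lemma K_swap (k : ℕ) {c : ℝ} (hc : 0 < c) :
    ∫⁻ y, (∫⁻ r in Ioi 0, ENNReal.ofReal (r^k * gw r) * ENNReal.ofReal (y - c*r)) ∂gR
      = ∫⁻ s in Ioi 0, ENNReal.ofReal (phi0 * ((1 - c*s) * s^k)) *
          ∫⁻ y in Ioi 0, ENNReal.ofReal (y^(k+2) * exp (-((1+s^2)/2) * y^2)) := by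
  rw [lintegral_gR _ (Measurable.lintegral_prod_right (f := fun y r => ENNReal.ofReal (r^k * gw r) * ENNReal.ofReal (y - c*r))
    (by fun_prop))]
  have e : ∀ y, ENNReal.ofReal (phi0 * gw y) * ∫⁻ r in Ioi 0, ENNReal.ofReal (r^k * gw r) * ENNReal.ofReal (y - c*r)
      = (Ioi (0:ℝ)).indicator (fun y => ∫⁻ s in Ioi 0, ENNReal.ofReal (phi0 * ((1 - c*s) * s^k)) *
          ENNReal.ofReal (y^(k+2) * exp (-((1+s^2)/2) * y^2))) y := fun y => by
    by_cases hy : 0 < y
    · rw [indicator_of_mem (mem_Ioi.mpr hy), scale_lintegral hy, ← lintegral_const_mul _ (by fun_prop)]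
      refine setLIntegral_congr_fun measurableSet_Ioi fun s hs => ?_
      have hs0 : (0:ℝ) < s := hs
      have := phi0_pos; have := gw_pos y; have := gw_pos (y*s)
      have hA : 0 ≤ phi0 * gw y := by positivity
      have hB : 0 ≤ (y*s)^k * gw (y*s) := by positivity
      have hexp : exp (-((1+s^2)/2) * y^2) = gw (y*s) * gw y := by
        unfold gw; rw [← exp_add]; ring_nf
      rcases le_total (1 - c*s) 0 with hneg | hpos
      · rw [ENNReal.ofReal_of_nonpos (p := y - c*(y*s)) (by nlinarith),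
          ENNReal.ofReal_of_nonpos (p := phi0 * ((1 - c*s) * s^k))
            (mul_nonpos_of_nonneg_of_nonpos phi0_pos.le
              (mul_nonpos_of_nonpos_of_nonneg hneg (by positivity)))]
        simp
      · rw [← ENNReal.ofReal_mul hB, ← ENNReal.ofReal_mul hy.le, ← ENNReal.ofReal_mul hA,
          ← ENNReal.ofReal_mul (mul_nonneg phi0_pos.le (mul_nonneg hpos (by positivity))), hexp]
        congr 1
        rw [mul_pow]; ring
    · rw [indicator_of_notMem (by simpa using hy)]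
      rw [setLIntegral_congr_fun measurableSet_Ioi (g := fun _ => 0) fun r hr => ?_]
      · simp
      · have hr0 : (0:ℝ) < r := hr
        rw [ENNReal.ofReal_of_nonpos (p := y - c*r) (by nlinarith [mul_pos hc hr0]), mul_zero]
  simp only [e]
  rw [lintegral_indicator measurableSet_Ioi, lintegral_lintegral_swap (by fun_prop)]
  exact lintegral_congr fun s => lintegral_const_mul _ (by fun_prop)

lemma K_restrict {c : ℝ} (hc : 0 < c) (G : ℝ → ℝ) (H : ℝ → ℝ)
    (hG : ∀ s, 0 < s → s < 1/c → 0 ≤ G s) (hG' : ∀ s, 1/c ≤ s → G s ≤ 0)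
    (hH : ∀ s, 0 ≤ H s) (hm : Continuous fun s => G s * H s) :
    ∫⁻ s in Ioi 0, ENNReal.ofReal (G s) * ENNReal.ofReal (H s) = ENNReal.ofReal (∫ s in (0:ℝ)..(1/c), G s * H s) := by
  rw [← ofReal_Ioo (by positivity) hm.continuousOn
    (fun s hs => mul_nonneg (hG s hs.1 hs.2) (hH s)),
    ← lintegral_indicator measurableSet_Ioi, ← lintegral_indicator measurableSet_Ioo]
  refine lintegral_congr fun s => ?_
  by_cases h0 : 0 < s
  · rw [indicator_of_mem (mem_Ioi.mpr h0)]
    by_cases h1 : s < 1/c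
    · rw [indicator_of_mem (show s ∈ Ioo 0 (1/c) from ⟨h0, h1⟩), ENNReal.ofReal_mul (hG s h0 h1)]
    · rw [indicator_of_notMem (fun h => h1 h.2), ENNReal.ofReal_of_nonpos (p := G s)
        (hG' s (not_lt.mp h1)), zero_mul]
  · rw [indicator_of_notMem (by simpa using h0), indicator_of_notMem (fun h => h0 h.1)]

/-- speck integral in dimension 2 -/
lemma K2_eq {c : ℝ} (hc : 0 < c) :
    ∫⁻ y, ∫⁻ a, ∫⁻ b, ENNReal.ofReal (y - c*√(a^2 + b^2)) ∂gR ∂gR ∂gR
      = ENNReal.ofReal (phi0 * (1 - c * arctan (1/c))) := by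
  have h : ∀ y, ∫⁻ a, ∫⁻ b, ENNReal.ofReal (y - c*√(a^2 + b^2)) ∂gR ∂gR
      = ∫⁻ r in Ioi 0, ENNReal.ofReal (r^1 * gw r) * ENNReal.ofReal (y - c*r) := fun y => by
    rw [polar_radial (fun r => ENNReal.ofReal (y - c*r)) (by fun_prop)]; simp only [pow_one]
  simp only [h]
  rw [K_swap 1 hc]
  have h2 : ∀ s ∈ Ioi (0:ℝ), ENNReal.ofReal (phi0 * ((1 - c*s) * s^1)) *
      ∫⁻ y in Ioi 0, ENNReal.ofReal (y^(1+2) * exp (-((1+s^2)/2) * y^2))
      = ENNReal.ofReal (phi0 * ((1 - c*s) * s)) * ENNReal.ofReal (2 / (1+s^2)^2) := fun s hs => by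
    rw [lintegral_moment (1+2) (show 0 < (1+s^2)/2 by positivity), pow_one]
    congr 2
    have hG : Gamma 2 = 1 := by
      rw [show (2:ℝ) = ((1:ℕ):ℝ) + 1 by norm_num, Real.Gamma_nat_eq_factorial]; norm_num
    push_cast; norm_num [hG]
    field_simp
  rw [setLIntegral_congr_fun measurableSet_Ioi h2,
    K_restrict hc (fun s => phi0 * ((1 - c*s) * s)) (fun s => 2 / (1+s^2)^2)
    (fun s h0 h1 => by
      have : c*s < 1 := by rw [lt_div_iff₀ hc] at h1; linarith
      exact mul_nonneg phi0_pos.le (mul_nonneg (by linarith) h0.le))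
    (fun s h1 => by
      have : 1 ≤ c*s := by rw [div_le_iff₀ hc] at h1; linarith
      exact mul_nonpos_of_nonneg_of_nonpos phi0_pos.le (mul_nonpos_of_nonpos_of_nonneg (by linarith)
        (le_trans (by positivity) h1)))
    (fun s => by positivity) (Continuous.mul (by fun_prop)
      (continuous_const.div (by fun_prop) fun s => by positivity))]
  congr 1
  have hd : ∀ s ∈ uIcc 0 (1/c), HasDerivAt
      (fun s => phi0 * (-(1+s^2)⁻¹ + c * (s/(1+s^2) - arctan s)))
      (phi0 * ((1 - c*s) * s) * (2/(1+s^2)^2)) s := by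
    intro s _
    have h1 : HasDerivAt (fun s : ℝ => 1 + s^2) (2*s) s := by
      simpa using (hasDerivAt_pow 2 s).const_add 1
    have hne : (1 + s^2) ≠ 0 := by positivity
    have := (((h1.inv hne).neg).add ((((hasDerivAt_id s).div h1 hne).sub (hasDerivAt_arctan s)).const_mul c)).const_mul phi0
    refine this.congr_deriv ?_
    field_simp; simp only [id_eq]; ring
  rw [intervalIntegral.integral_eq_sub_of_hasDerivAt hd (by
    apply Continuous.intervalIntegrable
    exact Continuous.mul (by fun_prop) (continuous_const.div (by fun_prop) fun s => by positivity))]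
  simp
  field_simp
  ring

/-- speck integral in dimension 3 -/
lemma K3_eq {u : ℝ} (hu : 0 < u) (hu1 : u < 1) :
    ∫⁻ y, ∫⁻ a, ∫⁻ b, ∫⁻ d, ENNReal.ofReal (y - (1/u - u)/2*√(a^2 + (b^2 + d^2))) ∂gR ∂gR ∂gR ∂gR
      = ENNReal.ofReal (phi0 * (2*u^3/(1+u^2))) := by
  set c := (1/u - u)/2 with hc_def
  have hc : 0 < c := by
    have : 1 < 1/u := by rw [lt_div_iff₀ hu]; linarith
    rw [hc_def]; linarith
  have h : ∀ y, ∫⁻ a, ∫⁻ b, ∫⁻ d, ENNReal.ofReal (y - c*√(a^2 + (b^2 + d^2))) ∂gR ∂gR ∂gR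
      = ENNReal.ofReal (2*phi0) * ∫⁻ r in Ioi 0, ENNReal.ofReal (r^2 * gw r) * ENNReal.ofReal (y - c*r) := fun y => by
    rw [radial3 (fun _ r => ENNReal.ofReal (y - c*r)) (by fun_prop), ← lintegral_const_mul _ (by fun_prop)]
    refine setLIntegral_congr_fun measurableSet_Ioi fun r hr => ?_
    have hr0 : (0:ℝ) < r := hr
    have := gw_pos r; have := phi0_pos
    simp only [setLIntegral_const, Real.volume_Ioo]
    rw [mul_comm (ENNReal.ofReal (y - c*r)) _, ← mul_assoc, ← mul_assoc (ENNReal.ofReal (2*phi0)),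
      ← ENNReal.ofReal_mul (show 0 ≤ phi0 * (r * gw r) by positivity),
      ← ENNReal.ofReal_mul (show 0 ≤ 2*phi0 by positivity)]
    ring_nf
  simp only [h]
  rw [lintegral_const_mul _ (Measurable.lintegral_prod_right
    (f := fun y r => ENNReal.ofReal (r^2 * gw r) * ENNReal.ofReal (y - c*r)) (by fun_prop)), K_swap 2 hc]
  have h2 : ∀ s ∈ Ioi (0:ℝ), ENNReal.ofReal (phi0 * ((1 - c*s) * s^2)) *
      ∫⁻ y in Ioi 0, ENNReal.ofReal (y^(2+2) * exp (-((1+s^2)/2) * y^2))
      = ENNReal.ofReal (phi0 * ((1 - c*s) * s^2)) * ENNReal.ofReal (3*√(2*π)/2 / ((1+s^2)^2 * √(1+s^2))) := fun s hs => by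
    rw [lintegral_moment (2+2) (show 0 < (1+s^2)/2 by positivity)]
    congr 2
    have hG : Gamma (5/2) = 3/4*√π := by
      rw [show (5:ℝ)/2 = (1/2 + 1) + 1 by norm_num, Real.Gamma_add_one (by norm_num),
        Real.Gamma_add_one (by norm_num), Real.Gamma_one_half_eq]; ring
    push_cast
    rw [show ((4:ℝ) + 1)/2 = 5/2 by norm_num, hG,
      show -((4:ℝ) + 1)/2 = -((2:ℕ) + 1/2) by norm_num, Real.rpow_neg (by positivity),
      Real.rpow_add (by positivity), Real.rpow_natCast, ← Real.sqrt_eq_rpow,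
      Real.sqrt_div' _ (by norm_num : (0:ℝ) ≤ 2), Real.sqrt_mul (by norm_num : (0:ℝ) ≤ 2)]
    field_simp; ring
  rw [setLIntegral_congr_fun measurableSet_Ioi h2,
    K_restrict hc (fun s => phi0 * ((1 - c*s) * s^2)) (fun s => 3*√(2*π)/2 / ((1+s^2)^2 * √(1+s^2)))
    (fun s h0 h1 => by
      have : c*s < 1 := by rw [lt_div_iff₀ hc] at h1; linarith
      exact mul_nonneg phi0_pos.le (mul_nonneg (by linarith) (sq_nonneg _)))
    (fun s h1 => by
      have : 1 ≤ c*s := by rw [div_le_iff₀ hc] at h1; linarith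
      exact mul_nonpos_of_nonneg_of_nonpos phi0_pos.le (mul_nonpos_of_nonpos_of_nonneg (by linarith)
        (sq_nonneg _)))
    (fun s => by positivity) (Continuous.mul (by fun_prop)
      (continuous_const.div (by fun_prop) fun s => by positivity))]
  rw [← ENNReal.ofReal_mul (by linarith [phi0_pos])]
  congr 1
  have hd : ∀ s ∈ uIcc 0 (1/c), HasDerivAt
      (fun s => phi0 * (√(2*π)/2) * ((s^3 + c*(3*s^2+2)) / ((1+s^2) * √(1+s^2))))
      (phi0 * ((1 - c*s) * s^2) * (3*√(2*π)/2 / ((1+s^2)^2 * √(1+s^2)))) s := by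
    intro s _
    have h1 : HasDerivAt (fun s : ℝ => 1 + s^2) (2*s) s := by
      simpa using (hasDerivAt_pow 2 s).const_add 1
    have hne : (1 + s^2) ≠ 0 := by positivity
    have hsq : 0 < √(1 + s^2) := by positivity
    have hnum : HasDerivAt (fun s : ℝ => s^3 + c*(3*s^2+2)) (3*s^2 + c*(6*s)) s := by
      refine ((hasDerivAt_pow 3 s).add ((((hasDerivAt_pow 2 s).const_mul 3).add_const 2).const_mul c)).congr_deriv ?_
      push_cast; ring
    have := (hnum.div (h1.mul (h1.sqrt hne)) (mul_ne_zero hne hsq.ne')).const_mul (phi0 * (√(2*π)/2))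
    refine this.congr_deriv ?_
    have e := Real.sq_sqrt (show 0 ≤ 1 + s^2 by positivity)
    simp only [Pi.mul_apply]
    field_simp
    rw [e]; ring
  rw [intervalIntegral.integral_eq_sub_of_hasDerivAt hd (by
    apply Continuous.intervalIntegrable
    exact Continuous.mul (by fun_prop) (continuous_const.div (by fun_prop) fun s => by positivity))]
  have hx : 1/c = 2*u/(1-u^2) := by
    rw [hc_def]; field_simp
  have hs : √(1 + (1/c)^2) = (1+u^2)/(1-u^2) := by
    have : 0 < 1 - u^2 := by nlinarith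
    rw [hx, show 1 + (2*u/(1-u^2))^2 = ((1+u^2)/(1-u^2))^2 by field_simp; ring,
      Real.sqrt_sq (by positivity)]
  have h1u : 1 - u^2 ≠ 0 := by nlinarith
  have hφ := phi0_mul_sqrt
  rw [Real.sqrt_mul (by norm_num : (0:ℝ) ≤ 2)] at hφ
  rw [hs, hx]
  norm_num
  rw [hc_def]
  linear_combination (norm := (field_simp; ring)) (phi0 * (2*u^3/(1+u^2))) * hφ

end Vale.P226
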