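import Vale.Agent.P226.Psi

/-! # The planar bound and the decoupling inequality (P226) -/

open MeasureTheory ProbabilityTheory Set Real
open scoped ENNReal NNReal

namespace Vale.P226


lemma gR_Ioo (m w : ℝ) (hw : 0 ≤ w) :
    gR (Ioo (m - w) (m + w)) = ∫⁻ t in Ioo (-w) w, ENNReal.ofReal (phi0 * gw (t + m)) := by
  have h1 : gR (Ioo (m - w) (m + w))
      = ∫⁻ x in Ioo (m - w) (m + w), ENNReal.ofReal (phi0 * gw x) := by
    rw [← lintegral_indicator_one measurableSet_Ioo,
      lintegral_gR _ (measurable_one.indicator measurableSet_Ioo),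
      ← lintegral_indicator measurableSet_Ioo]
    refine lintegral_congr fun x => ?_
    by_cases hx : x ∈ Ioo (m - w) (m + w) <;> simp [hx]
  rw [h1, ← lintegral_indicator measurableSet_Ioo, ← lintegral_indicator measurableSet_Ioo,
    ← lintegral_add_right_eq_self _ m]
  refine lintegral_congr fun t => ?_
  by_cases ht : t ∈ Ioo (-w) w
  · rw [indicator_of_mem ht, indicator_of_mem]
    exact ⟨by linarith [ht.1], by linarith [ht.2]⟩
  · rw [indicator_of_notMem ht, indicator_of_notMem]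
    exact fun h => ht ⟨by linarith [h.1], by linarith [h.2]⟩

lemma gR_Ioo_real (m w : ℝ) (hw : 0 ≤ w) :
    gR (Ioo (m - w) (m + w)) = ENNReal.ofReal (phi0 * ∫ t in (m - w)..(m + w), gw t) := by
  rw [gR_Ioo m w hw, ofReal_Ioo (by linarith) (by fun_prop)
    (fun x _ => mul_nonneg phi0_pos.le (gw_pos _).le), intervalIntegral.integral_const_mul,
    intervalIntegral.integral_comp_add_right gw]
  ring_nf

lemma gR_Ioo_neg (m w : ℝ) (hw : 0 ≤ w) :
    gR (Ioo (-m - w) (-m + w)) = gR (Ioo (m - w) (m + w)) := by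
  rw [gR_Ioo_real _ _ hw, gR_Ioo_real _ _ hw]
  congr 2
  have h := intervalIntegral.integral_comp_neg gw (a := -m - w) (b := -m + w)
  have e : ∀ x, gw (-x) = gw x := fun x => by simp [gw]
  simp only [e] at h
  rw [h]; ring_nf

/-- one-dimensional Anderson inequality -/
lemma gR_Ioo_anti {m m' w : ℝ} (hw : 0 ≤ w) (h : |m| ≤ |m'|) :
    gR (Ioo (m' - w) (m' + w)) ≤ gR (Ioo (m - w) (m + w)) := by
  have habs : ∀ x, gR (Ioo (x - w) (x + w)) = gR (Ioo (|x| - w) (|x| + w)) := fun x => by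
    rcases le_total 0 x with hx | hx
    · rw [abs_of_nonneg hx]
    · rw [abs_of_nonpos hx, gR_Ioo_neg x w hw]
  rw [habs m, habs m', gR_Ioo_real _ _ hw, gR_Ioo_real _ _ hw]
  refine ENNReal.ofReal_le_ofReal (mul_le_mul_of_nonneg_left ?_ phi0_pos.le)
  have hi : ∀ a b, IntervalIntegrable gw volume a b := fun a b => continuous_gw.intervalIntegrable a b
  have key : ∫ t in (|m| - w)..(|m'| - w), gw t ≥ ∫ t in (|m| + w)..(|m'| + w), gw t := by
    rw [← intervalIntegral.integral_comp_sub_right gw w, ← intervalIntegral.integral_comp_add_right gw w]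
    refine intervalIntegral.integral_mono_on h
      ((continuous_gw.comp (by fun_prop)).intervalIntegrable _ _)
      ((continuous_gw.comp (by fun_prop)).intervalIntegrable _ _) fun t ht => ?_
    have : 0 ≤ t := le_trans (abs_nonneg m) ht.1
    unfold gw
    exact exp_le_exp.mpr (by nlinarith)
  have e1 := intervalIntegral.integral_add_adjacent_intervals (hi (|m| - w) (|m'| - w)) (hi (|m'| - w) (|m'| + w))
  have e2 := intervalIntegral.integral_add_adjacent_intervals (hi (|m| - w) (|m| + w)) (hi (|m| + w) (|m'| + w))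
  linarith

lemma lintegral_gauss_shift (k t : ℝ) :
    ∫⁻ b, ENNReal.ofReal (phi0 * gw (t + k*b)) ∂gR ≤ ENNReal.ofReal (phi0 / √(1 + k^2)) := by
  have hpos : 0 < 1 + k^2 := by positivity
  rw [lintegral_gR _ (by fun_prop)]
  have e : ∀ b, ENNReal.ofReal (phi0 * gw b) * ENNReal.ofReal (phi0 * gw (t + k*b))
      ≤ ENNReal.ofReal (phi0 * phi0 * exp (-((1+k^2)/2) * (b + k*t/(1+k^2))^2)) := fun b => by
    rw [← ENNReal.ofReal_mul (mul_nonneg phi0_pos.le (gw_pos _).le)]
    refine ENNReal.ofReal_le_ofReal ?_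
    rw [show phi0 * gw b * (phi0 * gw (t + k*b)) = phi0 * phi0 * (gw b * gw (t + k*b)) by ring]
    refine mul_le_mul_of_nonneg_left ?_ (mul_nonneg phi0_pos.le phi0_pos.le)
    unfold gw
    rw [← exp_add]
    refine exp_le_exp.mpr ?_
    have e2 : (1+k^2)/2 * (b + k*t/(1+k^2))^2 + t^2/(2*(1+k^2)) = b^2/2 + (t + k*b)^2/2 := by
      field_simp; ring
    have : 0 ≤ t^2/(2*(1+k^2)) := by positivity
    linarith
  refine (lintegral_mono e).trans ?_
  rw [lintegral_add_right_eq_self (fun b => ENNReal.ofReal (phi0 * phi0 * exp (-((1+k^2)/2) * b^2))) (k*t/(1+k^2)),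
    ← ofReal_integral_eq_lintegral_ofReal
      ((integrable_exp_neg_mul_sq (show 0 < (1+k^2)/2 by positivity)).const_mul _)
      (ae_of_all _ fun b => mul_nonneg (mul_self_nonneg _) (exp_nonneg _)), integral_const_mul, integral_gaussian]
  refine ENNReal.ofReal_le_ofReal (le_of_eq ?_)
  rw [show π / ((1+k^2)/2) = 2*π/(1+k^2) by field_simp, Real.sqrt_div' _ hpos.le]
  have := phi0_mul_sqrt
  field_simp
  linear_combination phi0 * this

/-- `P(|a - cos θ √(a²+b²)| < u) ≤ 2 φ₀ u / sin θ` -/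
lemma small_ball {c s u : ℝ} (hs : 0 < s) (hcs : c^2 + s^2 = 1) (hu : 0 < u) :
    ∫⁻ b, gR {a | |a - c*√(a^2 + b^2)| < u} ∂gR ≤ ENNReal.ofReal (2 * phi0 * u / s) := by
  set k := c / s with hk
  set w := u / s^2 with hw
  have hw0 : 0 ≤ w := by positivity
  have hc1 : |c| < 1 := by
    rw [abs_lt]; constructor <;> nlinarith [sq_pos_of_pos hs]
  have hb : ∀ b, gR {a | |a - c*√(a^2 + b^2)| < u} ≤ gR (Ioo (k*b - w) (k*b + w)) := by
    intro b
    set D := √(u^2 + s^2*b^2) with hD
    have hDu : u ≤ D := by rw [hD]; exact Real.le_sqrt_of_sq_le (by nlinarith [sq_nonneg (s*b)])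
    have hD2 : D^2 = u^2 + s^2*b^2 := Real.sq_sqrt (by positivity)
    have hmono : StrictMono fun a => a - c*√(a^2 + b^2) := by
      intro x y hxy
      have hl : |√(y^2 + b^2) - √(x^2 + b^2)| ≤ |y - x| := by
        have := abs_norm_sub_norm_le (WithLp.toLp 2 (y, b)) (WithLp.toLp 2 (x, b))
        simpa [WithLp.prod_norm_eq_of_L2, Real.sqrt_sq_eq_abs, ← WithLp.toLp_sub] using this
      have h2 : c * (√(y^2 + b^2) - √(x^2 + b^2)) < y - x := by
        calc c * (√(y^2 + b^2) - √(x^2 + b^2)) ≤ |c| * |√(y^2 + b^2) - √(x^2 + b^2)| := by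
              rw [← abs_mul]; exact le_abs_self _
          _ ≤ |c| * |y - x| := mul_le_mul_of_nonneg_left hl (abs_nonneg _)
          _ < y - x := by rw [abs_of_pos (sub_pos.mpr hxy)]; nlinarith
      simp only; nlinarith
    have hroot : ∀ σ : ℝ, σ^2 = u^2 →
        (c*D + σ)/s^2 - c*√(((c*D + σ)/s^2)^2 + b^2) = σ := by
      intro σ hσ
      have h0 : 0 ≤ (D + c*σ)/s^2 := by
        have : |c*σ| ≤ u := by
          rw [abs_mul, (sq_eq_sq_iff_abs_eq_abs σ u).mp hσ, abs_of_pos hu]; nlinarith [abs_nonneg c]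
        exact div_nonneg (by linarith [neg_abs_le (c*σ)]) (sq_nonneg s)
      rw [show ((c*D + σ)/s^2)^2 + b^2 = ((D + c*σ)/s^2)^2 by
        field_simp
        linear_combination (c^2 - 1) * hD2 + (1 - c^2) * hσ + s^2 * b^2 * hcs, Real.sqrt_sq h0]
      field_simp
      linear_combination (-σ) * hcs
    calc gR {a | |a - c*√(a^2 + b^2)| < u} ≤ gR (Ioo (c*D/s^2 - w) (c*D/s^2 + w)) := by
          refine measure_mono fun a ha => ?_
          rw [mem_setOf_eq, abs_lt] at ha
          constructor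
          · refine hmono.lt_iff_lt.mp ?_
            rw [show c*D/s^2 - w = (c*D + -u)/s^2 by rw [hw]; ring, hroot (-u) (by ring)]
            exact ha.1
          · refine hmono.lt_iff_lt.mp ?_
            rw [show c*D/s^2 + w = (c*D + u)/s^2 by rw [hw]; ring, hroot u rfl]
            exact ha.2
      _ ≤ _ := by
          refine gR_Ioo_anti hw0 ?_
          rw [hk, abs_mul, abs_div, abs_div, abs_mul, abs_of_pos hs, abs_of_pos (pow_pos hs 2),
            abs_of_nonneg (le_trans hu.le hDu)]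
          have : s * |b| ≤ D := by
            refine Real.le_sqrt_of_sq_le ?_
            rw [mul_pow, sq_abs]; nlinarith
          rw [div_mul_eq_mul_div, div_le_div_iff₀ hs (pow_pos hs 2)]
          have := mul_le_mul_of_nonneg_left this (mul_nonneg (abs_nonneg c) hs.le)
          linarith
  refine (lintegral_mono hb).trans ?_
  simp only [gR_Ioo _ _ hw0]
  rw [lintegral_lintegral_swap (by fun_prop)]
  refine (lintegral_mono fun t => lintegral_gauss_shift k t).trans ?_
  have hk1 : √(1 + k^2) = 1/s := by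
    rw [show 1 + k^2 = (1/s)^2 by rw [hk]; field_simp; linarith, Real.sqrt_sq (by positivity)]
  rw [setLIntegral_const, Real.volume_Ioo, hk1, ← ENNReal.ofReal_mul (by have := phi0_pos; positivity)]
  refine ENNReal.ofReal_le_ofReal (le_of_eq ?_)
  rw [hw]; field_simp; ring

/-- the planar integral without a perpendicular part -/
lemma psi2_zero {θ : ℝ} (hθ0 : 0 ≤ θ) (hθ : θ ≤ π) :
    ∫⁻ a, ∫⁻ b, ENNReal.ofReal (a - cos θ * √(a^2 + b^2)) ∂gR ∂gR = ENNReal.ofReal (phi0 * (sin θ - θ * cos θ)) := by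
  rw [radial2 (fun a r => ENNReal.ofReal (a - cos θ * r)) (by fun_prop)]
  have hJ : ∫ φ in (-θ)..θ, (cos φ - cos θ) = 2 * (sin θ - θ * cos θ) := by
    rw [intervalIntegral.integral_sub (continuous_cos.intervalIntegrable _ _) intervalIntegrable_const,
      integral_cos, intervalIntegral.integral_const, sin_neg, smul_eq_mul]; ring
  have hnn : ∀ φ ∈ Ioo (-θ) θ, 0 ≤ cos φ - cos θ := fun φ hφ => by
    rw [sub_nonneg, ← cos_abs φ]
    exact cos_le_cos_of_nonneg_of_le_pi (abs_nonneg _) hθ (abs_le.mpr ⟨hφ.1.le, hφ.2.le⟩)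
  have hJ0 : 0 ≤ sin θ - θ * cos θ := by
    have := intervalIntegral.integral_nonneg (μ := volume) (show -θ ≤ θ by linarith)
      (f := fun φ => cos φ - cos θ) (fun φ hφ => by
        rw [sub_nonneg, ← cos_abs φ]
        exact cos_le_cos_of_nonneg_of_le_pi (abs_nonneg _) hθ (abs_le.mpr ⟨hφ.1, hφ.2⟩))
    linarith [hJ]
  have h : ∀ r ∈ Ioi (0:ℝ), ENNReal.ofReal ((2*π)⁻¹ * (r * gw r)) *
      ∫⁻ φ in Ioo (-π) π, ENNReal.ofReal (r * cos φ - cos θ * r)
      = ENNReal.ofReal ((2*π)⁻¹ * (2*(sin θ - θ * cos θ))) * ENNReal.ofReal (r^2 * gw r) := fun r hr => by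
    have hr0 : (0:ℝ) < r := hr
    have e : ∀ φ, ENNReal.ofReal (r * cos φ - cos θ * r) = ENNReal.ofReal r * ENNReal.ofReal (cos φ - cos θ) := fun φ => by
      rw [← ENNReal.ofReal_mul hr0.le]; ring_nf
    simp only [e]
    rw [lintegral_const_mul _ (by fun_prop)]
    have e2 : ∫⁻ φ in Ioo (-π) π, ENNReal.ofReal (cos φ - cos θ) = ∫⁻ φ in Ioo (-θ) θ, ENNReal.ofReal (cos φ - cos θ) := by
      rw [← lintegral_indicator measurableSet_Ioo, ← lintegral_indicator measurableSet_Ioo]
      refine lintegral_congr fun φ => ?_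
      by_cases h1 : φ ∈ Ioo (-π) π
      · by_cases h2 : φ ∈ Ioo (-θ) θ
        · rw [indicator_of_mem h1, indicator_of_mem h2]
        · rw [indicator_of_mem h1, indicator_of_notMem h2, ENNReal.ofReal_of_nonpos]
          rw [sub_nonpos, ← cos_abs φ]
          refine cos_le_cos_of_nonneg_of_le_pi hθ0 (abs_le.mpr ⟨h1.1.le, h1.2.le⟩) ?_
          by_contra h3
          exact h2 (abs_lt.mp (not_le.mp h3))
      · rw [indicator_of_notMem h1, indicator_of_notMem]
        exact fun h => h1 ⟨by linarith [h.1], by linarith [h.2]⟩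
    rw [e2, ofReal_Ioo (by linarith) (by fun_prop) hnn, hJ]
    have := gw_pos r
    rw [← ENNReal.ofReal_mul hr0.le, ← ENNReal.ofReal_mul (by positivity),
      ← ENNReal.ofReal_mul (by positivity)]
    ring_nf
  rw [setLIntegral_congr_fun measurableSet_Ioi h, lintegral_const_mul _ (by fun_prop),
    lintegral_gw_moment, moment2, ← ENNReal.ofReal_mul (mul_nonneg (by positivity) (by linarith))]
  congr 1
  unfold phi0
  have := Real.mul_self_sqrt (show 0 ≤ 2*π by positivity)
  field_simp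
  linear_combination (sin θ - θ * cos θ) * this

lemma pp_symm (Y η : ℝ) : ENNReal.ofReal (Y + η) + ENNReal.ofReal (Y - η) = 2 * ENNReal.ofReal Y + ENNReal.ofReal (|η| - |Y|) := by
  have h2 : (2:ℝ≥0∞) * ENNReal.ofReal Y = ENNReal.ofReal Y + ENNReal.ofReal Y := two_mul _
  rw [h2]
  wlog hη : 0 ≤ η generalizing η
  · have := this (-η) (by linarith)
    rw [abs_neg] at this
    rw [add_comm (ENNReal.ofReal (Y + η))]
    simpa [sub_eq_add_neg] using this
  rw [abs_of_nonneg hη]
  rcases le_total 0 Y with hY | hY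
  · rw [abs_of_nonneg hY]
    rcases le_total η Y with h | h
    · rw [ENNReal.ofReal_of_nonpos (p := η - Y) (by linarith), add_zero,
        ← ENNReal.ofReal_add (by linarith) (by linarith), ← ENNReal.ofReal_add hY hY]; ring_nf
    · rw [ENNReal.ofReal_of_nonpos (p := Y - η) (by linarith), add_zero,
        ← ENNReal.ofReal_add hY hY, ← ENNReal.ofReal_add (by linarith) (by linarith)]; ring_nf
  · rw [abs_of_nonpos hY, ENNReal.ofReal_of_nonpos (p := Y - η) (by linarith),
      ENNReal.ofReal_of_nonpos hY, add_zero, zero_add, zero_add]; ring_nf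

/-- dimension 2, big cell -/
lemma psi2_le {θ : ℝ} (hθ0 : 0 < θ) (hθ : θ < π) (M : ℝ) :
    ∫⁻ y, ∫⁻ a, ∫⁻ b, ENNReal.ofReal (a + M*y - cos θ * √(a^2 + b^2)) ∂gR ∂gR ∂gR
      ≤ ENNReal.ofReal (phi0 * (sin θ - θ * cos θ + M^2/(2*sin θ))) := by
  have hs : 0 < sin θ := sin_pos_of_pos_of_lt_pi hθ0 hθ
  set c := cos θ
  set Y : ℝ → ℝ → ℝ := fun a b => a - c*√(a^2 + b^2) with hY
  set T : ℝ → ℝ≥0∞ := fun η => ∫⁻ a, ∫⁻ b, ENNReal.ofReal (Y a b + η) ∂gR ∂gR with hT
  have hYm : Measurable (Function.uncurry Y) := by rw [hY]; fun_prop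
  have hJ0 : 0 ≤ sin θ - θ * c := by
    have hc1 : ∫ φ in (0:ℝ)..θ, (cos φ - c) = sin θ - θ * c := by
      rw [intervalIntegral.integral_sub (continuous_cos.intervalIntegrable _ _) intervalIntegrable_const,
        integral_cos, intervalIntegral.integral_const, sin_zero, smul_eq_mul]; ring
    rw [← hc1]
    refine intervalIntegral.integral_nonneg hθ0.le fun φ hφ => ?_
    rw [sub_nonneg]
    exact cos_le_cos_of_nonneg_of_le_pi hφ.1 hθ.le hφ.2
  have key : ∀ η, T η + T (-η) ≤ ENNReal.ofReal (2 * (phi0 * (sin θ - θ * c)) + phi0 * η^2/sin θ) := fun η => by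
    simp only [hT]
    rw [← lintegral_add_left (Measurable.lintegral_prod_right (f := fun a b => ENNReal.ofReal (Y a b + η)) (by rw [hY]; fun_prop))]
    have : ∀ a, ∫⁻ b, ENNReal.ofReal (Y a b + η) ∂gR + ∫⁻ b, ENNReal.ofReal (Y a b + -η) ∂gR
        = ∫⁻ b, 2 * ENNReal.ofReal (Y a b) ∂gR + ∫⁻ b, ENNReal.ofReal (|η| - |Y a b|) ∂gR := fun a => by
      rw [← lintegral_add_left (by rw [hY]; fun_prop), ← lintegral_add_left (by rw [hY]; fun_prop)]
      exact lintegral_congr fun b => by rw [← sub_eq_add_neg, pp_symm]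
    simp only [this]
    rw [lintegral_add_left (Measurable.lintegral_prod_right (f := fun a b => 2 * ENNReal.ofReal (Y a b)) (by rw [hY]; fun_prop))]
    have h1 : ∫⁻ a, ∫⁻ b, 2 * ENNReal.ofReal (Y a b) ∂gR ∂gR = ENNReal.ofReal (2 * (phi0 * (sin θ - θ * c))) := by
      rw [ENNReal.ofReal_mul (by norm_num : (0:ℝ) ≤ 2), ← psi2_zero hθ0.le hθ.le,
        show ENNReal.ofReal (2:ℝ) = 2 by norm_num, ← lintegral_const_mul _ (Measurable.lintegral_prod_right
          (f := fun a b => ENNReal.ofReal (Y a b)) (by rw [hY]; fun_prop))]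
      exact lintegral_congr fun a => lintegral_const_mul _ (by rw [hY]; fun_prop)
    have h2 : ∫⁻ a, ∫⁻ b, ENNReal.ofReal (|η| - |Y a b|) ∂gR ∂gR ≤ ENNReal.ofReal (phi0 * η^2/sin θ) := by
      rw [lintegral_lintegral_swap (by rw [hY]; fun_prop)]
      have e : ∀ b a, ENNReal.ofReal (|η| - |Y a b|)
          = ∫⁻ u in Ioo (0:ℝ) |η|, ({p : ℝ × ℝ | |Y p.1 b| < p.2}.indicator (1 : ℝ × ℝ → ℝ≥0∞) (a, u)) := fun b a => by
        rw [← lintegral_indicator measurableSet_Ioo]
        calc ENNReal.ofReal (|η| - |Y a b|) = volume (Ioo |Y a b| |η|) := (Real.volume_Ioo).symm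
          _ = ∫⁻ u, (Ioo |Y a b| |η|).indicator 1 u := (lintegral_indicator_one measurableSet_Ioo).symm
          _ = _ := lintegral_congr fun u => by
            by_cases h1 : |Y a b| < u <;> by_cases h2 : u < |η| <;> by_cases h3 : 0 < u <;>
              simp [h1, h2, h3]
            exact absurd (lt_of_le_of_lt (abs_nonneg _) h1) h3
      simp only [e]
      have hYb : ∀ b, Measurable fun a => |Y a b| := fun b => by rw [hY]; fun_prop
      have e2 : ∀ b, ∫⁻ a, (∫⁻ u in Ioo (0:ℝ) |η|, ({p : ℝ × ℝ | |Y p.1 b| < p.2}.indicator (1 : ℝ × ℝ → ℝ≥0∞) (a, u))) ∂gR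
          = ∫⁻ u in Ioo (0:ℝ) |η|, gR {a | |Y a b| < u} := fun b => by
        rw [lintegral_lintegral_swap]
        swap
        · exact (measurable_one.indicator
            (measurableSet_lt ((hYb b).comp measurable_fst) measurable_snd)).aemeasurable
        apply lintegral_congr
        intro u
        rw [← lintegral_indicator_one (measurableSet_lt (hYb b) measurable_const)]
        exact lintegral_congr fun a => by simp [Set.indicator]
      simp only [e2]
      have hm : Measurable (Function.uncurry fun b u => gR {a | |Y a b| < u}) :=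
        measurable_measure_prodMk_left (ν := gR) (s := {q : (ℝ × ℝ) × ℝ | |Y q.2 q.1.1| < q.1.2})
          (measurableSet_lt (by rw [hY]; fun_prop) (by fun_prop))
      rw [lintegral_lintegral_swap hm.aemeasurable]
      have hb : ∀ u ∈ Ioo (0:ℝ) |η|, ∫⁻ b, gR {a | |Y a b| < u} ∂gR ≤ ENNReal.ofReal (2 * phi0 * u / sin θ) :=
        fun u hu => small_ball hs (cos_sq_add_sin_sq θ) hu.1
      refine (setLIntegral_mono (by fun_prop) hb).trans ?_
      rw [ofReal_Ioo (abs_nonneg η) (by fun_prop)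
        (fun u hu => div_nonneg (mul_nonneg (by linarith [phi0_pos]) hu.1.le) hs.le),
        intervalIntegral.integral_div, intervalIntegral.integral_const_mul, integral_id, sq_abs]
      exact ENNReal.ofReal_le_ofReal (le_of_eq (by ring))
    rw [ENNReal.ofReal_add (mul_nonneg (by norm_num) (mul_nonneg phi0_pos.le hJ0))
      (by have := phi0_pos; positivity)]
    exact add_le_add h1.le h2
  have hTm : Measurable T := Measurable.lintegral_prod_right
    (f := fun η a => ∫⁻ b, ENNReal.ofReal (Y a b + η) ∂gR)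
    (Measurable.lintegral_prod_right (f := fun (p : ℝ × ℝ) b => ENNReal.ofReal (Y p.2 b + p.1)) (by rw [hY]; fun_prop))
  have hL : ∫⁻ y, ∫⁻ a, ∫⁻ b, ENNReal.ofReal (a + M*y - c * √(a^2 + b^2)) ∂gR ∂gR ∂gR = ∫⁻ y, T (M*y) ∂gR := by
    simp only [hT]
    exact lintegral_congr fun y => lintegral_congr fun a => lintegral_congr fun b => by
      rw [hY]; ring_nf
  rw [hL]
  have hsym : ∫⁻ y, T (M*y) ∂gR = ∫⁻ y, T (-(M*y)) ∂gR := by
    have : Measure.map (fun y : ℝ => -y) gR = gR := by rw [gR, gaussianReal_map_neg, neg_zero]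
    conv_lhs => rw [← this, lintegral_map (f := fun y => T (M*y)) (hTm.comp (by fun_prop)) measurable_neg]
    simp only [mul_neg]
  have h2 : 2 * ∫⁻ y, T (M*y) ∂gR
      ≤ ∫⁻ y, ENNReal.ofReal (2 * (phi0 * (sin θ - θ * c)) + phi0 * (M*y)^2/sin θ) ∂gR := by
    rw [two_mul]
    nth_rewrite 2 [hsym]
    have hTM : Measurable fun y => T (M*y) := hTm.comp (by fun_prop)
    rw [← lintegral_add_left hTM]
    exact lintegral_mono fun y => key (M*y)
  have hA : 0 ≤ 2 * (phi0 * (sin θ - θ * c)) := mul_nonneg (by norm_num) (mul_nonneg phi0_pos.le hJ0)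
  have h3 : ∫⁻ y, ENNReal.ofReal (2 * (phi0 * (sin θ - θ * c)) + phi0 * (M*y)^2/sin θ) ∂gR
      = 2 * ENNReal.ofReal (phi0 * (sin θ - θ * c + M^2/(2*sin θ))) := by
    have hφ := phi0_pos
    have e : ∀ y, ENNReal.ofReal (2 * (phi0 * (sin θ - θ * c)) + phi0 * (M*y)^2/sin θ)
        = ENNReal.ofReal (2 * (phi0 * (sin θ - θ * c))) + ENNReal.ofReal (phi0/sin θ) * ENNReal.ofReal ((0 + M*y)^2) := fun y => by
      rw [ENNReal.ofReal_add hA (by positivity), ← ENNReal.ofReal_mul (by positivity)]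
      ring_nf
    simp only [e]
    rw [lintegral_add_left measurable_const, lintegral_const, measure_univ, mul_one,
      lintegral_const_mul _ (by fun_prop), gauss_sq, ← ENNReal.ofReal_mul (by positivity),
      ← ENNReal.ofReal_add hA (by positivity), show (2:ℝ≥0∞) = ENNReal.ofReal 2 by norm_num,
      ← ENNReal.ofReal_mul (by norm_num)]
    ring_nf
  exact (ENNReal.mul_le_mul_iff_right two_ne_zero ENNReal.ofNat_ne_top).mp (h2.trans_eq h3)

/-- layer-cake formula for a positive part -/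
lemma layer {g : ℝ → ℝ} (hg : Measurable g) (hg0 : ∀ v, 0 ≤ g v) (x : ℝ) :
    ∫⁻ v, ENNReal.ofReal (x - g v) ∂gR
      = ∫⁻ t in Ioi (0:ℝ), (Iio x).indicator (fun t => gR {v | g v < t}) t := by
  have e : ∀ v, ENNReal.ofReal (x - g v) = ∫⁻ t in Ioi (0:ℝ), (Ioo (g v) x).indicator 1 t := fun v => by
    rw [setLIntegral_indicator measurableSet_Ioo, Pi.one_def, setLIntegral_one,
      show Ioo (g v) x ∩ Ioi 0 = Ioo (g v) x from
        inter_eq_left.mpr fun t h => lt_of_le_of_lt (hg0 v) h.1, Real.volume_Ioo]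
  simp only [e]
  have hm : Measurable (Function.uncurry fun v t => (Ioo (g v) x).indicator (1 : ℝ → ℝ≥0∞) t) := by
    have : (Function.uncurry fun v t => (Ioo (g v) x).indicator (1 : ℝ → ℝ≥0∞) t)
        = ({q : ℝ × ℝ | g q.1 < q.2} ∩ {q | q.2 < x}).indicator 1 := by
      funext q; obtain ⟨v, t⟩ := q
      by_cases h1 : g v < t <;> by_cases h2 : t < x <;> simp [h1, h2]
    rw [this]
    exact measurable_one.indicator ((measurableSet_lt (hg.comp measurable_fst) measurable_snd).inter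
      (measurableSet_lt measurable_snd measurable_const))
  rw [lintegral_lintegral_swap hm.aemeasurable]
  apply lintegral_congr
  intro t
  by_cases ht : t < x
  · rw [indicator_of_mem (show t ∈ Iio x from ht),
      ← lintegral_indicator_one (measurableSet_lt hg measurable_const)]
    exact lintegral_congr fun v => by by_cases h : g v < t <;> simp [h, ht]
  · rw [indicator_of_notMem (show t ∉ Iio x from ht)]
    refine (lintegral_congr fun v => indicator_of_notMem ?_ _).trans lintegral_zero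
    exact fun h => ht h.2

/-- correlation of `|w| > t` with a function decreasing in `|w|` -/
lemma threshold {F : ℝ → ℝ≥0∞} (hF : Measurable F) (hanti : ∀ w w', |w| ≤ |w'| → F w' ≤ F w)
    {t : ℝ} (ht : 0 ≤ t) : ∫⁻ w in Ioi t, F w ∂gR ≤ gR (Ioi t) * ∫⁻ w, F w ∂gR := by
  set B := {w : ℝ | t < |w|} with hB
  have hBm : MeasurableSet B := measurableSet_lt measurable_const (by fun_prop)
  have hin : ∫⁻ w in B, F w ∂gR ≤ F t * gR B := by
    rw [← setLIntegral_const]
    exact setLIntegral_mono' hBm fun w hw => hanti t w (by rw [abs_of_nonneg ht]; exact le_of_lt hw)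
  have hout : F t * gR Bᶜ ≤ ∫⁻ w in Bᶜ, F w ∂gR := by
    rw [← setLIntegral_const]
    exact setLIntegral_mono' hBm.compl fun w hw => hanti w t (by rw [abs_of_nonneg ht]; exact not_lt.mp hw)
  have hmain : ∫⁻ w in B, F w ∂gR ≤ (∫⁻ w, F w ∂gR) * gR B := by
    calc ∫⁻ w in B, F w ∂gR
        = (∫⁻ w in B, F w ∂gR) * gR B + (∫⁻ w in B, F w ∂gR) * gR Bᶜ := by
          rw [← mul_add, measure_add_measure_compl hBm, measure_univ, mul_one]
      _ ≤ (∫⁻ w in B, F w ∂gR) * gR B + (∫⁻ w in Bᶜ, F w ∂gR) * gR B := by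
          refine add_le_add le_rfl ?_
          calc (∫⁻ w in B, F w ∂gR) * gR Bᶜ ≤ F t * gR B * gR Bᶜ := mul_le_mul' hin le_rfl
            _ = F t * gR Bᶜ * gR B := by ring
            _ ≤ _ := mul_le_mul' hout le_rfl
      _ = _ := by rw [← add_mul, lintegral_add_compl _ hBm]
  have hBeq : B = Ioi t ∪ Iio (-t) := by
    ext w
    simp only [hB, mem_setOf_eq, lt_abs, mem_union, mem_Ioi, mem_Iio]
    constructor <;> rintro (h | h) <;> first | (left; linarith) | (right; linarith)
  have hdisj : Disjoint (Ioi t) (Iio (-t)) := by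
    rw [disjoint_left]; intro w h1 h2
    have := mem_Ioi.mp h1; have := mem_Iio.mp h2; linarith
  have hneg : Measure.map (fun y : ℝ => -y) gR = gR := by rw [gR, gaussianReal_map_neg, neg_zero]
  have hi : ∀ G : ℝ → ℝ≥0∞, Measurable G → (∀ w, G (-w) = G w) →
      ∫⁻ w in B, G w ∂gR = 2 * ∫⁻ w in Ioi t, G w ∂gR := fun G hG he => by
    rw [hBeq, lintegral_union measurableSet_Iio hdisj, two_mul]
    congr 1
    conv_lhs => rw [← hneg]
    rw [setLIntegral_map measurableSet_Iio hG measurable_neg]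
    simp only [he]
    congr 2
    ext w
    simp only [mem_preimage, mem_Iio, mem_Ioi, neg_lt_neg_iff]
  have hμB : gR B = 2 * gR (Ioi t) := by
    simpa using hi (fun _ => 1) measurable_const (fun _ => rfl)
  rw [hi F hF (fun w => le_antisymm (hanti _ _ (by rw [abs_neg])) (hanti _ _ (by rw [abs_neg]))),
    hμB, mul_left_comm] at hmain
  rw [mul_comm (gR (Ioi t))]
  exact (ENNReal.mul_le_mul_iff_right two_ne_zero ENNReal.ofNat_ne_top).mp hmain

lemma cyl_anti {a b c σ t : ℝ} (hc : 0 ≤ c) (ht : 0 < t) {w w' : ℝ} (h : |w| ≤ |w'|) :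
    gR {v | c*√((a*w' + b*v)^2 + σ) < t} ≤ gR {v | c*√((a*w + b*v)^2 + σ) < t} := by
  rcases eq_or_ne b 0 with rfl | hb
  · refine measure_mono fun v hv => ?_
    simp only [mem_setOf_eq, zero_mul, add_zero] at hv ⊢
    refine lt_of_le_of_lt (mul_le_mul_of_nonneg_left (Real.sqrt_le_sqrt ?_) hc) hv
    rw [mul_pow, mul_pow]
    have := pow_le_pow_left₀ (abs_nonneg w) h 2
    rw [sq_abs, sq_abs] at this
    nlinarith [sq_nonneg a]
  rcases eq_or_lt_of_le hc with rfl | hc0
  · simp [ht]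
  set ρ := √((t/c)^2 - σ) with hρ
  have hset : ∀ w, {v | c*√((a*w + b*v)^2 + σ) < t}
      = Ioo (-(a*w/b) - ρ/|b|) (-(a*w/b) + ρ/|b|) := fun w => by
    ext v
    have hb' : 0 < |b| := abs_pos.mpr hb
    rw [mem_setOf_eq, mem_Ioo]
    have h1 : c*√((a*w + b*v)^2 + σ) < t ↔ |a*w + b*v| < ρ := by
      rw [hρ, mul_comm, ← lt_div_iff₀ hc0, Real.sqrt_lt' (by positivity), ← Real.sqrt_sq_eq_abs,
        Real.sqrt_lt_sqrt_iff (sq_nonneg _)]
      constructor <;> intro h <;> linarith
    rw [h1, show a*w + b*v = b * (v - -(a*w/b)) by field_simp; ring, abs_mul, mul_comm,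
      ← lt_div_iff₀ hb', abs_lt]
    constructor <;> rintro ⟨h2, h3⟩ <;> constructor <;> linarith
  rw [hset w, hset w']
  refine gR_Ioo_anti (by positivity) ?_
  rw [abs_neg, abs_neg, abs_div, abs_div, abs_mul, abs_mul]
  exact div_le_div_of_nonneg_right (mul_le_mul_of_nonneg_left h (abs_nonneg a)) (abs_nonneg b)

lemma layer_swap (q : ℝ → ℝ → ℝ≥0∞) (hq : Measurable (Function.uncurry q)) :
    ∫⁻ x, (∫⁻ t in Ioi (0:ℝ), (Ioi t).indicator (q t) x) ∂gR
      = ∫⁻ t in Ioi (0:ℝ), (∫⁻ x in Ioi t, q t x ∂gR) := by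
  have hm : Measurable (Function.uncurry fun x t => (Ioi t).indicator (q t) x) := by
    have : (Function.uncurry fun x t => (Ioi t).indicator (q t) x)
        = {r : ℝ × ℝ | r.2 < r.1}.indicator (fun r => q r.2 r.1) := by
      funext r; obtain ⟨x, t⟩ := r; by_cases h : t < x <;> simp [h]
    rw [this]
    exact (hq.comp (by fun_prop : Measurable fun r : ℝ × ℝ => (r.2, r.1))).indicator
      (measurableSet_lt measurable_snd measurable_fst)
  rw [lintegral_lintegral_swap hm.aemeasurable]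
  exact lintegral_congr fun t => lintegral_indicator measurableSet_Ioi _

lemma cyl_measurable (a b c σ : ℝ) :
    Measurable (Function.uncurry fun t w => gR {v | c*√((a*w + b*v)^2 + σ) < t}) :=
  measurable_measure_prodMk_left (ν := gR)
    (s := {q : (ℝ × ℝ) × ℝ | c*√((a*q.1.2 + b*q.2)^2 + σ) < q.1.1})
    (measurableSet_lt (by fun_prop) (by fun_prop))

lemma layer_cyl {a b c σ : ℝ} (hc : 0 ≤ c) (x w : ℝ) :
    ∫⁻ v, ENNReal.ofReal (x - c*√((a*w + b*v)^2 + σ)) ∂gR
      = ∫⁻ t in Ioi (0:ℝ), (Ioi t).indicator (fun _ => gR {v | c*√((a*w + b*v)^2 + σ) < t}) x := by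
  rw [layer (g := fun v => c*√((a*w + b*v)^2 + σ)) (by fun_prop) (fun v => by positivity) x]
  refine setLIntegral_congr_fun measurableSet_Ioi fun t _ => ?_
  by_cases h : t < x
  · rw [indicator_of_mem (show t ∈ Iio x from h), indicator_of_mem (show x ∈ Ioi t from h)]
  · rw [indicator_of_notMem (show t ∉ Iio x from h), indicator_of_notMem (show x ∉ Ioi t from h)]

/-- averaged version of `layer_cyl` -/
lemma layer_avg (p : ℝ → ℝ → ℝ≥0∞) (hp : Measurable (Function.uncurry p)) (x : ℝ) :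
    ∫⁻ w, (∫⁻ t in Ioi (0:ℝ), (Ioi t).indicator (fun _ => p t w) x) ∂gR
      = ∫⁻ t in Ioi (0:ℝ), (Ioi t).indicator (fun _ => ∫⁻ w, p t w ∂gR) x := by
  have hm : Measurable (Function.uncurry fun w t => (Ioi t).indicator (fun _ => p t w) x) := by
    have : (Function.uncurry fun w t => (Ioi t).indicator (fun _ => p t w) x)
        = {r : ℝ × ℝ | r.2 < x}.indicator (fun r => p r.2 r.1) := by
      funext r; obtain ⟨w, t⟩ := r; by_cases h : t < x <;> simp [h]
    rw [this]
    exact (hp.comp (by fun_prop : Measurable fun r : ℝ × ℝ => (r.2, r.1))).indicator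
      (measurableSet_lt measurable_snd measurable_const)
  rw [lintegral_lintegral_swap hm.aemeasurable]
  refine lintegral_congr fun t => ?_
  by_cases h : x ∈ Ioi t
  · simp only [indicator_of_mem h]
  · simp only [indicator_of_notMem h, lintegral_zero]

/-- two-dimensional decoupling -/
lemma decouple2 {a b c σ : ℝ} (hc : 0 ≤ c) :
    ∫⁻ w, ∫⁻ v, ENNReal.ofReal (w - c*√((a*w + b*v)^2 + σ)) ∂gR ∂gR
      ≤ ∫⁻ w, ∫⁻ w', ∫⁻ v, ENNReal.ofReal (w - c*√((a*w' + b*v)^2 + σ)) ∂gR ∂gR ∂gR := by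
  obtain ⟨p, hp⟩ : ∃ p : ℝ → ℝ → ℝ≥0∞, p = fun t w => gR {v | c*√((a*w + b*v)^2 + σ) < t} := ⟨_, rfl⟩
  have hpm : Measurable (Function.uncurry p) := by rw [hp]; exact cyl_measurable a b c σ
  have hP : Measurable fun t => ∫⁻ w, p t w ∂gR := Measurable.lintegral_prod_right (f := p) hpm
  have lay : ∀ x w, ∫⁻ v, ENNReal.ofReal (x - c*√((a*w + b*v)^2 + σ)) ∂gR
      = ∫⁻ t in Ioi (0:ℝ), (Ioi t).indicator (fun _ => p t w) x := fun x w => by
    rw [hp]; exact layer_cyl hc x w
  calc ∫⁻ w, ∫⁻ v, ENNReal.ofReal (w - c*√((a*w + b*v)^2 + σ)) ∂gR ∂gR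
      = ∫⁻ x, (∫⁻ t in Ioi (0:ℝ), (Ioi t).indicator (p t) x) ∂gR := by
        refine lintegral_congr fun w => ?_
        rw [lay w w]
        refine lintegral_congr fun t => ?_
        by_cases h : w ∈ Ioi t
        · rw [indicator_of_mem h, indicator_of_mem h]
        · rw [indicator_of_notMem h, indicator_of_notMem h]
    _ = ∫⁻ t in Ioi (0:ℝ), (∫⁻ x in Ioi t, p t x ∂gR) := layer_swap p hpm
    _ ≤ ∫⁻ t in Ioi (0:ℝ), (∫⁻ _x in Ioi t, (∫⁻ w, p t w ∂gR) ∂gR) := by
        refine setLIntegral_mono' measurableSet_Ioi fun t ht => ?_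
        rw [setLIntegral_const, mul_comm]
        refine threshold (hpm.comp (by fun_prop : Measurable fun w => (t, w))) ?_ (le_of_lt ht)
        intro w w' h
        rw [hp]
        exact cyl_anti hc ht h
    _ = ∫⁻ x, (∫⁻ t in Ioi (0:ℝ), (Ioi t).indicator (fun _ => ∫⁻ w, p t w ∂gR) x) ∂gR :=
        (layer_swap (fun t _ => ∫⁻ w, p t w ∂gR) (hP.comp measurable_fst)).symm
    _ = _ := by
        refine lintegral_congr fun x => ?_
        rw [← layer_avg p hpm x]
        exact lintegral_congr fun w => (lay x w).symm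

end Vale.P226
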