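import Vale.Agent.P226.Gauss1

/-! # Radial formulas for the Gaussian measure in dimensions 2, 3, 5 (P226) -/

open MeasureTheory ProbabilityTheory Set Real
open scoped ENNReal NNReal

namespace Vale.P226

lemma ofReal_setIntegral {s : Set ℝ} (hs : MeasurableSet s) {f : ℝ → ℝ} (hi : IntegrableOn f s)
    (h : ∀ x ∈ s, 0 ≤ f x) :
    ∫⁻ x in s, ENNReal.ofReal (f x) = ENNReal.ofReal (∫ x in s, f x) :=
  (ofReal_integral_eq_lintegral_ofReal hi
    ((ae_restrict_iff' hs).mpr (ae_of_all _ h))).symm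

lemma ofReal_Ioo {f : ℝ → ℝ} {a b : ℝ} (hab : a ≤ b) (hf : ContinuousOn f (Icc a b))
    (h : ∀ x ∈ Ioo a b, 0 ≤ f x) :
    ∫⁻ x in Ioo a b, ENNReal.ofReal (f x) = ENNReal.ofReal (∫ x in a..b, f x) := by
  rw [ofReal_setIntegral measurableSet_Ioo
    ((hf.integrableOn_compact isCompact_Icc).mono_set Ioo_subset_Icc_self) h,
    intervalIntegral.integral_of_le hab, integral_Ioc_eq_integral_Ioo]

lemma tri_swap (G : ℝ → ℝ → ℝ≥0∞) (hG : Measurable (Function.uncurry G)) :
    ∫⁻ a, ∫⁻ r in Ioi |a|, G a r = ∫⁻ r in Ioi 0, ∫⁻ a in Ioo (-r) r, G a r := by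
  have hm : Measurable (Function.uncurry fun a r => (Ioi |a|).indicator (G a) r) := by
    have : Function.uncurry (fun a r => (Ioi |a|).indicator (G a) r)
        = {p : ℝ × ℝ | |p.1| < p.2}.indicator (Function.uncurry G) := by
      funext p; obtain ⟨a, r⟩ := p; simp [Set.indicator, Function.uncurry]
    rw [this]
    exact hG.indicator (measurableSet_lt (by fun_prop) (by fun_prop))
  simp_rw [← lintegral_indicator measurableSet_Ioi]
  rw [lintegral_lintegral_swap hm.aemeasurable]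
  refine lintegral_congr fun r => ?_
  by_cases hr : 0 < r
  · rw [indicator_of_mem (mem_Ioi.mpr hr), ← lintegral_indicator measurableSet_Ioo]
    refine lintegral_congr fun a => ?_
    simp [Set.indicator, abs_lt]
  · rw [indicator_of_notMem (by simpa using hr)]
    exact (lintegral_congr fun a => indicator_of_notMem
      (fun h => hr (lt_of_le_of_lt (abs_nonneg a) h)) _).trans lintegral_zero

lemma gw_abs (x : ℝ) : gw |x| = gw x := by simp [gw]

lemma radial2 (F : ℝ → ℝ → ℝ≥0∞) (hF : Measurable (Function.uncurry F)) :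
    ∫⁻ a, ∫⁻ b, F a (√(a^2 + b^2)) ∂gR ∂gR =
      ∫⁻ r in Ioi 0, ENNReal.ofReal ((2*π)⁻¹ * (r * gw r)) *
        ∫⁻ θ in Ioo (-π) π, F (r * cos θ) r := by
  rw [polar_gauss (fun a b => F a (√(a^2 + b^2)))
    (hF.comp (by fun_prop : Measurable fun p : ℝ × ℝ => (p.1, √(p.1^2 + p.2^2))))]
  refine setLIntegral_congr_fun measurableSet_Ioi fun r hr => ?_
  have hr0 : (0:ℝ) < r := hr
  congr 1
  refine lintegral_congr fun θ => ?_
  rw [show (r * cos θ)^2 + (r * sin θ)^2 = r^2 by linear_combination r^2 * cos_sq_add_sin_sq θ,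
    Real.sqrt_sq hr0.le]

lemma shift_gauss {a : ℝ} (F : ℝ → ℝ≥0∞) (hF : Measurable F) :
    ENNReal.ofReal (phi0 * gw a) *
        ∫⁻ ρ in Ioi 0, ENNReal.ofReal (ρ * gw ρ) * F (√(a^2 + ρ^2))
      = ∫⁻ r in Ioi |a|, ENNReal.ofReal (phi0 * (r * gw r)) * F r := by
  rw [← lintegral_const_mul _ (by fun_prop)]
  have h := shift_lintegral (abs_nonneg a) (fun r => ENNReal.ofReal (phi0 * gw r) * F r)
  have e : ∀ r, r ∈ Ioi |a| → ENNReal.ofReal (phi0 * (r * gw r)) * F r
      = ENNReal.ofReal r * (ENNReal.ofReal (phi0 * gw r) * F r) := fun r hr => by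
    rw [← mul_assoc (ENNReal.ofReal r), ← ENNReal.ofReal_mul (le_trans (abs_nonneg a) (le_of_lt hr))]; ring_nf
  rw [setLIntegral_congr_fun measurableSet_Ioi e, ← h]
  refine setLIntegral_congr_fun measurableSet_Ioi fun ρ hρ => ?_
  have hρ0 : (0:ℝ) < ρ := hρ
  rw [← mul_assoc, ← mul_assoc, ← ENNReal.ofReal_mul (mul_nonneg phi0_pos.le (gw_pos _).le),
    ← ENNReal.ofReal_mul hρ0.le, sq_abs, ← gw_mul_gw a ρ]
  ring_nf

lemma radial3 (F : ℝ → ℝ → ℝ≥0∞) (hF : Measurable (Function.uncurry F)) :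
    ∫⁻ a, ∫⁻ b, ∫⁻ c, F a (√(a^2 + (b^2 + c^2))) ∂gR ∂gR ∂gR =
      ∫⁻ r in Ioi 0, ENNReal.ofReal (phi0 * (r * gw r)) * ∫⁻ a in Ioo (-r) r, F a r := by
  have hFa : ∀ a, Measurable (F a) := fun a => hF.comp (by fun_prop : Measurable fun r => (a, r))
  have h1 : ∀ a, ∫⁻ b, ∫⁻ c, F a (√(a^2 + (b^2 + c^2))) ∂gR ∂gR
      = ∫⁻ ρ in Ioi 0, ENNReal.ofReal (ρ * gw ρ) * F a (√(a^2 + ρ^2)) := fun a => by
    rw [← polar_radial (fun ρ => F a (√(a^2 + ρ^2))) ((hFa a).comp (by fun_prop))]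
    refine lintegral_congr fun b => lintegral_congr fun c => ?_
    rw [Real.sq_sqrt (by positivity)]
  simp only [h1]
  rw [lintegral_gR]
  swap
  · exact Measurable.lintegral_prod_right
      (f := fun a ρ : ℝ => ENNReal.ofReal (ρ * gw ρ) * F a (√(a^2 + ρ^2)))
      ((by fun_prop : Measurable fun p : ℝ × ℝ => ENNReal.ofReal (p.2 * gw p.2)).mul
        (hF.comp (by fun_prop : Measurable fun p : ℝ × ℝ => (p.1, √(p.1^2 + p.2^2)))))
  simp only [shift_gauss _ (hFa _)]
  rw [tri_swap (fun a r => ENNReal.ofReal (phi0 * (r * gw r)) * F a r)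
    ((by fun_prop : Measurable fun p : ℝ × ℝ => ENNReal.ofReal (phi0 * (p.2 * gw p.2))).mul hF)]
  refine lintegral_congr fun r => ?_
  exact lintegral_const_mul _ (hF.comp (by fun_prop : Measurable fun a => (a, r)))

lemma radial5 (F : ℝ → ℝ → ℝ≥0∞) (hF : Measurable (Function.uncurry F)) :
    ∫⁻ a, ∫⁻ b, ∫⁻ c, ∫⁻ d, ∫⁻ e, F a (√(a^2 + ((b^2 + c^2) + (d^2 + e^2)))) ∂gR ∂gR ∂gR ∂gR ∂gR =
      ∫⁻ r in Ioi 0, ENNReal.ofReal (phi0 * (r * gw r)) *
        ∫⁻ a in Ioo (-r) r, ENNReal.ofReal ((r^2 - a^2)/2) * F a r := by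
  have hFa : ∀ a, Measurable (F a) := fun a => hF.comp (by fun_prop : Measurable fun r => (a, r))
  set G : ℝ → ℝ → ℝ≥0∞ := fun a ρ => ∫⁻ σ in Ioi 0,
    ENNReal.ofReal (σ * gw σ) * F a (√(a^2 + (ρ^2 + σ^2))) with hG
  have hGm : Measurable (Function.uncurry G) :=
    Measurable.lintegral_prod_right
      (f := fun (p : ℝ × ℝ) (σ : ℝ) => ENNReal.ofReal (σ * gw σ) *
        F p.1 (√(p.1^2 + (p.2^2 + σ^2))))
      ((by fun_prop : Measurable fun p : (ℝ × ℝ) × ℝ => ENNReal.ofReal (p.2 * gw p.2)).mul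
        (hF.comp (by fun_prop : Measurable fun p : (ℝ × ℝ) × ℝ =>
          (p.1.1, √(p.1.1^2 + (p.1.2^2 + p.2^2))))))
  have h1 : ∀ a, ∫⁻ b, ∫⁻ c, ∫⁻ d, ∫⁻ e, F a (√(a^2 + ((b^2 + c^2) + (d^2 + e^2)))) ∂gR ∂gR ∂gR ∂gR
      = ∫⁻ ρ in Ioi 0, ENNReal.ofReal (ρ * gw ρ) * G a ρ := fun a => by
    rw [← polar_radial (G a) (hGm.comp (by fun_prop : Measurable fun ρ => (a, ρ)))]
    refine lintegral_congr fun b => lintegral_congr fun c => ?_
    rw [hG]; simp only
    rw [← polar_radial (fun σ => F a (√(a^2 + ((√(b^2+c^2))^2 + σ^2)))) ((hFa a).comp (by fun_prop))]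
    refine lintegral_congr fun d => lintegral_congr fun e => ?_
    rw [Real.sq_sqrt (by positivity), Real.sq_sqrt (by positivity)]
  simp only [h1]
  rw [lintegral_gR]
  swap
  · exact Measurable.lintegral_prod_right
      (f := fun a ρ : ℝ => ENNReal.ofReal (ρ * gw ρ) * G a ρ)
      ((by fun_prop : Measurable fun p : ℝ × ℝ => ENNReal.ofReal (p.2 * gw p.2)).mul hGm)
  have key : ∀ a, ENNReal.ofReal (phi0 * gw a) * ∫⁻ ρ in Ioi 0, ENNReal.ofReal (ρ * gw ρ) * G a ρ
      = ∫⁻ r in Ioi |a|, ENNReal.ofReal (phi0 * (r * gw r)) * (ENNReal.ofReal ((r^2 - a^2)/2) * F a r) := by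
    intro a
    set M : ℝ → ℝ≥0∞ := fun s => ∫⁻ r in Ioi s, ENNReal.ofReal (phi0 * (r * gw r)) * F a r with hM
    have hA : ∀ ρ ∈ Ioi (0:ℝ), ENNReal.ofReal (phi0 * gw a) * (ENNReal.ofReal (ρ * gw ρ) * G a ρ)
        = ENNReal.ofReal ρ * M (√(|a|^2 + ρ^2)) := by
      intro ρ hρ
      have hρ0 : (0:ℝ) < ρ := hρ
      set s := √(a^2 + ρ^2) with hs
      have hGs : G a ρ = ∫⁻ σ in Ioi 0, ENNReal.ofReal (σ * gw σ) * F a (√(s^2 + σ^2)) := by
        rw [hG]; simp only
        refine lintegral_congr fun σ => ?_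
        rw [hs, Real.sq_sqrt (by positivity)]; ring_nf
      have hp : ENNReal.ofReal (phi0 * gw a) * (ENNReal.ofReal (ρ * gw ρ) * G a ρ)
          = ENNReal.ofReal ρ * (ENNReal.ofReal (phi0 * gw s) * G a ρ) := by
        rw [← mul_assoc, ← mul_assoc, ← ENNReal.ofReal_mul (mul_nonneg phi0_pos.le (gw_pos _).le),
          ← ENNReal.ofReal_mul hρ0.le, hs, ← gw_mul_gw a ρ]
        ring_nf
      rw [hp, hGs, shift_gauss (F a) (hFa a), hM, sq_abs, ← hs, abs_of_nonneg (Real.sqrt_nonneg _)]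
    have hGa : Measurable fun ρ => G a ρ := hGm.comp (by fun_prop : Measurable fun ρ => (a, ρ))
    rw [← lintegral_const_mul _ ((by fun_prop : Measurable fun ρ => ENNReal.ofReal (ρ * gw ρ)).fun_mul hGa),
      setLIntegral_congr_fun measurableSet_Ioi hA, shift_lintegral (abs_nonneg a)]
    -- swap the two integrals
    set f : ℝ → ℝ≥0∞ := fun r => ENNReal.ofReal (phi0 * (r * gw r)) * F a r with hf
    have hfm : Measurable f :=
      (by fun_prop : Measurable fun r => ENNReal.ofReal (phi0 * (r * gw r))).fun_mul (hFa a)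
    have hm : Measurable (Function.uncurry fun s r => (Ioi s).indicator (fun r => ENNReal.ofReal s * f r) r) := by
      have : Function.uncurry (fun s r => (Ioi s).indicator (fun r => ENNReal.ofReal s * f r) r)
          = {p : ℝ × ℝ | p.1 < p.2}.indicator (fun p => ENNReal.ofReal p.1 * f p.2) := by
        funext p; obtain ⟨s, r⟩ := p; simp [Set.indicator, Function.uncurry]
      rw [this]
      exact ((by fun_prop : Measurable fun p : ℝ × ℝ => ENNReal.ofReal p.1).fun_mul
        (hfm.comp measurable_snd)).indicator (measurableSet_lt (by fun_prop) (by fun_prop))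
    have e1 : ∀ s, ENNReal.ofReal s * M s
        = ∫⁻ r, (Ioi s).indicator (fun r => ENNReal.ofReal s * f r) r := fun s => by
      rw [lintegral_indicator measurableSet_Ioi, lintegral_const_mul _ hfm]
    simp only [e1]
    rw [← lintegral_indicator measurableSet_Ioi]
    have e2 : ∀ s, (Ioi |a|).indicator
        (fun s => ∫⁻ r, (Ioi s).indicator (fun r => ENNReal.ofReal s * f r) r) s
        = ∫⁻ r, (Ioi |a|).indicator (fun s => (Ioi s).indicator (fun r => ENNReal.ofReal s * f r) r) s := fun s => by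
      by_cases h : s ∈ Ioi |a| <;> simp [h]
    simp only [e2]
    rw [lintegral_lintegral_swap]
    swap
    · refine Measurable.aemeasurable ?_
      have : Function.uncurry (fun s r => (Ioi |a|).indicator
            (fun s => (Ioi s).indicator (fun r => ENNReal.ofReal s * f r) r) s)
          = {p : ℝ × ℝ | |a| < p.1}.indicator
            (Function.uncurry fun s r => (Ioi s).indicator (fun r => ENNReal.ofReal s * f r) r) := by
        funext p; obtain ⟨s, r⟩ := p; simp [Set.indicator, Function.uncurry]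
      rw [this]
      exact hm.indicator (measurableSet_lt (by fun_prop) (by fun_prop))
    rw [← lintegral_indicator measurableSet_Ioi]
    refine lintegral_congr fun r => ?_
    have e3 : ∀ s, (Ioi |a|).indicator (fun s => (Ioi s).indicator (fun r => ENNReal.ofReal s * f r) r) s
        = (Ioo |a| r).indicator (fun s => ENNReal.ofReal s * f r) s := fun s => by
      by_cases h1 : |a| < s <;> by_cases h2 : s < r <;> simp [h1, h2]
    simp only [e3]
    rw [lintegral_indicator measurableSet_Ioo]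
    by_cases hr : |a| < r
    · rw [indicator_of_mem (mem_Ioi.mpr hr), lintegral_mul_const _ (by fun_prop),
        ofReal_Ioo hr.le (continuousOn_id' _) (fun x hx => le_trans (abs_nonneg a) hx.1.le),
        integral_id, sq_abs, hf]
      ring
    · rw [indicator_of_notMem (by simpa using hr), Ioo_eq_empty hr]; simp
  simp only [key]
  rw [tri_swap (fun a r => ENNReal.ofReal (phi0 * (r * gw r)) * (ENNReal.ofReal ((r^2 - a^2)/2) * F a r))
    ((by fun_prop : Measurable fun p : ℝ × ℝ => ENNReal.ofReal (phi0 * (p.2 * gw p.2))).mul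
      ((by fun_prop : Measurable fun p : ℝ × ℝ => ENNReal.ofReal ((p.2^2 - p.1^2)/2)).mul hF))]
  refine lintegral_congr fun r => ?_
  exact lintegral_const_mul _ ((by fun_prop : Measurable fun a => ENNReal.ofReal ((r^2 - a^2)/2)).fun_mul
    (hF.comp (by fun_prop : Measurable fun a => (a, r))))

end Vale.P226
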